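import Crest.Agent.R220.System

/-! Pointwise bounds for members of the class `Pol`. -/

set_option autoImplicit false
open scoped ContDiff Topology
open MeasureTheory Set Filter Asymptotics

namespace Crest.Agent.R220

open Sm

/-- Sum of squares of the `y`-derivatives of order `< k` of the unknowns. -/
noncomputable def Sys.N2 (d : Sys) (k : ℕ) : Sm := ∑ j ∈ Finset.range k, (d.V j ^ 2 + d.S j ^ 2)

theorem Sys.N2_apply (d : Sys) (k : ℕ) (z : ℝ × ℝ) :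
    d.N2 k z = ∑ j ∈ Finset.range k, (d.V j z ^ 2 + d.S j z ^ 2) := by
  simp [Sys.N2]

theorem Sys.N2_nonneg (d : Sys) (k : ℕ) (z : ℝ × ℝ) : 0 ≤ d.N2 k z := by
  rw [Sys.N2_apply]; positivity

theorem Sys.N2_succ (d : Sys) (k : ℕ) (z : ℝ × ℝ) :
    d.N2 (k + 1) z = d.N2 k z + (d.V k z ^ 2 + d.S k z ^ 2) := by
  rw [Sys.N2_apply, Sys.N2_apply, Finset.sum_range_succ]

theorem Sys.N2_mono (d : Sys) {k k' : ℕ} (h : k ≤ k') (z : ℝ × ℝ) : d.N2 k z ≤ d.N2 k' z := by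
  rw [Sys.N2_apply, Sys.N2_apply]
  exact Finset.sum_le_sum_of_subset_of_nonneg (Finset.range_mono h) fun _ _ _ => by positivity

theorem Sys.sq_le_N2 (d : Sys) {j k : ℕ} (h : j < k) (z : ℝ × ℝ) :
    d.V j z ^ 2 + d.S j z ^ 2 ≤ d.N2 k z := by
  have := d.N2_mono (Nat.succ_le_of_lt h) z
  rw [Sys.N2_succ] at this
  linarith [d.N2_nonneg j z]

theorem one_le_tau {lam : ℝ} (h : 1 ≤ lam) (z : ℝ × ℝ) : 1 ≤ tau lam z := by
  unfold tau; split_ifs; exacts [h, le_rfl]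

theorem tau_of_not_mem {lam : ℝ} {z : ℝ × ℝ} (h : z ∉ crect lam⁻¹ lam⁻¹) : tau lam z = 1 := by
  unfold tau; rw [if_neg h]

theorem tau_of_mem {lam : ℝ} {z : ℝ × ℝ} (h : z ∈ crect lam⁻¹ lam⁻¹) : tau lam z = lam := by
  unfold tau; rw [if_pos h]

/-- The gauge for members of `Pol`. -/
noncomputable def B2 (lam : ℕ → ℝ) (d : ℕ → Sys) (M e : ℕ) (p : ℕ × (ℝ × ℝ)) : ℝ :=
  1 + (d p.1).N2 (M + 1) p.2 + (tau (lam p.1) p.2 ^ e) ^ 2

theorem B2_pos (lam : ℕ → ℝ) (d : ℕ → Sys) (M e : ℕ) (p : ℕ × (ℝ × ℝ)) : 0 < B2 lam d M e p := by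
  have := (d p.1).N2_nonneg (M + 1) p.2
  unfold B2; positivity

section

variable {U : Set (ℝ × ℝ)} {lam : ℕ → ℝ} {N : ℕ} {d : ℕ → Sys} {l : Filter (ℕ × (ℝ × ℝ))}

theorem ev_tau (hlam : Tendsto lam atTop atTop) (hl : l ≤ atTop ×ˢ 𝓟 U) :
    ∀ᶠ p in l, 1 ≤ tau (lam p.1) p.2 := by
  have : ∀ᶠ i in atTop, 1 ≤ lam i := hlam.eventually_ge_atTop 1
  filter_upwards [hl (this.prod_inl (𝓟 U))] with p hp using one_le_tau hp _

theorem B2_mono (hlam : Tendsto lam atTop atTop) (hl : l ≤ atTop ×ˢ 𝓟 U) {M e M' e' : ℕ}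
    (h1 : M ≤ M') (h2 : e ≤ e') : B2 lam d M e =O[l] B2 lam d M' e' := by
  refine IsBigO.of_bound' ?_
  filter_upwards [ev_tau hlam hl] with p hp
  rw [Real.norm_of_nonneg (B2_pos _ _ _ _ _).le, Real.norm_of_nonneg (B2_pos _ _ _ _ _).le]
  unfold B2
  have := (d p.1).N2_mono (Nat.succ_le_succ h1) p.2
  gcongr

/-- The unknowns have bounded `y`-derivatives up to order `n0` along `l`. -/
def KK (l : Filter (ℕ × (ℝ × ℝ))) (d : ℕ → Sys) (n0 : ℕ) : Prop :=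
  ∀ j ≤ n0, (fun p : ℕ × (ℝ × ℝ) => (d p.1).V j p.2) =O[l] (fun _ => (1 : ℝ)) ∧
    (fun p : ℕ × (ℝ × ℝ) => (d p.1).S j p.2) =O[l] fun _ => (1 : ℝ)

theorem N2_bdd {n0 : ℕ} (hK : KK l d n0) {M : ℕ} (hM : M ≤ n0 + 1) :
    (fun p : ℕ × (ℝ × ℝ) => (d p.1).N2 M p.2) =O[l] fun _ => (1 : ℝ) := by
  simp only [Sys.N2_apply]
  refine IsBigO.fun_sum fun j hj => ?_
  have hj' : j ≤ n0 := by have := Finset.mem_range.1 hj; omega
  have h1 := (hK j hj').1.pow 2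
  have h2 := (hK j hj').2.pow 2
  simp only [one_pow] at h1 h2
  exact h1.add h2

theorem B2_bdd {n0 : ℕ} (hK : KK l d n0) {M : ℕ} (hM : M ≤ n0) :
    B2 lam d M 0 =O[l] fun _ => (1 : ℝ) := by
  have h1 := N2_bdd hK (Nat.succ_le_succ hM)
  have h2 : (fun _ : ℕ × (ℝ × ℝ) => (1 : ℝ)) =O[l] fun _ => (1 : ℝ) := isBigO_refl _ _
  exact ((h2.add h1).add h2).congr_left fun p => by simp [B2]

theorem Pol.sq_isBigO (hlam : Tendsto lam atTop atTop) (hl : l ≤ atTop ×ˢ 𝓟 U) {n0 : ℕ}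
    (hK : KK l d n0) (hn : n0 ≤ N) {M Wc W : ℕ} {f : ℕ → Sm} (h : PS U lam N d M Wc W f)
    (hW : W ≤ 2 * n0 + 1) :
    (fun p : ℕ × (ℝ × ℝ) => f p.1 p.2 ^ 2) =O[l] B2 lam d (min M W) (min Wc W - N) := by
  induction h with
  | @coef Wc W c j hc h1 h2 =>
    obtain ⟨K, hK⟩ := hc j
    refine IsBigO.trans ?_ (B2_mono hlam hl (M := 0) (e := j - N) (Nat.zero_le _) (by omega))
    refine IsBigO.of_bound (K ^ 2) ?_
    have : ∀ᶠ p : ℕ × (ℝ × ℝ) in atTop ×ˢ 𝓟 U,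
        |(Sm.dy^[j] (c p.1)) p.2| ≤ K * tau (lam p.1) p.2 ^ (j - N) := by
      rw [eventually_prod_principal_iff]; exact hK
    filter_upwards [hl this] with p hp
    rw [Real.norm_of_nonneg (B2_pos _ _ _ _ _).le, Real.norm_of_nonneg (sq_nonneg _), ← sq_abs]
    have h0 := (d p.1).N2_nonneg (0 + 1) p.2
    calc |(Sm.dy^[j] (c p.1)) p.2| ^ 2 ≤ (K * tau (lam p.1) p.2 ^ (j - N)) ^ 2 := by gcongr
      _ = K ^ 2 * (tau (lam p.1) p.2 ^ (j - N)) ^ 2 := by ring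
      _ ≤ _ := by unfold B2; gcongr; linarith
  | @V Wc W j h1 h2 =>
    refine IsBigO.of_bound' (Eventually.of_forall fun p => ?_)
    rw [Real.norm_of_nonneg (B2_pos _ _ _ _ _).le, Real.norm_of_nonneg (sq_nonneg _)]
    have := (d p.1).sq_le_N2 (j := j) (k := min M W + 1) (by omega) p.2
    unfold B2
    change (d p.1).V j p.2 ^ 2 ≤ _
    nlinarith [sq_nonneg ((d p.1).S j p.2), sq_nonneg (tau (lam p.1) p.2 ^ (min Wc W - N))]
  | @S Wc W j h1 h2 =>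
    refine IsBigO.of_bound' (Eventually.of_forall fun p => ?_)
    rw [Real.norm_of_nonneg (B2_pos _ _ _ _ _).le, Real.norm_of_nonneg (sq_nonneg _)]
    have := (d p.1).sq_le_N2 (j := j) (k := min M W + 1) (by omega) p.2
    unfold B2
    change (d p.1).S j p.2 ^ 2 ≤ _
    nlinarith [sq_nonneg ((d p.1).V j p.2), sq_nonneg (tau (lam p.1) p.2 ^ (min Wc W - N))]
  | @const Wc W r =>
    refine IsBigO.of_bound (r ^ 2) (Eventually.of_forall fun p => ?_)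
    rw [Real.norm_of_nonneg (B2_pos _ _ _ _ _).le, Real.norm_of_nonneg (sq_nonneg _), C_apply]
    have := (d p.1).N2_nonneg (min M W + 1) p.2
    refine le_mul_of_one_le_right (sq_nonneg _) ?_
    unfold B2
    nlinarith [sq_nonneg (tau (lam p.1) p.2 ^ (min Wc W - N))]
  | @add Wc W f g _ _ ih1 ih2 =>
    refine IsBigO.trans ?_ (((ih1 hW).add (ih2 hW)))
    refine IsBigO.of_bound 2 (Eventually.of_forall fun p => ?_)
    rw [Real.norm_of_nonneg (sq_nonneg _), Real.norm_of_nonneg (by positivity), Sm.add_apply]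
    nlinarith [sq_nonneg (f p.1 p.2 - g p.1 p.2)]
  | @mul Wc W f g Wc1 W1 Wc2 W2 _ _ h1 h2 ih1 ih2 =>
    have e : (fun p : ℕ × (ℝ × ℝ) => (f p.1 * g p.1) p.2 ^ 2) =
        fun p => f p.1 p.2 ^ 2 * g p.1 p.2 ^ 2 := by
      funext p; rw [Sm.mul_apply, mul_pow]
    rw [e]
    rcases le_or_gt W1 n0 with h3 | h3
    · have a1 := (ih1 (by omega)).trans (by
        rw [show min Wc1 W1 - N = 0 by omega]; exact B2_bdd hK (by omega))
      have a2 := (ih2 (by omega)).trans (B2_mono hlam hl (M' := min M W) (e' := min Wc W - N)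
        (by omega) (by omega))
      simpa using a1.mul a2
    · have a1 := (ih2 (by omega)).trans (by
        rw [show min Wc2 W2 - N = 0 by omega]; exact B2_bdd hK (by omega))
      have a2 := (ih1 (by omega)).trans (B2_mono hlam hl (M' := min M W) (e' := min Wc W - N)
        (by omega) (by omega))
      simpa using a2.mul a1

/-- The form used below: an explicit constant. -/
theorem Pol.sq_le (hlam : Tendsto lam atTop atTop) (hl : l ≤ atTop ×ˢ 𝓟 U) {n0 : ℕ}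
    (hK : KK l d n0) (hn : n0 ≤ N) {M Wc W : ℕ} {f : ℕ → Sm} (h : PS U lam N d M Wc W f)
    (hW : W ≤ 2 * n0 + 1) : ∃ K : ℝ, 0 < K ∧ ∀ᶠ p in l, f p.1 p.2 ^ 2 ≤
      K * (1 + (d p.1).N2 (M + 1) p.2 + (tau (lam p.1) p.2 ^ (Wc - N)) ^ 2) := by
  have := (Pol.sq_isBigO hlam hl hK hn h hW).trans
    (B2_mono hlam hl (M' := M) (e' := Wc - N) (by omega) (by omega))
  obtain ⟨K, hK0, hK⟩ := this.exists_pos
  refine ⟨K, hK0, ?_⟩
  filter_upwards [hK.bound] with p hp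
  rwa [Real.norm_of_nonneg (B2_pos _ _ _ _ _).le, Real.norm_of_nonneg (sq_nonneg _)] at hp

end

end Crest.Agent.R220
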