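import Crest.Agent.R220.Sm

/-!
Definitions shared by the proof of S0341 (a smooth metric with no local smooth isometric
immersion into three-space): rectangles, `C^m` bounds, bump functions, the model metric, the
Gauss–Codazzi equations and the first-order system they reduce to.
-/

set_option autoImplicit false
open scoped ContDiff Topology
open MeasureTheory Set Filter

namespace Crest.Agent.R220

open Sm

/-- Open rectangle. -/
def orect (a b : ℝ) : Set (ℝ × ℝ) := {z | |z.1| < a ∧ |z.2| < b}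
/-- Closed rectangle. -/
def crect (a b : ℝ) : Set (ℝ × ℝ) := {z | |z.1| ≤ a ∧ |z.2| ≤ b}

theorem isOpen_orect (a b : ℝ) : IsOpen (orect a b) :=
  IsOpen.inter (s := {z : ℝ × ℝ | |z.1| < a}) (t := {z : ℝ × ℝ | |z.2| < b})
    (isOpen_lt (by fun_prop) continuous_const) (isOpen_lt (by fun_prop) continuous_const)

theorem crect_eq (a b : ℝ) : crect a b = Icc (-a) a ×ˢ Icc (-b) b := by
  ext z; simp only [crect, abs_le, mem_ofPred_eq, mem_prod, mem_Icc]

theorem orect_eq (a b : ℝ) : orect a b = Ioo (-a) a ×ˢ Ioo (-b) b := by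
  ext z; simp [orect, abs_lt]

theorem isCompact_crect (a b : ℝ) : IsCompact (crect a b) := by
  rw [crect_eq]; exact isCompact_Icc.prod isCompact_Icc

theorem isClosed_crect (a b : ℝ) : IsClosed (crect a b) := (isCompact_crect a b).isClosed

theorem measurableSet_crect (a b : ℝ) : MeasurableSet (crect a b) :=
  (isClosed_crect a b).measurableSet

theorem convex_orect (a b : ℝ) : Convex ℝ (orect a b) := by
  rw [orect_eq]; exact (convex_Ioo _ _).prod (convex_Ioo _ _)

theorem orect_subset_crect (a b : ℝ) : orect a b ⊆ crect a b := fun _ h => ⟨h.1.le, h.2.le⟩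

theorem crect_subset_orect {a b a' b' : ℝ} (ha : a < a') (hb : b < b') :
    crect a b ⊆ orect a' b' := fun _ h => ⟨h.1.trans_lt ha, h.2.trans_lt hb⟩

theorem crect_mono {a b a' b' : ℝ} (ha : a ≤ a') (hb : b ≤ b') :
    crect a b ⊆ crect a' b' := fun _ h => ⟨h.1.trans ha, h.2.trans hb⟩

theorem volume_real_crect {a b : ℝ} (ha : 0 ≤ a) (hb : 0 ≤ b) :
    (volume (crect a b)).toReal = 4 * a * b := by
  rw [crect_eq, Measure.volume_eq_prod, Measure.prod_prod, ENNReal.toReal_mul, Real.volume_Icc,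
    Real.volume_Icc, ENNReal.toReal_ofReal (by linarith), ENNReal.toReal_ofReal (by linarith)]
  ring

/-! ### `C^m` bounds -/

/-- All partial derivatives of `f` of order at most `m` are bounded by `K` on `U`. -/
def Cb (U : Set (ℝ × ℝ)) : ℕ → ℝ → Sm → Prop
  | 0, K, f => ∀ z ∈ U, |f z| ≤ K
  | m + 1, K, f => (∀ z ∈ U, |f z| ≤ K) ∧ Cb U m K (dx f) ∧ Cb U m K (dy f)

namespace Cb

variable {U : Set (ℝ × ℝ)}

theorem abs_le {m : ℕ} {K : ℝ} {f : Sm} (h : Cb U m K f) : ∀ z ∈ U, |f z| ≤ K := by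
  cases m with
  | zero => exact h
  | succ m => exact h.1

theorem dx {m : ℕ} {K : ℝ} {f : Sm} (h : Cb U (m + 1) K f) : Cb U m K (dx f) := h.2.1
theorem dy {m : ℕ} {K : ℝ} {f : Sm} (h : Cb U (m + 1) K f) : Cb U m K (dy f) := h.2.2

theorem pred : ∀ {m : ℕ} {K : ℝ} {f : Sm}, Cb U (m + 1) K f → Cb U m K f
  | 0, _, _, h => h.1
  | _ + 1, _, _, h => ⟨h.1, pred h.2.1, pred h.2.2⟩

theorem of_le {m m' : ℕ} {K : ℝ} {f : Sm} (h : Cb U m' K f) (hm : m ≤ m') : Cb U m K f := by
  induction hm with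
  | refl => exact h
  | step _ ih => exact ih h.pred

theorem mono : ∀ {m : ℕ} {K K' : ℝ} {f : Sm}, Cb U m K f → K ≤ K' → Cb U m K' f
  | 0, _, _, _, h, hK => fun z hz => (h z hz).trans hK
  | _ + 1, _, _, _, h, hK => ⟨fun z hz => (h.1 z hz).trans hK, mono h.2.1 hK, mono h.2.2 hK⟩

theorem subset {V : Set (ℝ × ℝ)} (hV : V ⊆ U) : ∀ {m : ℕ} {K : ℝ} {f : Sm}, Cb U m K f → Cb V m K f
  | 0, _, _, h => fun z hz => h z (hV hz)
  | _ + 1, _, _, h => ⟨fun z hz => h.1 z (hV hz), subset hV h.2.1, subset hV h.2.2⟩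

theorem congr (hU : IsOpen U) : ∀ {m : ℕ} {K : ℝ} {f g : Sm}, Cb U m K f → (∀ z ∈ U, f z = g z) →
    Cb U m K g
  | 0, _, _, _, h, e => fun z hz => e z hz ▸ h z hz
  | _ + 1, _, _, _, h, e => ⟨fun z hz => e z hz ▸ h.1 z hz, congr hU h.2.1 (dx_eqOn hU e),
      congr hU h.2.2 (dy_eqOn hU e)⟩

theorem iter_dy : ∀ {m j : ℕ} {K : ℝ} {f : Sm}, Cb U (m + j) K f → Cb U m K (Sm.dy^[j] f)
  | _, 0, _, _, h => h
  | m, j + 1, _, f, h => by
      rw [Function.iterate_succ_apply]
      exact iter_dy (m := m) (j := j) (show Cb U (m + j + 1) _ f from h).dy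

theorem zero : ∀ (m : ℕ), Cb U m 0 0
  | 0 => fun z _ => by simp
  | m + 1 => ⟨fun z _ => by simp, by simpa using zero m, by simpa using zero m⟩

theorem const (r : ℝ) : ∀ (m : ℕ), Cb U m |r| (C r)
  | 0 => fun z _ => by simp
  | m + 1 => ⟨fun z _ => by simp, by simpa using (zero m).mono (abs_nonneg r),
      by simpa using (zero m).mono (abs_nonneg r)⟩

theorem add : ∀ {m : ℕ} {K K' : ℝ} {f g : Sm}, Cb U m K f → Cb U m K' g → Cb U m (K + K') (f + g)
  | 0, _, _, _, _, h, h' => fun z hz => (abs_add_le _ _).trans (add_le_add (h z hz) (h' z hz))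
  | _ + 1, _, _, _, _, h, h' =>
    ⟨fun z hz => (abs_add_le _ _).trans (add_le_add (h.1 z hz) (h'.1 z hz)),
      by rw [map_add]; exact add h.2.1 h'.2.1, by rw [map_add]; exact add h.2.2 h'.2.2⟩

theorem neg : ∀ {m : ℕ} {K : ℝ} {f : Sm}, Cb U m K f → Cb U m K (-f)
  | 0, _, _, h => fun z hz => by simpa using h z hz
  | _ + 1, _, _, h => ⟨fun z hz => by simpa using h.1 z hz,
      by rw [map_neg]; exact neg h.2.1, by rw [map_neg]; exact neg h.2.2⟩

theorem mul : ∀ {m : ℕ} {K K' : ℝ} {f g : Sm}, 0 ≤ K → 0 ≤ K' → Cb U m K f → Cb U m K' g →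
    Cb U m (2 ^ m * (K * K')) (f * g)
  | 0, _, _, _, _, hK, _, h, h' => fun z hz => by
      rw [mul_apply, abs_mul, pow_zero, one_mul]
      exact mul_le_mul (h z hz) (h' z hz) (abs_nonneg _) hK
  | m + 1, K, K', f, g, hK, hK', h, h' => by
      refine ⟨fun z hz => ?_, ?_, ?_⟩
      · rw [mul_apply, abs_mul]
        refine (mul_le_mul (h.1 z hz) (h'.1 z hz) (abs_nonneg _) hK).trans ?_
        exact le_mul_of_one_le_left (mul_nonneg hK hK') (one_le_pow₀ (by norm_num))
      · rw [der_mul]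
        exact (add (mul hK hK' h.2.1 h'.pred) (mul hK hK' h.pred h'.2.1)).mono
          (le_of_eq (by ring))
      · rw [der_mul]
        exact (add (mul hK hK' h.2.2 h'.pred) (mul hK hK' h.pred h'.2.2)).mono
          (le_of_eq (by ring))

/-- Translation invariance. -/
theorem translate (b d : ℝ) {V : Set (ℝ × ℝ)} (hV : ∀ z ∈ V, (1 * z.1 + b, 1 * z.2 + d) ∈ U) :
    ∀ {m : ℕ} {K : ℝ} {f : Sm}, Cb U m K f → Cb V m K (pull 1 b 1 d f)
  | 0, _, _, h => fun z hz => h _ (hV z hz)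
  | _ + 1, _, _, h => ⟨fun z hz => h.1 _ (hV z hz),
      by rw [dx_pull, map_one, one_mul]; exact translate b d hV h.2.1,
      by rw [dy_pull, map_one, one_mul]; exact translate b d hV h.2.2⟩

theorem of_isCompact (hU : IsCompact U) : ∀ (m : ℕ) (f : Sm), ∃ K, Cb U m K f
  | 0, f => by
      obtain ⟨K, hK⟩ := hU.exists_bound_of_continuousOn f.continuous.continuousOn
      exact ⟨K, hK⟩
  | m + 1, f => by
      obtain ⟨K, hK⟩ := hU.exists_bound_of_continuousOn f.continuous.continuousOn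
      obtain ⟨K1, h1⟩ := of_isCompact hU m (Sm.dx f)
      obtain ⟨K2, h2⟩ := of_isCompact hU m (Sm.dy f)
      exact ⟨max K (max K1 K2), fun z hz => (hK z hz).trans (le_max_left _ _),
        h1.mono (by simp), h2.mono (by simp)⟩

end Cb

/-- A family of functions with uniform `C^m` bounds (each on its own set). -/
def CBF {ι : Type*} (U : ι → Set (ℝ × ℝ)) (m : ℕ) (f : ι → Sm) : Prop :=
  ∃ K, 0 ≤ K ∧ ∀ i, Cb (U i) m K (f i)

namespace CBF

variable {ι : Type*} {U : ι → Set (ℝ × ℝ)} {m : ℕ} {f g : ι → Sm}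

theorem of_bound {K : ℝ} (h : ∀ i, Cb (U i) m K (f i)) : CBF U m f :=
  ⟨max K 0, le_max_right _ _, fun i => (h i).mono (le_max_left _ _)⟩

theorem add (hf : CBF U m f) (hg : CBF U m g) : CBF U m fun i => f i + g i := by
  obtain ⟨K, hK, h⟩ := hf; obtain ⟨K', hK', h'⟩ := hg
  exact ⟨_, add_nonneg hK hK', fun i => (h i).add (h' i)⟩

theorem neg (hf : CBF U m f) : CBF U m fun i => -f i := by
  obtain ⟨K, hK, h⟩ := hf
  exact ⟨_, hK, fun i => (h i).neg⟩

theorem sub (hf : CBF U m f) (hg : CBF U m g) : CBF U m fun i => f i - g i := by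
  simpa only [sub_eq_add_neg] using hf.add hg.neg

theorem mul (hf : CBF U m f) (hg : CBF U m g) : CBF U m fun i => f i * g i := by
  obtain ⟨K, hK, h⟩ := hf; obtain ⟨K', hK', h'⟩ := hg
  exact ⟨_, by positivity, fun i => (h i).mul hK hK' (h' i)⟩

theorem const (r : ℝ) : CBF U m fun _ => C r := ⟨_, abs_nonneg r, fun _ => Cb.const r m⟩

theorem natCast (n : ℕ) : CBF U m fun _ => (n : Sm) := by
  simpa using const (U := U) (m := m) (n : ℝ)

theorem ofNat (n : ℕ) [n.AtLeastTwo] : CBF U m fun _ => (ofNat(n) : Sm) := natCast n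

theorem one : CBF U m fun _ => (1 : Sm) := by simpa using natCast (U := U) (m := m) 1

theorem pow (hf : CBF U m f) (n : ℕ) : CBF U m fun i => f i ^ n := by
  induction n with
  | zero => simpa using one
  | succ n ih => simpa only [pow_succ] using ih.mul hf

theorem dx (hf : CBF U (m + 1) f) : CBF U m fun i => Sm.dx (f i) := by
  obtain ⟨K, hK, h⟩ := hf; exact ⟨K, hK, fun i => (h i).dx⟩

theorem dy (hf : CBF U (m + 1) f) : CBF U m fun i => Sm.dy (f i) := by
  obtain ⟨K, hK, h⟩ := hf; exact ⟨K, hK, fun i => (h i).dy⟩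

theorem of_le {m' : ℕ} (hf : CBF U m' f) (hm : m ≤ m') : CBF U m f := by
  obtain ⟨K, hK, h⟩ := hf; exact ⟨K, hK, fun i => (h i).of_le hm⟩

theorem succ (h0 : CBF U 0 f) (hx : CBF U m fun i => Sm.dx (f i))
    (hy : CBF U m fun i => Sm.dy (f i)) : CBF U (m + 1) f := by
  obtain ⟨K, hK, h⟩ := h0; obtain ⟨K1, -, h1⟩ := hx; obtain ⟨K2, -, h2⟩ := hy
  exact ⟨max K (max K1 K2), by simp [hK], fun i => ⟨fun z hz => (h i z hz).trans (le_max_left _ _),
    (h1 i).mono (by simp), (h2 i).mono (by simp)⟩⟩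

theorem comp (φ : S1) (hf : CBF U m f) : CBF U m fun i => Sm.comp φ (f i) := by
  have h0 : ∀ φ : S1, CBF U 0 fun i => Sm.comp φ (f i) := by
    intro φ
    obtain ⟨K, hK, h⟩ := hf
    obtain ⟨M, hM⟩ := (isCompact_Icc (a := -K) (b := K)).exists_bound_of_continuousOn
      φ.continuous.continuousOn
    exact of_bound (K := M) fun i z hz => hM _ (abs_le.1 ((h i).abs_le z hz))
  induction m generalizing φ with
  | zero => exact h0 φ
  | succ m ih =>
    refine succ (h0 φ) ?_ ?_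
    · simpa only [dx_comp] using (ih φ.der (hf.of_le (Nat.le_succ m))).mul hf.dx
    · simpa only [dy_comp] using (ih φ.der (hf.of_le (Nat.le_succ m))).mul hf.dy

end CBF

/-! ### Bump functions -/

/-- Mathlib's smooth transition from `0` (on `t ≤ 0`) to `1` (on `t ≥ 1`). -/
noncomputable def st : S1 := ⟨Real.smoothTransition, Real.smoothTransition.contDiff⟩

/-- A bump equal to `1` on `[-r, r]` and to `0` outside `(-R, R)`, when `r < R`. -/
noncomputable def bump (r R : ℝ) : S1 :=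
  ⟨fun t => Real.smoothTransition ((R - t) / (R - r)) * Real.smoothTransition ((R + t) / (R - r)),
    (Real.smoothTransition.contDiff.comp (by fun_prop)).mul
      (Real.smoothTransition.contDiff.comp (by fun_prop))⟩

theorem bump_nonneg (r R t : ℝ) : 0 ≤ bump r R t :=
  mul_nonneg (Real.smoothTransition.nonneg _) (Real.smoothTransition.nonneg _)

theorem bump_le_one (r R t : ℝ) : bump r R t ≤ 1 :=
  mul_le_one₀ (Real.smoothTransition.le_one _) (Real.smoothTransition.nonneg _)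
    (Real.smoothTransition.le_one _)

theorem bump_eq_one {r R t : ℝ} (h : r < R) (ht : |t| ≤ r) : bump r R t = 1 := by
  have h0 : 0 < R - r := by linarith
  obtain ⟨h1, h2⟩ := abs_le.1 ht
  change Real.smoothTransition _ * Real.smoothTransition _ = 1
  rw [Real.smoothTransition.one_of_one_le ((one_le_div h0).2 (by linarith)),
    Real.smoothTransition.one_of_one_le ((one_le_div h0).2 (by linarith)), one_mul]

theorem bump_eq_zero {r R t : ℝ} (h : r < R) (ht : R ≤ |t|) : bump r R t = 0 := by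
  have h0 : 0 < R - r := by linarith
  change Real.smoothTransition _ * Real.smoothTransition _ = 0
  rcases le_abs.1 ht with h1 | h1
  · rw [Real.smoothTransition.zero_of_nonpos (div_nonpos_of_nonpos_of_nonneg (by linarith) h0.le),
      zero_mul]
  · rw [Real.smoothTransition.zero_of_nonpos (x := (R + t) / (R - r))
      (div_nonpos_of_nonpos_of_nonneg (by linarith) h0.le), mul_zero]

/-- Product cut-off: `1` on `crect a b`, `0` outside `orect a' b'` (when `a < a'`, `b < b'`). -/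
noncomputable def cutoff (a a' b b' : ℝ) : Sm := comp (bump a a') X * comp (bump b b') Y

theorem cutoff_nonneg (a a' b b' : ℝ) (z : ℝ × ℝ) : 0 ≤ cutoff a a' b b' z :=
  mul_nonneg (bump_nonneg _ _ _) (bump_nonneg _ _ _)

theorem cutoff_le_one (a a' b b' : ℝ) (z : ℝ × ℝ) : cutoff a a' b b' z ≤ 1 :=
  mul_le_one₀ (bump_le_one _ _ _) (bump_nonneg _ _ _) (bump_le_one _ _ _)

theorem cutoff_eq_one {a a' b b' : ℝ} (ha : a < a') (hb : b < b') {z : ℝ × ℝ}
    (hz : z ∈ crect a b) : cutoff a a' b b' z = 1 := by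
  simp [cutoff, bump_eq_one ha hz.1, bump_eq_one hb hz.2]

theorem cutoff_eq_zero {a a' b b' : ℝ} (ha : a < a') (hb : b < b') {z : ℝ × ℝ}
    (hz : z ∉ orect a' b') : cutoff a a' b b' z = 0 := by
  simp only [orect, mem_ofPred_eq, not_and_or, not_lt] at hz
  rcases hz with hz | hz
  · simp [cutoff, bump_eq_zero ha hz]
  · simp [cutoff, bump_eq_zero hb hz]

theorem hasCompactSupport_of_crect {f : Sm} {a b : ℝ} (h : ∀ z, z ∉ crect a b → f z = 0) :
    HasCompactSupport (f : ℝ × ℝ → ℝ) :=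
  HasCompactSupport.intro (isCompact_crect a b) h

theorem hasCompactSupport_cutoff {a a' b b' : ℝ} (ha : a < a') (hb : b < b') :
    HasCompactSupport (cutoff a a' b b' : ℝ × ℝ → ℝ) :=
  hasCompactSupport_of_crect (a := a') (b := b') fun _ hz =>
    cutoff_eq_zero ha hb fun h => hz (orect_subset_crect _ _ h)

/-- The standard cut-off: `1` on `crect 1 1`, `0` outside `orect 2 2`. -/
noncomputable def chi2 : Sm := cutoff 1 2 1 2

/-- A smooth function equal to `1 / t` for `t ≥ c` (when `c > 0`). -/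
noncomputable def recip (c : ℝ) (hc : 0 < c) : S1 :=
  ⟨fun t => Real.smoothTransition (2 * t / c - 1) * t⁻¹, by
    rw [contDiff_iff_contDiffAt]
    intro t
    by_cases ht : t = 0
    · have : (fun t : ℝ => Real.smoothTransition (2 * t / c - 1) * t⁻¹) =ᶠ[𝓝 t] fun _ => 0 := by
        have : Iio (c / 2) ∈ 𝓝 t := Iio_mem_nhds (by rw [ht]; positivity)
        filter_upwards [this] with u hu
        rw [Real.smoothTransition.zero_of_nonpos, zero_mul]
        rw [sub_nonpos, div_le_one hc]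
        have : u < c / 2 := hu
        linarith
      exact contDiffAt_const.congr_of_eventuallyEq this
    · exact (Real.smoothTransition.contDiff.comp (by fun_prop)).contDiffAt.mul
        (contDiffAt_inv ℝ ht)⟩

theorem recip_eq {c : ℝ} (hc : 0 < c) {t : ℝ} (ht : c ≤ t) : recip c hc t = t⁻¹ := by
  change Real.smoothTransition _ * _ = _
  rw [Real.smoothTransition.one_of_one_le, one_mul]
  rw [le_sub_iff_add_le, le_div_iff₀ hc]; linarith

/-! ### The model metric `dx² + G² dy²` near one island -/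

/-- Background: equals `4 + x - x⁴` for `|x| ≤ 1/2`, and is at least `2` everywhere. -/
noncomputable def g0 : Sm := 4 + comp (bump (1 / 2) 1) X * (X - X ^ 4)

/-- The island perturbation: `(w²/2) x² (y²/ρ² - 1)` on `crect (4ρ) (4ρ)`, supported in
`crect (8ρ) (8ρ)`. -/
noncomputable def isl (ρ w : ℝ) : Sm :=
  C (w ^ 2 / 2) * (X ^ 2 * (C (ρ ^ 2)⁻¹ * Y ^ 2 - 1) * pull (4 * ρ)⁻¹ 0 (4 * ρ)⁻¹ 0 chi2)

/-- A non-negative bump supported in `crect 1 1`, equal to `1` on `crect (1/2) (1/2)`. -/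
noncomputable def Psi : Sm := cutoff (1 / 2) 1 (1 / 2) 1

/-- The point source at scale `1/λ`. -/
noncomputable def src (N : ℕ) (lam : ℝ) : Sm := C (lam ^ (N + 2))⁻¹ * pull lam 0 lam 0 Psi

/-- The model function `G`. -/
noncomputable def Gm (ρ w : ℝ) (N : ℕ) (lam : ℝ) : Sm := g0 - isl ρ w - src N lam

/-- The unperturbed curvature profile: negative on an ellipse, positive outside. -/
noncomputable def e0 (ρ w : ℝ) : Sm := 12 * X ^ 2 + C (w ^ 2) * (C (ρ ^ 2)⁻¹ * Y ^ 2 - 1)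

/-- Gauss–Codazzi equations on `U` for the metric `dx² + G² dy²`, for `(l, m, n)` equal to `G`
times the second fundamental form. -/
structure GC (U : Set (ℝ × ℝ)) (G l m n : Sm) : Prop where
  gauss : ∀ z ∈ U, (l * n - m ^ 2) z = (-G ^ 3 * dx (dx G)) z
  cod1 : ∀ z ∈ U, (G * (dy l - dx m)) z = (dy G * l) z
  cod2 : ∀ z ∈ U, (G * (dx n - dy m)) z = (G ^ 2 * dx G * l - 2 * dy G * m + 2 * dx G * n : Sm) z

/-! ### The first-order system -/

/-- Unknowns `v = 1/n`, `s = m/n` and coefficients of the first-order system. -/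
structure Sys where
  (v s p0 p1 p2 p3 q1 q2 q3 q4 q5 Γ e : Sm)

namespace Sys

variable (d : Sys)

noncomputable def E : Sm := d.Γ * d.e
noncomputable def r1 : Sm := d.v * (d.p0 + d.p1 * d.s + d.p2 * d.s ^ 2) + d.p3 * d.v ^ 3
noncomputable def r2 : Sm :=
  d.q1 * d.s + d.q2 * d.s ^ 2 + d.q3 * d.s ^ 3 + d.E * d.v ^ 2 * (d.q4 + d.q5 * d.s)
noncomputable def eq1 : Sm := dx d.v - d.s * dy d.v + d.v * dy d.s - d.r1
noncomputable def eq2 : Sm := dx d.s - d.s * dy d.s - d.v * dy (d.E * d.v) - d.r2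

/-- The system holds on `U`, with bounds `B`. -/
structure Bdd (U : Set (ℝ × ℝ)) (B : ℝ) : Prop where
  eq1 : ∀ z ∈ U, d.eq1 z = 0
  eq2 : ∀ z ∈ U, d.eq2 z = 0
  v : Cb U 5 B d.v
  s : Cb U 5 B d.s
  p0 : Cb U 1 B d.p0
  p1 : Cb U 1 B d.p1
  p2 : Cb U 1 B d.p2
  p3 : Cb U 1 B d.p3
  q1 : Cb U 1 B d.q1
  q2 : Cb U 1 B d.q2
  q3 : Cb U 1 B d.q3
  q4 : Cb U 1 B d.q4
  q5 : Cb U 1 B d.q5
  Γ : Cb U 1 B d.Γ
  e : Cb U 1 B d.e
  v_low : ∀ z ∈ U, B⁻¹ ≤ d.v z
  Γ_low : ∀ z ∈ U, 1 ≤ d.Γ z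

end Sys

open Classical in
/-- `λ` on the source box, `1` elsewhere. -/
noncomputable def tau (lam : ℝ) (z : ℝ × ℝ) : ℝ := if z ∈ crect lam⁻¹ lam⁻¹ then lam else 1

/-- The `y`-derivatives of order `j` grow at most like `λ^(j-N)`, and only on the source box. -/
def Tame (U : Set (ℝ × ℝ)) (lam : ℕ → ℝ) (N : ℕ) (c : ℕ → Sm) : Prop :=
  ∀ j : ℕ, ∃ K : ℝ, ∀ᶠ i in atTop, ∀ z ∈ U, |(dy^[j] (c i)) z| ≤ K * tau (lam i) z ^ (j - N)

/-- All coefficients of a sequence of systems are tame. -/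
structure TameSys (U : Set (ℝ × ℝ)) (lam : ℕ → ℝ) (N : ℕ) (d : ℕ → Sys) : Prop where
  p0 : Tame U lam N fun i => (d i).p0
  p1 : Tame U lam N fun i => (d i).p1
  p2 : Tame U lam N fun i => (d i).p2
  p3 : Tame U lam N fun i => (d i).p3
  q1 : Tame U lam N fun i => (d i).q1
  q2 : Tame U lam N fun i => (d i).q2
  q3 : Tame U lam N fun i => (d i).q3
  q4 : Tame U lam N fun i => (d i).q4
  q5 : Tame U lam N fun i => (d i).q5
  E : Tame U lam N fun i => (d i).E

/-- Test function: a power of `λ (y + σ x)`, cut off at scale `Λ/λ`. -/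
noncomputable def tst (k : ℕ) (lam Λ σ : ℝ) : Sm :=
  (C lam * (Y + C σ * X)) ^ k * pull (lam / Λ) 0 (lam / Λ) 0 chi2

/-- The source is seen by the test functions. -/
def Source (lam : ℕ → ℝ) (N : ℕ) (E : ℕ → Sm) : Prop :=
  ∀ Λ : ℝ, 1 ≤ Λ → ∀ c0 : ℝ, 0 < c0 → ∀ C0 : ℝ, ∃ c : ℝ, 0 < c ∧ ∀ᶠ i in atTop, ∀ σ : ℝ,
    c0 ≤ |σ| → |σ| ≤ C0 → c * lam i ≤ |∫ z, (dy^[N + 3] (E i) * tst (N + 5) (lam i) Λ σ) z|

/-- The inverse of `G`, where `G ≥ 1`. -/
noncomputable def ginv (G : Sm) : Sm := comp (recip 1 one_pos) G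

/-- The system attached to a metric `dx² + G² dy²` and unknowns `v`, `s`. -/
noncomputable def sysOf (G v s : Sm) : Sys where
  v := v
  s := s
  p0 := -2 * (dx G * ginv G)
  p1 := 2 * (dy G * ginv G)
  p2 := -(G * dx G)
  p3 := -(G * dx G) * (G ^ 3 * -dx (dx G))
  q1 := -2 * (dx G * ginv G)
  q2 := dy G * ginv G
  q3 := -(G * dx G)
  q4 := -(dy G * ginv G)
  q5 := -(G * dx G)
  Γ := G ^ 3
  e := -dx (dx G)

end Crest.Agent.R220
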