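import Crest.Agent.R220.Defs

/-! Divergence identities: the energy identity, the elliptic identity and the test identity. -/

set_option autoImplicit false
open scoped ContDiff Topology
open MeasureTheory Set Filter

namespace Crest.Agent.R220

open Sm

theorem integrableOn_crect (f : Sm) (a b : ℝ) : IntegrableOn (f : ℝ × ℝ → ℝ) (crect a b) :=
  f.continuous.continuousOn.integrableOn_compact (isCompact_crect a b)

/-- The integral over a rectangle of the divergence of a field vanishing outside it is zero. -/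
theorem setIntegral_div {a b : ℝ} {J1 J2 : Sm} (h1 : ∀ z, z ∉ crect a b → J1 z = 0)
    (h2 : ∀ z, z ∉ crect a b → J2 z = 0) : ∫ z in crect a b, (dx J1 + dy J2) z = 0 := by
  have ho : IsOpen (crect a b)ᶜ := (isClosed_crect a b).isOpen_compl
  have c1 := hasCompactSupport_of_crect h1
  have c2 := hasCompactSupport_of_crect h2
  rw [setIntegral_eq_integral_of_forall_compl_eq_zero]
  · simp only [add_apply]
    have i1 : Integrable (dx J1 : ℝ × ℝ → ℝ) := integrable (hasCompactSupport_D c1 _)
    have i2 : Integrable (dy J2 : ℝ × ℝ → ℝ) := integrable (hasCompactSupport_D c2 _)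
    rw [integral_add i1 i2, integral_dx c1, integral_dy c2, add_zero]
  · intro z hz
    rw [Sm.add_apply, dx_zero_on ho h1 z hz, dy_zero_on ho h2 z hz, add_zero]

theorem setIntegral_le_of_div {a b : ℝ} {J1 J2 : Sm} (h1 : ∀ z, z ∉ crect a b → J1 z = 0)
    (h2 : ∀ z, z ∉ crect a b → J2 z = 0) {g h : ℝ × ℝ → ℝ} (hg : IntegrableOn g (crect a b))
    (hh : IntegrableOn h (crect a b)) (hle : ∀ z ∈ crect a b, g z ≤ (dx J1 + dy J2) z + h z) :
    ∫ z in crect a b, g z ≤ ∫ z in crect a b, h z := by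
  have := setIntegral_mono_on hg ((integrableOn_crect (dx J1 + dy J2) a b).add hh)
    (measurableSet_crect a b) hle
  rwa [integral_add' (integrableOn_crect (dx J1 + dy J2) a b) hh, setIntegral_div h1 h2,
    zero_add] at this

/-- First component of the energy current. -/
noncomputable def enJ1 (V S E a b : Sm) : Sm := b * V * S - C (1 / 2) * a * (S ^ 2 - E * V ^ 2)
/-- Second component of the energy current. -/
noncomputable def enJ2 (V S v s E a b : Sm) : Sm :=
  -(b * s * V * S - C (1 / 2) * b * v * S ^ 2 + C (1 / 2) * b * v * E * V ^ 2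
    - C (1 / 2) * a * s * S ^ 2 + C (1 / 2) * a * s * E * V ^ 2 - a * v * E * S * V)

theorem energy_id (V S v s Γ e c11 c12 c21 c22 h om Θ A β W βx η : Sm)
    (homx : dx om = -(om * (h + X * dx h))) (homy : dy om = -(om * (X * dy h)))
    (hh : h = c11 + c22 - dy s) (hA : dy A = 0) (hβy : dy β = W * dy η)
    (hβx : dx β = W * dx η + βx) (z : ℝ × ℝ) (g1 g2 E Ey XE a Xa ay Xv Xh Xη XΘ : ℝ)
    (hg1 : g1 = (dx V - s * dy V + v * dy S - c11 * V - c12 * S) z)
    (hg2 : g2 = (dx S - s * dy S - v * (Γ * e) * dy V - c21 * V - c22 * S) z)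
    (dE : E = Γ z * e z) (dEy : Ey = dy Γ z * e z + Γ z * dy e z)
    (dXE : XE = (dx Γ - s * dy Γ) z * e z + Γ z * (dx e z - s z * dy e z))
    (dXv : Xv = (dx v - s * dy v) z) (dXh : Xh = (dx h - s * dy h) z)
    (dXη : Xη = (dx η - s * dy η) z) (dXΘ : XΘ = (dx Θ - s * dy Θ) z)
    (da : a = v z * A z / 2) (dXa : Xa = v z * dx A z / 2 + Xv * A z / 2)
    (day : ay = dy v z * A z / 2) :
    (dx (enJ1 V S (Γ * e) (Θ * om * (C (1 / 2) * v * A)) (Θ * om * β))
      + dy (enJ2 V S v s (Γ * e) (Θ * om * (C (1 / 2) * v * A)) (Θ * om * β))) z =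
    om z * (Θ z * (
        ((W z * dy η z * v z + β z * dy v z - β z * v z * z.1 * dy h z) / 2 + β z * c12 z
          - (Xa + a * (-h z - z.1 * Xh) - a * dy s z) / 2 - a * c22 z) * S z ^ 2
        + (β z * c21 z - (W z * dy η z * v z * E + β z * (dy v z * E + v z * Ey)
            - β z * v z * E * z.1 * dy h z) / 2
          + (Xa * E + a * XE + a * E * (-h z - z.1 * Xh) - a * E * dy s z) / 2
          + a * E * c11 z) * V z ^ 2
        + ((βx z + W z * Xη) - β z * z.1 * Xh + (ay * v z * E + a * dy v z * E + a * v z * Ey)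
          - a * v z * E * z.1 * dy h z - a * c21 z + a * E * c12 z) * (V z * S z))
      + ((β z * v z * dy Θ z - a * XΘ) / 2 * S z ^ 2
        + (a * E * XΘ - β z * v z * E * dy Θ z) / 2 * V z ^ 2
        + (β z * XΘ + a * v z * E * dy Θ z) * (V z * S z))
      + Θ z * (β z * (S z * g1 + V z * g2) - a * (S z * g2 - E * V z * g1))) := by
  have hh' : h z = c11 z + c22 z - dy s z := by rw [hh]; simp
  subst hg1 hg2 dE dEy dXE dXv dXh dXη dXΘ da dXa day
  simp only [enJ1, enJ2, map_sub, map_add, map_neg, der_mul, der_pow, der_C, homx, homy, hA, hβy,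
    hβx]
  simp only [add_apply, sub_apply, mul_apply, neg_apply, pow_apply, C_apply, zero_apply,
    natCast_apply, X_apply, hh']
  push_cast
  ring

theorem elliptic_id (V S v s E ψ : Sm) (z : ℝ × ℝ) (F1 F2 : ℝ)
    (hF1 : F1 = (dx V - s * dy V + v * dy S) z) (hF2 : F2 = (dx S - s * dy S - v * E * dy V) z) :
    ψ z ^ 2 * (v z * (dy S z ^ 2 + E z * dy V z ^ 2)) =
      (dx (-(ψ ^ 2 * V * dy S)) + dy (ψ ^ 2 * V * dx S)) z
        + (ψ z ^ 2 * (F1 * dy S z - F2 * dy V z) + 2 * ψ z * dx ψ z * V z * dy S z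
          - 2 * ψ z * dy ψ z * V z * (F2 + s z * dy S z + v z * E z * dy V z)) := by
  subst hF1 hF2
  simp only [map_neg, der_mul, der_pow, dy_dx]
  simp only [add_apply, sub_apply, mul_apply, neg_apply, pow_apply, natCast_apply]
  push_cast
  ring

theorem test_id (V S v s E φ1 φ2 : Sm) :
    dx (φ1 * V + φ2 * S) + dy (φ1 * (v * S - s * V) - φ2 * (s * S + v * E * V)) =
      φ1 * (dx V - s * dy V + v * dy S) + φ2 * (dx S - s * dy S - v * E * dy V)
        + V * (dx φ1 - s * dy φ1 - dy s * φ1 - v * E * dy φ2 - dy (v * E) * φ2)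
        + S * (dx φ2 - s * dy φ2 - dy s * φ2 + v * dy φ1 + dy v * φ1) := by
  simp only [map_sub, map_add, der_mul]
  ring

end Crest.Agent.R220
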