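import Crest.Agent.R220.System

/-! Bounds, uniform in all parameters, for the coefficients of the differentiated system. -/

set_option autoImplicit false
open scoped ContDiff Topology
open MeasureTheory Set Filter

namespace Crest.Agent.R220

open Sm

/-- The exponential function. -/
noncomputable def expS : S1 := ⟨Real.exp, Real.contDiff_exp⟩

theorem expS_der : expS.der = expS := by
  unfold S1.der expS; simp

namespace Sys

variable (d : Sys)

/-- The derivative along the ruling direction. -/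
noncomputable def Xd (f : Sm) : Sm := dx f - d.s * dy f
/-- An approximate invariant of `Xd`. -/
noncomputable def eta : Sm := Y + X * (d.s - C (1 / 2) * X * d.Xd d.s)
noncomputable def hh (k : ℕ) : Sm := d.c11 k + d.c22 k - dy d.s
/-- An approximate integrating factor. -/
noncomputable def om (k : ℕ) : Sm := comp expS (-(X * d.hh k))

theorem dx_om (k : ℕ) : dx (d.om k) = -(d.om k * (d.hh k + X * dx (d.hh k))) := by
  rw [om, dx_comp, expS_der, map_neg, der_mul, dx_X]; ring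

theorem dy_om (k : ℕ) : dy (d.om k) = -(d.om k * (X * dy (d.hh k))) := by
  rw [om, dy_comp, expS_der, map_neg, der_mul, dy_X]; ring

theorem om_apply (k : ℕ) (z : ℝ × ℝ) : d.om k z = Real.exp (-(z.1 * d.hh k z)) := rfl

theorem dy_eta : dy d.eta = 1 + X * dy (d.s - C (1 / 2) * X * d.Xd d.s) := by
  rw [eta, map_add, der_mul, dy_X, dy_Y]; ring

theorem Xd_eta : d.Xd d.eta = X ^ 2 * -(C (1 / 2) * d.Xd (d.Xd d.s)) := by
  have h : (C (1 / 2) : Sm) * 2 = 1 := by ext z; simp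
  have e : d.Xd d.s = dx d.s - d.s * dy d.s := rfl
  rw [eta]
  generalize d.Xd d.s = T at e ⊢
  simp only [Xd, map_add, map_sub, der_mul, dx_X, dy_X, dx_Y, dy_Y, der_C]
  linear_combination (-X) * e - X * T * h

/-- The uniform bounds. -/
structure LA (U : Set (ℝ × ℝ)) (B : ℝ) (K : ℕ) : Prop where
  v : Cb U 1 B d.v
  s : Cb U 1 B d.s
  Xv : Cb U 0 B (d.Xd d.v)
  Γ : Cb U 1 B d.Γ
  XΓ : Cb U 0 B (d.Xd d.Γ)
  E : Cb U 0 B d.E
  vE : Cb U 1 B (d.v * d.E)
  hh : ∀ k ≤ K, Cb U 1 B (d.hh k)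
  Xhh : ∀ k ≤ K, Cb U 0 B (d.Xd (d.hh k))
  c11 : ∀ k ≤ K, Cb U 0 B (d.c11 k)
  c12 : ∀ k ≤ K, Cb U 0 B (d.c12 k)
  c21 : ∀ k ≤ K, Cb U 0 B (d.c21 k)
  c22 : ∀ k ≤ K, Cb U 0 B (d.c22 k)
  ct : ∀ k ≤ K, Cb U 0 B (d.ct k)
  v_low : ∀ z ∈ U, B⁻¹ ≤ d.v z
  eta : ∀ z ∈ U, |d.eta z - z.2| ≤ B * |z.1|
  etay : ∀ z ∈ U, |dy d.eta z - 1| ≤ B * |z.1|
  Xeta : ∀ z ∈ U, |d.Xd d.eta z| ≤ B * z.1 ^ 2

end Sys

theorem CBF.eventually {ι : Type*} {U : ι → Set (ℝ × ℝ)} {m : ℕ} {f : ι → Sm} (h : CBF U m f) :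
    ∀ᶠ K in atTop, ∀ i, Cb (U i) m K (f i) := by
  obtain ⟨K, -, h⟩ := h
  filter_upwards [eventually_ge_atTop K] with K' hK i using (h i).mono hK

theorem Cb.X {U : Set (ℝ × ℝ)} (hU : U ⊆ crect 1 1) : ∀ m, Cb U m 1 X
  | 0 => fun _ hz => (hU hz).1
  | m + 1 => ⟨fun _ hz => (hU hz).1, by simpa using Cb.const (U := U) 1 m,
      by simpa using (Cb.zero m).mono zero_le_one⟩

theorem exists_LA (B : ℝ) (K : ℕ) : ∃ B' : ℝ, 100 ≤ B' ∧ (K : ℝ) ≤ B' ∧
    ∀ (d : Sys) (U : Set (ℝ × ℝ)), d.Bdd U B → U ⊆ crect 1 1 → d.LA U B' K := by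
  let ι := {q : Sys × Set (ℝ × ℝ) × ℕ // q.1.Bdd q.2.1 B ∧ q.2.1 ⊆ crect 1 1 ∧ q.2.2 ≤ K}
  let U : ι → Set (ℝ × ℝ) := fun q => q.1.2.1
  let d : ι → Sys := fun q => q.1.1
  have hv : CBF U 5 fun q => (d q).v := .of_bound fun q => q.2.1.v
  have hs : CBF U 5 fun q => (d q).s := .of_bound fun q => q.2.1.s
  have v1 : CBF U 1 fun q => (d q).v := hv.of_le (by norm_num)
  have s1 : CBF U 1 fun q => (d q).s := hs.of_le (by norm_num)
  have s2 : CBF U 2 fun q => (d q).s := hs.of_le (by norm_num)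
  have vy : CBF U 1 fun q => dy (d q).v := (hv.of_le (m := 2) (by norm_num)).dy
  have sy : CBF U 1 fun q => dy (d q).s := s2.dy
  have p0 : CBF U 1 fun q => (d q).p0 := .of_bound fun q => q.2.1.p0
  have p1 : CBF U 1 fun q => (d q).p1 := .of_bound fun q => q.2.1.p1
  have p2 : CBF U 1 fun q => (d q).p2 := .of_bound fun q => q.2.1.p2
  have p3 : CBF U 1 fun q => (d q).p3 := .of_bound fun q => q.2.1.p3
  have q1 : CBF U 1 fun q => (d q).q1 := .of_bound fun q => q.2.1.q1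
  have q2 : CBF U 1 fun q => (d q).q2 := .of_bound fun q => q.2.1.q2
  have q3 : CBF U 1 fun q => (d q).q3 := .of_bound fun q => q.2.1.q3
  have q4 : CBF U 1 fun q => (d q).q4 := .of_bound fun q => q.2.1.q4
  have q5 : CBF U 1 fun q => (d q).q5 := .of_bound fun q => q.2.1.q5
  have hΓ : CBF U 1 fun q => (d q).Γ := .of_bound fun q => q.2.1.Γ
  have he : CBF U 1 fun q => (d q).e := .of_bound fun q => q.2.1.e
  have hE : CBF U 1 fun q => (d q).E := hΓ.mul he
  have hX : CBF U 1 fun _ => X := .of_bound fun q => Cb.X q.2.2.1 1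
  have hk : CBF U 1 fun q => (q.1.2.2 : Sm) := by
    refine .of_bound (K := K) fun q => ?_
    have := (Cb.const (U := U q) (q.1.2.2 : ℝ) 1).mono (K' := K)
      (by rw [Nat.abs_cast]; exact_mod_cast q.2.2.2)
    simpa using this
  have hXd : ∀ {f : ι → Sm}, CBF U 1 f → CBF U 0 fun q => (d q).Xd (f q) := fun hf =>
    hf.dx.sub ((s1.of_le zero_le_one).mul hf.dy)
  have r1v : CBF U 1 fun q => (d q).r1v :=
    ((p0.add (p1.mul s1)).add (p2.mul (s1.pow 2))).add (((CBF.ofNat 3).mul p3).mul (v1.pow 2))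
  have r1s : CBF U 1 fun q => (d q).r1s := v1.mul (p1.add (((CBF.ofNat 2).mul p2).mul s1))
  have r2s : CBF U 1 fun q => (d q).r2s :=
    ((q1.add (((CBF.ofNat 2).mul q2).mul s1)).add (((CBF.ofNat 3).mul q3).mul (s1.pow 2))).add
      ((hE.mul (v1.pow 2)).mul q5)
  have c11 : CBF U 1 fun q => (d q).c11 q.1.2.2 := ((hk.sub .one).mul sy).add r1v
  have c12 : CBF U 1 fun q => (d q).c12 q.1.2.2 := ((hk.sub .one).neg.mul vy).add r1s
  have c22 : CBF U 1 fun q => (d q).c22 q.1.2.2 := ((hk.add .one).mul sy).add r2s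
  have ct : CBF U 1 fun q => (d q).ct q.1.2.2 :=
    ((hk.add .one).mul vy).add (((CBF.ofNat 2).mul v1).mul (q4.add (q5.mul s1)))
  have c21 : CBF U 0 fun q => (d q).c21 q.1.2.2 :=
    ((((hk.add (CBF.ofNat 2)).mul v1).of_le zero_le_one).mul hE.dy).add
      ((hE.mul ct).of_le zero_le_one)
  have hh : CBF U 1 fun q => (d q).hh q.1.2.2 := (c11.add c22).sub sy
  have Xs : CBF U 1 fun q => (d q).Xd (d q).s := s2.dx.sub (s1.mul s2.dy)
  have e1 : CBF U 1 fun q => (d q).s - C (1 / 2) * X * (d q).Xd (d q).s :=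
    s1.sub (((CBF.const _).mul hX).mul Xs)
  have e2 : CBF U 0 fun q => -(C (1 / 2) * (d q).Xd ((d q).Xd (d q).s)) :=
    ((CBF.const _).mul (hXd Xs)).neg
  have key : ∀ᶠ B' in atTop, 100 ≤ B' ∧ (K : ℝ) ≤ B' ∧
      ∀ (d : Sys) (U : Set (ℝ × ℝ)), d.Bdd U B → U ⊆ crect 1 1 → d.LA U B' K := by
    filter_upwards [eventually_ge_atTop (100 : ℝ), eventually_ge_atTop (K : ℝ),
      eventually_ge_atTop B, v1.eventually, s1.eventually, (hXd v1).eventually, hΓ.eventually,
      (hXd hΓ).eventually, (hE.of_le zero_le_one).eventually, (v1.mul hE).eventually,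
      hh.eventually, (hXd hh).eventually, (c11.of_le zero_le_one).eventually,
      (c12.of_le zero_le_one).eventually, c21.eventually, (c22.of_le zero_le_one).eventually,
      (ct.of_le zero_le_one).eventually, e1.eventually, e2.eventually]
      with B' a1 a2 a3 a4 a5 a6 a7 a8 a9 a10 a11 a12 a13 a14 a15 a16 a17 a18 a19
    refine ⟨a1, a2, fun d U hd hU => ?_⟩
    let q : ∀ k, k ≤ K → ι := fun k hk => ⟨(d, U, k), hd, hU, hk⟩
    let q0 := q 0 (Nat.zero_le _)
    refine ⟨a4 q0, a5 q0, a6 q0, a7 q0, a8 q0, a9 q0, a10 q0, fun k hk => a11 (q k hk),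
      fun k hk => a12 (q k hk), fun k hk => a13 (q k hk), fun k hk => a14 (q k hk),
      fun k hk => a15 (q k hk), fun k hk => a16 (q k hk), fun k hk => a17 (q k hk),
      fun z hz => ?_, fun z hz => ?_, fun z hz => ?_, fun z hz => ?_⟩
    · have hB : 0 < B := by
        have := (hd.Γ_low z hz).trans ((le_abs_self _).trans (hd.Γ.abs_le z hz))
        linarith
      exact (inv_anti₀ hB a3).trans (hd.v_low z hz)
    · have := (a18 q0).abs_le z hz
      rw [Sys.eta, Sm.add_apply, Sm.mul_apply, Y_apply, X_apply, add_sub_cancel_left, abs_mul,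
        mul_comm]
      exact mul_le_mul_of_nonneg_right this (abs_nonneg _)
    · have := (a18 q0).dy.abs_le z hz
      rw [Sys.dy_eta, Sm.add_apply, Sm.mul_apply, Sm.one_apply, X_apply, add_sub_cancel_left,
        abs_mul, mul_comm]
      exact mul_le_mul_of_nonneg_right this (abs_nonneg _)
    · have := (a19 q0).abs_le z hz
      rw [Sys.Xd_eta, Sm.mul_apply, Sm.pow_apply, X_apply, abs_mul, mul_comm, abs_of_nonneg
        (sq_nonneg z.1)]
      exact mul_le_mul_of_nonneg_right this (sq_nonneg _)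
  exact key.exists

end Crest.Agent.R220
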