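import Crest.Agent.R220.Bounds
import Crest.Agent.R220.LevelA
import Crest.Agent.R220.Energy

/-! The setting of the a priori estimates, and the estimate in the elliptic region. -/

set_option autoImplicit false
open scoped ContDiff Topology
open MeasureTheory Set Filter Asymptotics

namespace Crest.Agent.R220

open Sm

/-- Standing hypotheses. -/
structure Ctx (B ρ w : ℝ) (N K : ℕ) (d : ℕ → Sys) (lam : ℕ → ℝ) : Prop where
  hB : 100 ≤ B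
  hK : (K : ℝ) ≤ B
  hρ : 0 < ρ
  hρB : ρ * B ^ 10 ≤ 1
  hw : 0 < w
  hwρ : w ≤ ρ ^ 2
  hlam : Tendsto lam atTop atTop
  eq1 : ∀ i, ∀ z ∈ orect (3 * w) (3 * ρ), (d i).eq1 z = 0
  eq2 : ∀ i, ∀ z ∈ orect (3 * w) (3 * ρ), (d i).eq2 z = 0
  la : ∀ i, (d i).LA (orect (3 * w) (3 * ρ)) B K
  Γ_low : ∀ i, ∀ z ∈ orect (3 * w) (3 * ρ), 1 ≤ (d i).Γ z
  eclose : ∀ᶠ i in atTop, Cb (orect (3 * w) (3 * ρ)) 1 (w ^ 3) ((d i).e - e0 ρ w)
  tame : TameSys (orect (3 * w) (3 * ρ)) lam N d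

/-- Weighted `L²` bounds for the derivatives of order `< k` on the rectangle of size `t`. -/
def HS (ρ w : ℝ) (d : ℕ → Sys) (W : ℕ → Sm) (t : ℝ) (k : ℕ) : Prop :=
  ∃ C : ℝ, ∀ᶠ i in atTop, ∫ z in crect (t * w) (t * ρ), (W i * (1 + (d i).N2 k)) z ≤ C

/-- The filter "for large `i`, uniformly on the rectangle of size `t`". -/
abbrev Fl (ρ w t : ℝ) : Filter (ℕ × (ℝ × ℝ)) := atTop ×ˢ 𝓟 (crect (t * w) (t * ρ))

namespace Ctx

variable {B ρ w : ℝ} {N K : ℕ} {d : ℕ → Sys} {lam : ℕ → ℝ}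

theorem ρB (c : Ctx B ρ w N K d lam) : ρ * B ≤ 1 / 100 := by
  have h1 : (100 : ℝ) ^ 9 ≤ B ^ 9 := pow_le_pow_left₀ (by norm_num) c.hB 9
  have h2 : 0 < ρ * B := mul_pos c.hρ (by linarith [c.hB])
  have h3 : ρ * B * 100 ^ 9 ≤ ρ * B * B ^ 9 := by gcongr
  have h4 : ρ * B * B ^ 9 = ρ * B ^ 10 := by ring
  nlinarith [c.hρB]

theorem ρ_le (c : Ctx B ρ w N K d lam) : ρ ≤ 1 / 100 := by
  have := c.ρB; nlinarith [c.hB, c.hρ]

theorem w_le_ρ (c : Ctx B ρ w N K d lam) : w ≤ ρ := by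
  have := c.ρ_le; nlinarith [c.hwρ, c.hρ]

theorem wB (c : Ctx B ρ w N K d lam) : w * B ≤ 1 / 100 := by
  have := c.ρB; have := c.w_le_ρ; nlinarith [c.hB]

theorem sub (c : Ctx B ρ w N K d lam) {t : ℝ} (ht : t < 3) :
    crect (t * w) (t * ρ) ⊆ orect (3 * w) (3 * ρ) :=
  crect_subset_orect (by nlinarith [c.hw]) (by nlinarith [c.hρ])

theorem Fl_le (c : Ctx B ρ w N K d lam) {t : ℝ} (ht : t < 3) :
    Fl ρ w t ≤ atTop ×ˢ 𝓟 (orect (3 * w) (3 * ρ)) :=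
  prod_mono le_rfl (principal_mono.2 (c.sub ht))

theorem F1_eq (c : Ctx B ρ w N K d lam) (i k : ℕ) {z : ℝ × ℝ} (hz : z ∈ orect (3 * w) (3 * ρ)) :
    (d i).F1 k z = ((d i).c11 k * (d i).V k + (d i).c12 k * (d i).S k + (d i).f1 k) z := by
  have := iter_dy_zero_on (isOpen_orect _ _) (c.eq1 i) k z hz
  simp only [Sys.f1, Sm.add_apply, Sm.sub_apply, this]; ring

theorem F2_eq (c : Ctx B ρ w N K d lam) (i k : ℕ) {z : ℝ × ℝ} (hz : z ∈ orect (3 * w) (3 * ρ)) :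
    (d i).F2 k z = ((d i).c21 k * (d i).V k + (d i).c22 k * (d i).S k
      + ((d i).v ^ 2 * dy^[k + 1] (d i).E + (d i).f2 k)) z := by
  have := iter_dy_zero_on (isOpen_orect _ _) (c.eq2 i) k z hz
  simp only [Sys.f2, Sm.add_apply, Sm.sub_apply, this]; ring

/-- The source box eventually lies inside any fixed rectangle. -/
theorem ev_tau_one (c : Ctx B ρ w N K d lam) {a b : ℝ} (ha : 0 < a) (hb : 0 < b) :
    ∀ᶠ i in atTop, ∀ z, z ∉ orect a b → tau (lam i) z = 1 := by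
  have h := tendsto_inv_atTop_zero.comp c.hlam
  filter_upwards [h.eventually (gt_mem_nhds ha), h.eventually (gt_mem_nhds hb)] with i h1 h2 z hz
  exact tau_of_not_mem fun hz' => hz (crect_subset_orect h1 h2 hz')

theorem e_ge (c : Ctx B ρ w N K d lam) : ∀ᶠ i in atTop, ∀ z ∈ orect (3 * w) (3 * ρ),
    z ∉ orect (3 / 2 * w) (3 / 2 * ρ) → w ^ 2 ≤ (d i).E z := by
  filter_upwards [c.eclose] with i hi z hz hz'
  have h1 := (abs_le.1 (hi.abs_le z hz)).1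
  have hw := c.hw
  have hρ := c.hρ
  have hw1 : w ≤ 1 / 100 := c.w_le_ρ.trans c.ρ_le
  have h2 : 5 / 4 * w ^ 2 ≤ e0 ρ w z := by
    simp only [e0, Sm.add_apply, Sm.mul_apply, Sm.sub_apply, Sm.pow_apply, C_apply, X_apply,
      Y_apply, Sm.one_apply, ofNat_apply]
    simp only [orect, mem_ofPred_eq, not_and_or, not_lt] at hz'
    have h3 : 0 ≤ (ρ ^ 2)⁻¹ * z.2 ^ 2 := by positivity
    rcases hz' with h | h
    · have : (3 / 2 * w) ^ 2 ≤ z.1 ^ 2 := by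
        rw [← sq_abs z.1]; exact pow_le_pow_left₀ (by positivity) h 2
      nlinarith [mul_nonneg (sq_nonneg w) h3]
    · have h4 : (3 / 2 * ρ) ^ 2 ≤ z.2 ^ 2 := by
        rw [← sq_abs z.2]; exact pow_le_pow_left₀ (by positivity) h 2
      have h5 : 9 / 4 ≤ (ρ ^ 2)⁻¹ * z.2 ^ 2 := by
        rw [inv_mul_eq_div, le_div_iff₀ (by positivity)]; nlinarith
      nlinarith [mul_le_mul_of_nonneg_left h5 (sq_nonneg w), sq_nonneg z.1]
  rw [Sm.sub_apply] at h1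
  have h3 : w ^ 2 ≤ (d i).e z := by nlinarith [sq_nonneg w]
  rw [Sys.E, Sm.mul_apply]
  nlinarith [c.Γ_low i z hz, sq_nonneg w]

end Ctx

theorem ell_alg (c M : ℝ) (hc : 0 < c) : ∃ C : ℝ, 0 ≤ C ∧
    ∀ ψ ψx ψy F1 F2 V S' V' s vE : ℝ, |ψ| ≤ M → |ψx| ≤ M → |ψy| ≤ M → |s| ≤ M → |vE| ≤ M →
      ψ ^ 2 * (F1 * S' - F2 * V') + 2 * ψ * ψx * V * S' - 2 * ψ * ψy * V * (F2 + s * S' + vE * V')
        ≤ c / 2 * (ψ ^ 2 * (V' ^ 2 + S' ^ 2)) + C * (F1 ^ 2 + F2 ^ 2 + V ^ 2) := by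
  refine ⟨(12 * (M ^ 2 + M ^ 4)) / c + M ^ 2, by positivity,
    fun ψ ψx ψy F1 F2 V S' V' s vE h1 h2 h3 h4 h5 => ?_⟩
  have sq : ∀ {a : ℝ}, |a| ≤ M → a ^ 2 ≤ M ^ 2 := fun h => by
    rw [← sq_abs]; exact pow_le_pow_left₀ (abs_nonneg _) h 2
  have a1 := sq h1; have a2 := sq h2; have a3 := sq h3; have a4 := sq h4; have a5 := sq h5
  set T := F1 ^ 2 + F2 ^ 2 + V ^ 2 with hT
  have hF1 : F1 ^ 2 ≤ T := by nlinarith [sq_nonneg F2, sq_nonneg V]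
  have hF2 : F2 ^ 2 ≤ T := by nlinarith [sq_nonneg F1, sq_nonneg V]
  have hV : V ^ 2 ≤ T := by nlinarith [sq_nonneg F1, sq_nonneg F2]
  have hT0 : 0 ≤ T := by positivity
  set α := ψ * F1 + 2 * ψx * V - 2 * ψy * V * s
  set γ := -(ψ * F2) - 2 * ψy * V * vE
  have b1 : (ψ * F1) ^ 2 ≤ M ^ 2 * T := by rw [mul_pow]; gcongr
  have b2 : (ψx * V) ^ 2 ≤ M ^ 2 * T := by rw [mul_pow]; gcongr
  have b3 : (ψy * V * s) ^ 2 ≤ M ^ 4 * T := by
    calc (ψy * V * s) ^ 2 = ψy ^ 2 * s ^ 2 * V ^ 2 := by ring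
      _ ≤ M ^ 2 * M ^ 2 * T := by gcongr
      _ = _ := by ring
  have b4 : (ψ * F2) ^ 2 ≤ M ^ 2 * T := by rw [mul_pow]; gcongr
  have b5 : (ψy * V * vE) ^ 2 ≤ M ^ 4 * T := by
    calc (ψy * V * vE) ^ 2 = ψy ^ 2 * vE ^ 2 * V ^ 2 := by ring
      _ ≤ M ^ 2 * M ^ 2 * T := by gcongr
      _ = _ := by ring
  have m2 : 0 ≤ M ^ 2 * T := by positivity
  have m4 : 0 ≤ M ^ 4 * T := by positivity
  have hα : α ^ 2 ≤ 15 * ((M ^ 2 + M ^ 4) * T) := by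
    have : α ^ 2 ≤ 3 * ((ψ * F1) ^ 2 + 4 * (ψx * V) ^ 2 + 4 * (ψy * V * s) ^ 2) := by
      nlinarith [sq_nonneg (ψ * F1 - 2 * ψx * V), sq_nonneg (ψ * F1 + 2 * ψy * V * s),
        sq_nonneg (2 * ψx * V + 2 * ψy * V * s)]
    nlinarith
  have hγ : γ ^ 2 ≤ 8 * ((M ^ 2 + M ^ 4) * T) := by
    have : γ ^ 2 ≤ 2 * ((ψ * F2) ^ 2 + 4 * (ψy * V * vE) ^ 2) := by
      nlinarith [sq_nonneg (ψ * F2 - 2 * ψy * V * vE)]
    nlinarith
  have y1 : ∀ P a : ℝ, P * a ≤ c / 2 * P ^ 2 + a ^ 2 / (2 * c) := fun P a => by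
    have : 0 ≤ (c * P - a) ^ 2 / (2 * c) := by positivity
    have e : (c * P - a) ^ 2 / (2 * c) = c / 2 * P ^ 2 + a ^ 2 / (2 * c) - P * a := by
      field_simp; ring
    linarith
  have y2 : -(2 * ψ * ψy * V * F2) ≤ M ^ 2 * T := by
    have : -(2 * ψ * ψy * V * F2) ≤ (ψ * F2) ^ 2 + (ψy * V) ^ 2 := by
      nlinarith [sq_nonneg (ψ * F2 + ψy * V)]
    have e1 : (ψ * F2) ^ 2 ≤ M ^ 2 * F2 ^ 2 := by rw [mul_pow]; gcongr
    have e2 : (ψy * V) ^ 2 ≤ M ^ 2 * V ^ 2 := by rw [mul_pow]; gcongr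
    nlinarith [mul_nonneg (sq_nonneg M) (sq_nonneg F1)]
  have y3 : (α ^ 2 + γ ^ 2) / (2 * c) ≤ 12 * (M ^ 2 + M ^ 4) / c * T := by
    rw [div_le_iff₀ (by positivity)]
    have : 12 * (M ^ 2 + M ^ 4) / c * T * (2 * c) = 24 * ((M ^ 2 + M ^ 4) * T) := by
      field_simp; ring
    nlinarith
  have e : ψ ^ 2 * (F1 * S' - F2 * V') + 2 * ψ * ψx * V * S'
      - 2 * ψ * ψy * V * (F2 + s * S' + vE * V')
      = (ψ * S') * α + (ψ * V') * γ + -(2 * ψ * ψy * V * F2) := by simp only [α, γ]; ring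
  rw [e]
  have := y1 (ψ * S') α
  have := y1 (ψ * V') γ
  rw [add_div] at y3
  nlinarith

section

variable {B ρ w : ℝ} {N K : ℕ} {d : ℕ → Sys} {lam : ℕ → ℝ}

theorem elliptic (c : Ctx B ρ w N K d lam) {W : ℕ → Sm}
    (hW0 : ∀ᶠ i in atTop, ∀ z ∈ orect (3 * w) (3 * ρ), 0 ≤ W i z)
    (hW1 : ∀ᶠ i in atTop, ∀ z ∈ orect (3 * w) (3 * ρ), z ∉ orect (3 / 2 * w) (3 / 2 * ρ) →
      1 ≤ W i z)
    {t : ℝ} (ht : t < 3) {ψ : Sm} (hψ1 : ∀ z, z ∉ crect (t * w) (t * ρ) → ψ z = 0)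
    (hψ2 : ∀ z ∈ orect (3 / 2 * w) (3 / 2 * ρ), ψ z = 0) {n0 k : ℕ} (hn : n0 ≤ N)
    (hk : k + 3 ≤ 2 * n0 + 1) (hKK : KK (Fl ρ w t) d n0) (hH : HS ρ w d W t (k + 3)) :
    ∃ C : ℝ, ∀ᶠ i in atTop, ∫ z in crect (t * w) (t * ρ),
      (ψ ^ 2 * ((d i).V (k + 3) ^ 2 + (d i).S (k + 3) ^ 2)) z ≤ C := by
  have hB0 : 0 < B := by linarith [c.hB]
  have hw := c.hw
  have hρ := c.hρ
  have P1 : PS (orect (3 * w) (3 * ρ)) lam N d (k + 2) (k + 3) (k + 3) fun i =>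
      (d i).c11 (k + 2) * (d i).V (k + 2) + (d i).c12 (k + 2) * (d i).S (k + 2)
        + (d i).f1 (k + 2) :=
    ((((PS_c11 c.tame _).mul' (PS_V _)).add' ((PS_c12 c.tame _).mul' (PS_S _))).add'
      (PS_f1 c.tame k)).mono (by omega) (by omega) (by omega)
  have P2 : PS (orect (3 * w) (3 * ρ)) lam N d (k + 2) (k + 3) (k + 3) fun i =>
      (d i).c21 (k + 2) * (d i).V (k + 2) + (d i).c22 (k + 2) * (d i).S (k + 2)
        + ((d i).v ^ 2 * dy^[k + 2 + 1] (d i).E + (d i).f2 (k + 2)) :=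
    ((((PS_c21 c.tame _).mul' (PS_V _)).add' ((PS_c22 c.tame _).mul' (PS_S _))).add'
      ((PS_main c.tame _).add' (PS_f2 c.tame k))).mono (by omega) (by omega) (by omega)
  obtain ⟨K1, hK1, h1⟩ := Pol.sq_le c.hlam (c.Fl_le ht) hKK hn P1 hk
  obtain ⟨K2, hK2, h2⟩ := Pol.sq_le c.hlam (c.Fl_le ht) hKK hn P2 hk
  rw [eventually_prod_principal_iff] at h1 h2
  obtain ⟨M0, hM0⟩ := Cb.of_isCompact (isCompact_crect (t * w) (t * ρ)) 1 ψ
  have hM : Cb (crect (t * w) (t * ρ)) 1 (max M0 B) ψ := hM0.mono (le_max_left _ _)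
  set c0 := w ^ 2 / B with hc0
  have hc0' : 0 < c0 := by positivity
  obtain ⟨C1, hC1, halg⟩ := ell_alg c0 (max M0 B) hc0'
  obtain ⟨C2, hC2⟩ := hH
  refine ⟨2 / c0 * (C1 * (2 * K1 + 2 * K2 + 1) * C2), ?_⟩
  filter_upwards [h1, h2, hC2, hW0, hW1, c.e_ge,
    c.ev_tau_one (a := 3 / 2 * w) (b := 3 / 2 * ρ) (by positivity) (by positivity)]
    with i h1 h2 hC2 hW0 hW1 hE hτ
  have key := setIntegral_le_of_div (a := t * w) (b := t * ρ)
    (J1 := -(ψ ^ 2 * (d i).V (k + 2) * dy ((d i).S (k + 2))))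
    (J2 := ψ ^ 2 * (d i).V (k + 2) * dx ((d i).S (k + 2)))
    (fun z hz => by simp [hψ1 z hz]) (fun z hz => by simp [hψ1 z hz])
    (integrableOn_crect (C (c0 / 2) * (ψ ^ 2 * ((d i).V (k + 3) ^ 2 + (d i).S (k + 3) ^ 2))) _ _)
    (integrableOn_crect (C (C1 * (2 * K1 + 2 * K2 + 1)) * (W i * (1 + (d i).N2 (k + 3)))) _ _)
    (fun z hz => by
      have hzU := c.sub ht hz
      have hid := elliptic_id ((d i).V (k + 2)) ((d i).S (k + 2)) (d i).v (d i).s (d i).E ψ z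
        ((d i).F1 (k + 2) z) ((d i).F2 (k + 2) z) rfl rfl
      rw [← Sys.V_succ, ← Sys.S_succ] at hid
      have hN := (d i).N2_nonneg (k + 3) z
      simp only [Sm.mul_apply, Sm.add_apply (1 : Sm), Sm.add_apply (_ ^ 2), Sm.pow_apply,
        C_apply, Sm.one_apply]
      by_cases hz' : z ∈ orect (3 / 2 * w) (3 / 2 * ρ)
      · have h0 := hψ2 z hz'
        rw [h0] at hid ⊢
        have : 0 ≤ C1 * (2 * K1 + 2 * K2 + 1) * (W i z * (1 + (d i).N2 (k + 3) z)) := by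
          have := hW0 z hzU; positivity
        rw [← Sys.S_succ]
        linarith
      · have a1 := h1 z hz
        have a2 := h2 z hz
        simp only [hτ z hz', one_pow] at a1 a2
        rw [← c.F1_eq i _ hzU] at a1
        rw [← c.F2_eq i _ hzU] at a2
        have a3 : (d i).V (k + 2) z ^ 2 ≤ (d i).N2 (k + 3) z := by
          have := (d i).sq_le_N2 (j := k + 2) (k := k + 3) (by omega) z
          nlinarith [sq_nonneg ((d i).S (k + 2) z)]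
        have a4 := halg (ψ z) (dx ψ z) (dy ψ z) ((d i).F1 (k + 2) z) ((d i).F2 (k + 2) z)
          ((d i).V (k + 2) z) ((d i).S (k + 2 + 1) z) ((d i).V (k + 2 + 1) z) ((d i).s z)
          ((d i).v z * (d i).E z) (hM.abs_le z hz) (hM.dx.abs_le z hz) (hM.dy.abs_le z hz)
          (((c.la i).s.abs_le z hzU).trans (le_max_right _ _))
          (((c.la i).vE.abs_le z hzU).trans (le_max_right _ _))
        have a5 : c0 * ((d i).V (k + 3) z ^ 2 + (d i).S (k + 3) z ^ 2) ≤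
            (d i).v z * ((d i).S (k + 2 + 1) z ^ 2 + (d i).E z * (d i).V (k + 2 + 1) z ^ 2) := by
          have b1 := (c.la i).v_low z hzU
          have b2 := hE z hzU hz'
          have b3 : w ^ 2 ≤ 1 := by
            have := c.w_le_ρ.trans c.ρ_le; nlinarith
          calc c0 * ((d i).V (k + 3) z ^ 2 + (d i).S (k + 3) z ^ 2)
              = B⁻¹ * (w ^ 2 * (d i).S (k + 3) z ^ 2 + w ^ 2 * (d i).V (k + 3) z ^ 2) := by
                rw [hc0]; ring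
            _ ≤ (d i).v z * (1 * (d i).S (k + 3) z ^ 2 + (d i).E z * (d i).V (k + 3) z ^ 2) := by
                gcongr
                exact (inv_pos.2 hB0).le.trans b1
            _ = _ := by ring
        have a6 := mul_le_mul_of_nonneg_left a5 (sq_nonneg (ψ z))
        have a7 : (d i).F1 (k + 2) z ^ 2 + (d i).F2 (k + 2) z ^ 2 + (d i).V (k + 2) z ^ 2 ≤
            (2 * K1 + 2 * K2 + 1) * (W i z * (1 + (d i).N2 (k + 3) z)) := by
          have b1 := hW1 z hzU hz'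
          have b2 : 1 + (d i).N2 (k + 3) z ≤ W i z * (1 + (d i).N2 (k + 3) z) :=
            le_mul_of_one_le_left (by positivity) b1
          change _ ≤ K1 * (1 + (d i).N2 (k + 3) z + 1) at a1
          change _ ≤ K2 * (1 + (d i).N2 (k + 3) z + 1) at a2
          nlinarith
        have a8 := mul_le_mul_of_nonneg_left a7 hC1
        rw [← Sys.S_succ]
        nlinarith)
  simp only [Sm.mul_apply (C _), C_apply, integral_const_mul] at key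
  have h3 : C1 * (2 * K1 + 2 * K2 + 1) *
      ∫ z in crect (t * w) (t * ρ), (W i * (1 + (d i).N2 (k + 3))) z ≤
      C1 * (2 * K1 + 2 * K2 + 1) * C2 := mul_le_mul_of_nonneg_left hC2 (by positivity)
  have h4 := key.trans h3
  rw [div_mul_eq_mul_div, le_div_iff₀ hc0']
  linarith

end

end Crest.Agent.R220
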