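import Crest.Agent.R220.Defs

/-! From an isometric immersion of `dx² + G² dy²` to the Gauss–Codazzi equations. -/

set_option autoImplicit false
open scoped ContDiff Topology
open MeasureTheory Set Filter

namespace Crest.Agent.R220

open Sm

/-- explicit `3 × 3` determinant -/
def det3 {R : Type*} [CommRing R] (a1 a2 a3 b1 b2 b3 c1 c2 c3 : R) : R :=
  (a2 * b3 - a3 * b2) * c1 + (a3 * b1 - a1 * b3) * c2 + (a1 * b2 - a2 * b1) * c3

theorem frame_expand {a1 a2 a3 b1 b2 b3 u1 u2 u3 G x y : ℝ} (hG : G ≠ 0)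
    (haa : a1 * a1 + a2 * a2 + a3 * a3 = 1) (hab : a1 * b1 + a2 * b2 + a3 * b3 = 0)
    (hbb : b1 * b1 + b2 * b2 + b3 * b3 = G ^ 2)
    (hua : a1 * u1 + a2 * u2 + a3 * u3 = x) (hub : b1 * u1 + b2 * u2 + b3 * u3 = y) :
    u1 = x * a1 + y / G ^ 2 * b1 + det3 a1 a2 a3 b1 b2 b3 u1 u2 u3 / G ^ 2 * (a2 * b3 - a3 * b2) ∧
    u2 = x * a2 + y / G ^ 2 * b2 + det3 a1 a2 a3 b1 b2 b3 u1 u2 u3 / G ^ 2 * (a3 * b1 - a1 * b3) ∧
    u3 = x * a3 + y / G ^ 2 * b3 + det3 a1 a2 a3 b1 b2 b3 u1 u2 u3 / G ^ 2 * (a1 * b2 - a2 * b1) := by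
  have key : ∀ ui ai bi Ni : ℝ,
      ((a1 * a1 + a2 * a2 + a3 * a3) * (b1 * b1 + b2 * b2 + b3 * b3) -
        (a1 * b1 + a2 * b2 + a3 * b3) ^ 2) * ui =
      ((a1 * u1 + a2 * u2 + a3 * u3) * (b1 * b1 + b2 * b2 + b3 * b3) -
        (b1 * u1 + b2 * u2 + b3 * u3) * (a1 * b1 + a2 * b2 + a3 * b3)) * ai +
      ((a1 * a1 + a2 * a2 + a3 * a3) * (b1 * u1 + b2 * u2 + b3 * u3) -
        (a1 * b1 + a2 * b2 + a3 * b3) * (a1 * u1 + a2 * u2 + a3 * u3)) * bi +
      det3 a1 a2 a3 b1 b2 b3 u1 u2 u3 * Ni →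
      ui = x * ai + y / G ^ 2 * bi + det3 a1 a2 a3 b1 b2 b3 u1 u2 u3 / G ^ 2 * Ni := by
    intro ui ai bi Ni h
    rw [haa, hab, hbb, hua, hub] at h
    field_simp
    linear_combination h
  refine ⟨key _ _ _ _ ?_, key _ _ _ _ ?_, key _ _ _ _ ?_⟩ <;> unfold det3 <;> ring

theorem geom_alg {a1 a2 a3 b1 b2 b3 P1 P2 P3 Q1 Q2 Q3 R1 R2 R3 G Gx Gy Gxx : ℝ} (hG : G ≠ 0)
    (haa : a1 * a1 + a2 * a2 + a3 * a3 = 1) (hab : a1 * b1 + a2 * b2 + a3 * b3 = 0)
    (hbb : b1 * b1 + b2 * b2 + b3 * b3 = G ^ 2)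
    (haP : a1 * P1 + a2 * P2 + a3 * P3 = 0) (hbP : b1 * P1 + b2 * P2 + b3 * P3 = 0)
    (haQ : a1 * Q1 + a2 * Q2 + a3 * Q3 = 0) (hbQ : b1 * Q1 + b2 * Q2 + b3 * Q3 = G * Gx)
    (haR : a1 * R1 + a2 * R2 + a3 * R3 = -(G * Gx)) (hbR : b1 * R1 + b2 * R2 + b3 * R3 = G * Gy)
    (h2 : P1 * R1 + P2 * R2 + P3 * R3 - (Q1 * Q1 + Q2 * Q2 + Q3 * Q3) = -(Gx ^ 2 + G * Gxx)) :
    det3 a1 a2 a3 b1 b2 b3 P1 P2 P3 * det3 a1 a2 a3 b1 b2 b3 R1 R2 R3 -
        det3 a1 a2 a3 b1 b2 b3 Q1 Q2 Q3 ^ 2 = -G ^ 3 * Gxx ∧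
    G * (det3 Q1 Q2 Q3 b1 b2 b3 P1 P2 P3 + det3 a1 a2 a3 R1 R2 R3 P1 P2 P3 -
        det3 P1 P2 P3 b1 b2 b3 Q1 Q2 Q3) = Gy * det3 a1 a2 a3 b1 b2 b3 P1 P2 P3 ∧
    G * (det3 P1 P2 P3 b1 b2 b3 R1 R2 R3 + 2 * det3 a1 a2 a3 Q1 Q2 Q3 R1 R2 R3) =
      G ^ 2 * Gx * det3 a1 a2 a3 b1 b2 b3 P1 P2 P3 - 2 * Gy * det3 a1 a2 a3 b1 b2 b3 Q1 Q2 Q3 +
        2 * Gx * det3 a1 a2 a3 b1 b2 b3 R1 R2 R3 := by
  obtain ⟨p1, p2, p3⟩ := frame_expand hG haa hab hbb haP hbP
  obtain ⟨q1, q2, q3⟩ := frame_expand hG haa hab hbb haQ hbQ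
  obtain ⟨r1, r2, r3⟩ := frame_expand hG haa hab hbb haR hbR
  generalize det3 a1 a2 a3 b1 b2 b3 P1 P2 P3 = l at *
  generalize det3 a1 a2 a3 b1 b2 b3 Q1 Q2 Q3 = m at *
  generalize det3 a1 a2 a3 b1 b2 b3 R1 R2 R3 = n at *
  have hD : (a2 * b3 - a3 * b2) ^ 2 + (a3 * b1 - a1 * b3) ^ 2 + (a1 * b2 - a2 * b1) ^ 2 = G ^ 2 := by
    have : (a2 * b3 - a3 * b2) ^ 2 + (a3 * b1 - a1 * b3) ^ 2 + (a1 * b2 - a2 * b1) ^ 2 =
      (a1 * a1 + a2 * a2 + a3 * a3) * (b1 * b1 + b2 * b2 + b3 * b3) -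
        (a1 * b1 + a2 * b2 + a3 * b3) ^ 2 := by ring
    rw [this, haa, hab, hbb]; ring
  clear haP hbP haQ hbQ haR hbR
  subst p1 p2 p3 q1 q2 q3 r1 r2 r3
  refine ⟨?_, ?_, ?_⟩
  · have e : l / G ^ 2 * (n / G ^ 2) * G ^ 2 - ((G * Gx / G ^ 2) ^ 2 * G ^ 2 +
        (m / G ^ 2) ^ 2 * G ^ 2) = -(Gx ^ 2 + G * Gxx) := by
      rw [← h2]
      linear_combination (-(l / G ^ 2 * (n / G ^ 2)) + (m / G ^ 2) ^ 2) * hD +
        (G * Gx / G ^ 2) ^ 2 * hbb
    field_simp at e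
    linear_combination e
  · have e : G * (G * Gy / G ^ 2 * (l / G ^ 2) * G ^ 2) = Gy * l := by field_simp
    rw [← e]
    unfold det3
    linear_combination G * (G * Gy / G ^ 2 * (l / G ^ 2)) * hD
  · have e : G * ((l / G ^ 2 * (G * Gx) + 2 * (G * Gx / G ^ 2 * (n / G ^ 2) -
        m / G ^ 2 * (G * Gy / G ^ 2))) * G ^ 2) = G ^ 2 * Gx * l - 2 * Gy * m + 2 * Gx * n := by
      field_simp; ring
    rw [← e]
    unfold det3
    linear_combination G * (l / G ^ 2 * (G * Gx) + 2 * (G * Gx / G ^ 2 * (n / G ^ 2) -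
        m / G ^ 2 * (G * Gy / G ^ 2))) * hD

theorem geom_sm (G F1 F2 F3 : Sm) (hG : ∀ z, 1 ≤ G z) {V : Set (ℝ × ℝ)} (hV : IsOpen V)
    (h11 : ∀ z ∈ V, (dx F1 * dx F1 + dx F2 * dx F2 + dx F3 * dx F3) z = (1 : Sm) z)
    (h12 : ∀ z ∈ V, (dx F1 * dy F1 + dx F2 * dy F2 + dx F3 * dy F3) z = (0 : Sm) z)
    (h22 : ∀ z ∈ V, (dy F1 * dy F1 + dy F2 * dy F2 + dy F3 * dy F3) z = (G * G) z) :
    ∃ l m n : Sm, GC V G l m n := by
  have h11x := dx_eqOn hV h11
  have h11y := dy_eqOn hV h11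
  have h12x := dx_eqOn hV h12
  have h12y := dy_eqOn hV h12
  have h22x := dx_eqOn hV h22
  have h22y := dy_eqOn hV h22
  have h11yy := dy_eqOn hV h11y
  have h12xy := dy_eqOn hV h12x
  have h22xx := dx_eqOn hV h22x
  have key : ∀ z ∈ V, _ := fun z hz => geom_alg (G := G z) (Gx := dx G z) (Gy := dy G z)
    (Gxx := dx (dx G) z) (a1 := dx F1 z) (a2 := dx F2 z) (a3 := dx F3 z)
    (b1 := dy F1 z) (b2 := dy F2 z) (b3 := dy F3 z)
    (P1 := dx (dx F1) z) (P2 := dx (dx F2) z) (P3 := dx (dx F3) z)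
    (Q1 := dx (dy F1) z) (Q2 := dx (dy F2) z) (Q3 := dx (dy F3) z)
    (R1 := dy (dy F1) z) (R2 := dy (dy F2) z) (R3 := dy (dy F3) z)
    (by linarith [hG z]) (by simpa using h11 z hz) (by simpa using h12 z hz)
    (by have := h22 z hz; simp only [add_apply, mul_apply] at this; linear_combination this)
    (by have := h11x z hz
        simp only [map_add, der_mul, add_apply, mul_apply, Derivation.map_one_eq_zero,
          zero_apply] at this
        linear_combination this / 2)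
    (by have h1 := h12x z hz
        have h2 := h11y z hz
        simp only [map_add, der_mul, add_apply, mul_apply, Derivation.map_one_eq_zero,
          zero_apply, map_zero, dy_dx] at h1 h2
        linear_combination h1 - h2 / 2)
    (by have h2 := h11y z hz
        simp only [map_add, der_mul, add_apply, mul_apply, Derivation.map_one_eq_zero,
          zero_apply, map_zero, dy_dx] at h2
        linear_combination h2 / 2)
    (by have h2 := h22x z hz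
        simp only [map_add, der_mul, add_apply, mul_apply] at h2
        linear_combination h2 / 2)
    (by have h1 := h12y z hz
        have h2 := h22x z hz
        simp only [map_add, der_mul, add_apply, mul_apply,
          zero_apply, map_zero, dy_dx] at h1 h2
        linear_combination h1 - h2 / 2)
    (by have h2 := h22y z hz
        simp only [map_add, der_mul, add_apply, mul_apply] at h2
        linear_combination h2 / 2)
    (by have h1 := h11yy z hz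
        have h2 := h12xy z hz
        have h3 := h22xx z hz
        simp only [map_add, der_mul, add_apply, mul_apply, Derivation.map_one_eq_zero,
          zero_apply, map_zero, dy_dx] at h1 h2 h3
        linear_combination h2 - h1 / 2 - h3 / 2)
  refine ⟨det3 (dx F1) (dx F2) (dx F3) (dy F1) (dy F2) (dy F3)
      (dx (dx F1)) (dx (dx F2)) (dx (dx F3)),
    det3 (dx F1) (dx F2) (dx F3) (dy F1) (dy F2) (dy F3)
      (dx (dy F1)) (dx (dy F2)) (dx (dy F3)),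
    det3 (dx F1) (dx F2) (dx F3) (dy F1) (dy F2) (dy F3)
      (dy (dy F1)) (dy (dy F2)) (dy (dy F3)), ?_, ?_, ?_⟩
  · intro z hz
    have := (key z hz).1
    simp only [det3, add_apply, mul_apply, sub_apply, pow_apply, neg_apply] at this ⊢
    linear_combination this
  · intro z hz
    have := (key z hz).2.1
    simp only [det3, map_add, map_sub, der_mul, dy_dx, add_apply, mul_apply, sub_apply]
      at this ⊢
    linear_combination this
  · intro z hz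
    have := (key z hz).2.2
    simp only [det3, map_add, map_sub, der_mul, dy_dx, add_apply, mul_apply, sub_apply,
      pow_apply, ofNat_apply] at this ⊢
    linear_combination this

theorem geom (G : Sm) (hG : ∀ z, 1 ≤ G z) (U : Set (ℝ × ℝ)) (hU : IsOpen U)
    (h0 : (0 : ℝ × ℝ) ∈ U) (F : ℝ × ℝ → EuclideanSpace ℝ (Fin 3)) (hF : ContDiffOn ℝ ∞ F U)
    (h11 : ∀ z ∈ U, inner ℝ (fderiv ℝ F z (1, 0)) (fderiv ℝ F z (1, 0)) = 1)
    (h12 : ∀ z ∈ U, inner ℝ (fderiv ℝ F z (1, 0)) (fderiv ℝ F z (0, 1)) = 0)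
    (h22 : ∀ z ∈ U, inner ℝ (fderiv ℝ F z (0, 1)) (fderiv ℝ F z (0, 1)) = G z ^ 2) :
    ∃ r : ℝ, 0 < r ∧ ∃ l m n : Sm, GC (orect r r) G l m n := by
  obtain ⟨ε, hε, hball⟩ := Metric.isOpen_iff.1 hU 0 h0
  have hsub : crect (ε / 2) (ε / 2) ⊆ U := by
    intro z hz
    apply hball
    rw [mem_ball_zero_iff, Prod.norm_def, Real.norm_eq_abs, Real.norm_eq_abs]
    exact max_lt (by linarith [hz.1]) (by linarith [hz.2])
  have hext : ∀ i : Fin 3, ∃ g : Sm, ∀ z ∈ crect (ε / 2) (ε / 2), g z = F z i := fun i =>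
    exists_extend hU (isCompact_crect _ _) hsub (contDiffOn_euclidean.1 hF i)
  choose g hg using hext
  have hD : ∀ z ∈ orect (ε / 2) (ε / 2), ∀ i u, D u (g i) z = fderiv ℝ F z u i := by
    intro z hz i u
    have hzU := hsub (orect_subset_crect _ _ hz)
    have hd : DifferentiableAt ℝ F z := (hF.contDiffAt (hU.mem_nhds hzU)).differentiableAt (by simp)
    have h1 : (g i : ℝ × ℝ → ℝ) =ᶠ[𝓝 z] fun z => F z i := by
      filter_upwards [(isOpen_orect _ _).mem_nhds hz] with y hy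
        using hg i y (orect_subset_crect _ _ hy)
    rw [D_apply, h1.fderiv_eq]
    have h2 := ((EuclideanSpace.proj (𝕜 := ℝ) i).hasFDerivAt.comp z hd.hasFDerivAt).fderiv
    have h3 : (fun z => F z i) = (EuclideanSpace.proj (𝕜 := ℝ) i) ∘ F := rfl
    rw [h3, h2]; rfl
  refine ⟨ε / 2, by positivity, geom_sm G (g 0) (g 1) (g 2) hG (isOpen_orect _ _) ?_ ?_ ?_⟩
  · intro z hz
    have := h11 z (hsub (orect_subset_crect _ _ hz))
    simp only [PiLp.inner_apply, Fin.sum_univ_three, RCLike.inner_apply, conj_trivial] at this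
    simp only [add_apply, mul_apply, one_apply, dx, hD z hz]
    linear_combination this
  · intro z hz
    have := h12 z (hsub (orect_subset_crect _ _ hz))
    simp only [PiLp.inner_apply, Fin.sum_univ_three, RCLike.inner_apply, conj_trivial] at this
    simp only [add_apply, mul_apply, zero_apply, dx, dy, hD z hz]
    linear_combination this
  · intro z hz
    have := h22 z (hsub (orect_subset_crect _ _ hz))
    simp only [PiLp.inner_apply, Fin.sum_univ_three, RCLike.inner_apply, conj_trivial] at this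
    simp only [add_apply, mul_apply, dy, hD z hz]
    linear_combination this

end Crest.Agent.R220
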