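import Crest.Agent.R220.Defs

/-! A lower bound for `n` along the positive `y`-axis. -/

set_option autoImplicit false
open scoped ContDiff Topology
open MeasureTheory Set Filter

namespace Crest.Agent.R220

open Sm

theorem GC.neg {U : Set (ℝ × ℝ)} {G l m n : Sm} (h : GC U G l m n) : GC U G (-l) (-m) (-n) := by
  refine ⟨fun z hz => ?_, fun z hz => ?_, fun z hz => ?_⟩
  · have := h.gauss z hz
    simp only [Sm.sub_apply, Sm.mul_apply, Sm.neg_apply, Sm.pow_apply] at this ⊢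
    linear_combination this
  · have := h.cod1 z hz
    simp only [Sm.sub_apply, Sm.mul_apply, Sm.neg_apply, map_neg] at this ⊢
    linear_combination -this
  · have := h.cod2 z hz
    simp only [Sm.sub_apply, Sm.add_apply, Sm.mul_apply, Sm.neg_apply, map_neg, Sm.pow_apply, Sm.ofNat_apply]
      at this ⊢
    linear_combination -this

theorem lower_of_eventually {P : ℝ × ℝ → Prop} (h : ∀ᶠ z in 𝓝 (0 : ℝ × ℝ), P z) :
    ∃ r' : ℝ, 0 < r' ∧ ∀ z : ℝ × ℝ, 0 < z.2 → z.2 < r' → |z.1| ≤ z.2 ^ 2 → P z ∧ ‖z‖ = z.2 := by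
  obtain ⟨ε, hε, hball⟩ := Metric.eventually_nhds_iff.1 h
  refine ⟨min ε 1, by positivity, fun z h0 h1 h2 => ?_⟩
  have h3 : z.2 < ε := h1.trans_le (min_le_left _ _)
  have h4 : z.2 < 1 := h1.trans_le (min_le_right _ _)
  have h5 : ‖z‖ = z.2 := by
    rw [Prod.norm_def, Real.norm_eq_abs, Real.norm_eq_abs, abs_of_pos h0]
    exact max_eq_right (by nlinarith)
  exact ⟨hball (by rw [dist_zero_right, h5]; exact h3), h5⟩

theorem exists_sign {a : ℝ} (ha : a ≠ 0) : ∃ σ : ℝ, (σ = 1 ∨ σ = -1) ∧ 0 < σ * a := by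
  rcases lt_or_gt_of_ne ha with h | h
  · exact ⟨-1, Or.inr rfl, by linarith⟩
  · exact ⟨1, Or.inl rfl, by linarith⟩

theorem lower (G l m n : Sm) (r : ℝ) (hr : 0 < r) (h : GC (orect r r) G l m n)
    (hG : ∀ z : ℝ × ℝ, z.2 ≤ 0 → G z = g0 z) :
    ∃ σ : ℝ, (σ = 1 ∨ σ = -1) ∧ ∃ r' : ℝ, 0 < r' ∧ ∀ z : ℝ × ℝ, 0 < z.2 → z.2 < r' →
      |z.1| ≤ z.2 ^ 2 → -z.2 ^ 4 ≤ (-G ^ 3 * dx (dx G)) z → z.2 ^ 3 ≤ σ * n z := by
  set ρ := min r (1 / 2) with hρ
  have hρ0 : 0 < ρ := by positivity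
  set V : Set (ℝ × ℝ) := Ioo (-ρ) ρ ×ˢ Ioo (-ρ) 0 with hVdef
  have hV : IsOpen V := isOpen_Ioo.prod isOpen_Ioo
  have hVr : V ⊆ orect r r := by
    rintro z ⟨h1, h2⟩
    have := min_le_left r (1 / 2)
    exact ⟨abs_lt.2 ⟨by linarith [h1.1], by linarith [h1.2]⟩,
      abs_lt.2 ⟨by linarith [h2.1], by linarith [h2.2]⟩⟩
  have h0 : (0 : ℝ × ℝ) ∈ closure V := by
    rw [hVdef, closure_prod_eq, closure_Ioo (by linarith), closure_Ioo (by linarith)]
    exact ⟨⟨by simp; linarith, by simp; linarith⟩, ⟨by simp; linarith, by simp⟩⟩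
  set g : Sm := 4 + (X - X ^ 4) with hg
  have hGg : ∀ z ∈ V, G z = g z := by
    rintro z ⟨h1, h2⟩
    have := min_le_right r (1 / 2)
    rw [hG z h2.2.le]
    have hb : bump (1 / 2) 1 z.1 = 1 :=
      bump_eq_one (by norm_num) (abs_le.2 ⟨by linarith [h1.1], by linarith [h1.2]⟩)
    simp only [g0, hg, Sm.add_apply, Sm.mul_apply, comp_apply, X_apply, hb, one_mul]
  have hgx : dx g = 1 - 4 * X ^ 3 := by
    simp only [hg, map_add, map_sub, der_pow, der_ofNat, dx_X]; norm_num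
  have hgy : dy g = 0 := by
    simp only [hg, map_add, map_sub, der_pow, der_ofNat, dy_X]; norm_num
  have hgxx : dx (dx g) = -(12 * X ^ 2) := by
    rw [hgx]
    simp only [map_sub, der_mul, der_pow, der_ofNat, dx_X, Derivation.map_one_eq_zero]
    norm_num; ring
  have hGx := dx_eqOn hV hGg
  have hGy := dy_eqOn hV hGg
  have hGxx := dx_eqOn hV hGx
  have hφ : ∀ z ∈ V, (l * n - m * m - 12 * (X * X) * (g * g * g)) z = 0 := by
    intro z hz
    have := h.gauss z (hVr hz)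
    simp only [Sm.sub_apply, Sm.mul_apply, Sm.neg_apply, Sm.pow_apply, hGg z hz, hGxx z hz, hgxx,
      Sm.ofNat_apply] at this ⊢
    linear_combination this
  have hc1 : ∀ z ∈ V, (g * (dy l - dx m)) z = 0 := by
    intro z hz
    have := h.cod1 z (hVr hz)
    simp only [Sm.sub_apply, Sm.mul_apply, hGg z hz, hGy z hz, hgy, Sm.zero_apply] at this ⊢
    linear_combination this
  have hc2 : ∀ z ∈ V, (g * (dx n - dy m) - (g ^ 2 * dx g * l + 2 * dx g * n) : Sm) z = 0 := by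
    intro z hz
    have := h.cod2 z (hVr hz)
    simp only [Sm.sub_apply, Sm.add_apply, Sm.mul_apply, Sm.pow_apply, hGg z hz, hGx z hz, hGy z hz, hgy,
      Sm.zero_apply, Sm.ofNat_apply] at this ⊢
    linear_combination this
  have g00 : g 0 = 4 := by simp [hg]
  have gx0 : dx g 0 = 1 := by simp [hgx]
  have e0 := zero_on_closure hφ 0 h0
  have ex := zero_on_closure (dx_zero_on hV hφ) 0 h0
  have exx := zero_on_closure (dx_zero_on hV (dx_zero_on hV hφ)) 0 h0
  have exy := zero_on_closure (dx_zero_on hV (dy_zero_on hV hφ)) 0 h0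
  have eyy := zero_on_closure (dy_zero_on hV (dy_zero_on hV hφ)) 0 h0
  have e1 := zero_on_closure hc1 0 h0
  have e2 := zero_on_closure hc2 0 h0
  simp only [map_sub, map_add, der_mul, der_ofNat, dx_X, dy_X, hgy, map_zero, Sm.sub_apply, Sm.add_apply,
    Sm.mul_apply, Sm.pow_apply, Sm.ofNat_apply, Sm.zero_apply, Sm.one_apply, X_apply, Prod.fst_zero, g00, gx0,
    Derivation.map_one_eq_zero] at e0 ex exx exy eyy e1 e2
  by_cases hn : n 0 = 0
  swap
  · obtain ⟨σ, hσ, hσn⟩ := exists_sign hn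
    have hev : ∀ᶠ z in 𝓝 (0 : ℝ × ℝ), z.2 ^ 3 < σ * n z := by
      apply ContinuousAt.eventually_lt (by fun_prop) (by fun_prop)
      simpa using hσn
    obtain ⟨r', hr', H⟩ := lower_of_eventually hev
    exact ⟨σ, hσ, r', hr', fun z h1 h2 h3 _ => (H z h1 h2 h3).1.le⟩
  have hm : m 0 = 0 := by
    have : m 0 * m 0 = 0 := by rw [hn] at e0; linear_combination -e0
    exact mul_self_eq_zero.1 this
  have hl : l 0 ≠ 0 := by
    intro hl
    rw [hn, hm, hl] at exx exy eyy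
    rw [hn, hl] at e2
    have b1 : dy l 0 = dx m 0 := by linear_combination e1 / 4
    have b2 : dx n 0 = dy m 0 := by linear_combination e2 / 4
    rw [b2] at exx
    rw [b1, b2] at exy
    rw [b1] at eyy
    have hc : dy m 0 * 768 = 0 := by
      linear_combination (-dy m 0 / 2) * exx + dx m 0 * exy - (dx l 0 / 2) * eyy
    have hc' : dy m 0 = 0 := by linarith
    rw [hc'] at exx
    nlinarith [sq_nonneg (dx m 0)]
  have hnx : dx n 0 = 0 := by
    rw [hn, hm] at ex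
    have : l 0 * dx n 0 = 0 := by linear_combination ex
    exact (mul_eq_zero.1 this).resolve_left hl
  have hmy : dy m 0 = -4 * l 0 := by rw [hn, hnx] at e2; linear_combination -e2 / 4
  obtain ⟨σ, hσ, hσl⟩ := exists_sign hl
  have hσ2 : σ * σ = 1 := by rcases hσ with rfl | rfl <;> norm_num
  set c := σ * l 0 with hc
  have hlo := ((m.differentiable 0).hasFDerivAt.isLittleO).def hσl
  have ev1 : ∀ᶠ z in 𝓝 (0 : ℝ × ℝ), 0 < σ * l z :=
    ContinuousAt.eventually_lt (by fun_prop) (by fun_prop) hσl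
  have ev2 : ∀ᶠ z in 𝓝 (0 : ℝ × ℝ), σ * l z < 2 * c :=
    ContinuousAt.eventually_lt (by fun_prop) (by fun_prop) (by simp only [← hc]; linarith)
  have ev3 : ∀ᶠ z in 𝓝 (0 : ℝ × ℝ), z.2 * |dx m 0| < c :=
    ContinuousAt.eventually_lt (by fun_prop) (by fun_prop) (by simpa using hσl)
  have ev4 : ∀ᶠ z in 𝓝 (0 : ℝ × ℝ), 2 * c * z.2 + z.2 ^ 2 < 4 * c ^ 2 :=
    ContinuousAt.eventually_lt (by fun_prop) (by fun_prop) (by simp; positivity)
  have ev5 : ∀ᶠ z in 𝓝 (0 : ℝ × ℝ), z ∈ orect r r :=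
    (isOpen_orect r r).mem_nhds ⟨by simpa using hr, by simpa using hr⟩
  obtain ⟨r', hr', H⟩ := lower_of_eventually (hlo.and (ev1.and (ev2.and (ev3.and (ev4.and ev5)))))
  refine ⟨σ, hσ, r', hr', fun z h1 h2 h3 h4 => ?_⟩
  obtain ⟨⟨k0, k1, k2, k3, k4, k5⟩, hz⟩ := H z h1 h2 h3
  rw [sub_zero, hz, hm, sub_zero, fderiv_apply, hmy, Real.norm_eq_abs] at k0
  have hgs := h.gauss z k5
  rw [← hgs] at h4
  simp only [Sm.sub_apply, Sm.mul_apply, Sm.pow_apply] at h4
  -- lower bound for `|m|`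
  have k6 : 2 * c * z.2 ≤ -(σ * m z) := by
    have a1 : |σ| = 1 := by rcases hσ with rfl | rfl <;> norm_num
    have a2 : σ * (m z - (z.1 * dx m 0 + z.2 * (-4 * l 0))) ≤ c * z.2 := by
      refine (le_abs_self _).trans ?_
      rw [abs_mul, a1, one_mul]; exact k0
    have a3 : σ * (z.1 * dx m 0) ≤ c * z.2 := by
      refine (le_abs_self _).trans ?_
      rw [abs_mul, a1, one_mul, abs_mul]
      calc |z.1| * |dx m 0| ≤ z.2 ^ 2 * |dx m 0| := by gcongr
        _ = z.2 * (z.2 * |dx m 0|) := by ring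
        _ ≤ z.2 * c := by gcongr
        _ = c * z.2 := by ring
    have a4 : σ * (z.2 * (-4 * l 0)) = -4 * c * z.2 := by rw [hc]; ring
    nlinarith
  have k7 : 4 * c ^ 2 * z.2 ^ 2 ≤ m z ^ 2 := by
    have a1 : m z ^ 2 = (-(σ * m z)) ^ 2 := by linear_combination (-m z ^ 2) * hσ2
    rw [a1]
    have : 0 ≤ 2 * c * z.2 := by positivity
    nlinarith
  have k8 : 2 * c * z.2 ^ 3 < (σ * l z) * (σ * n z) := by
    have a1 : (σ * l z) * (σ * n z) = l z * n z := by linear_combination (l z * n z) * hσ2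
    rw [a1]
    have a2 : 0 < z.2 ^ 2 := by positivity
    nlinarith [mul_lt_mul_of_pos_left k4 a2]
  by_contra hcon
  push Not at hcon
  have a3 : 0 < z.2 ^ 3 := by positivity
  nlinarith [mul_lt_mul_of_pos_left hcon k1, mul_lt_mul_of_pos_left k2 a3]

end Crest.Agent.R220
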