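import Crest.Agent.R220.Island
import Crest.Agent.R220.Lower

/-! The global metric: islands accumulating at the origin. -/

set_option autoImplicit false
open scoped ContDiff Topology
open MeasureTheory Set Filter

namespace Crest.Agent.R220

open Sm

theorem Cb.C_mul {U : Set (ℝ × ℝ)} (c : ℝ) : ∀ {m : ℕ} {K : ℝ} {f : Sm}, Cb U m K f →
    Cb U m (|c| * K) (C c * f)
  | 0, _, _, h => fun z hz => by
      rw [Sm.mul_apply, abs_mul, C_apply]
      exact mul_le_mul_of_nonneg_left (h z hz) (abs_nonneg _)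
  | _ + 1, _, _, h => ⟨fun z hz => by
      rw [Sm.mul_apply, abs_mul, C_apply]
      exact mul_le_mul_of_nonneg_left (h.1 z hz) (abs_nonneg _),
      by rw [der_C_mul]; exact Cb.C_mul c h.2.1, by rw [der_C_mul]; exact Cb.C_mul c h.2.2⟩

theorem Cb.scale {lam : ℝ} (hl : 1 ≤ lam) : ∀ {m : ℕ} {K : ℝ} {f : Sm}, 0 ≤ K →
    Cb univ m K f → Cb univ m (lam ^ m * K) (pull lam 0 lam 0 f)
  | 0, _, _, _, h => fun z _ => by
      rw [pow_zero, one_mul]; exact h _ trivial
  | m + 1, K, f, hK, h => by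
      have e : |lam| * (lam ^ m * K) = lam ^ (m + 1) * K := by
        rw [abs_of_pos (by linarith)]; ring
      refine ⟨fun z _ => ?_, ?_, ?_⟩
      · exact (h.1 _ trivial).trans (le_mul_of_one_le_left hK (one_le_pow₀ hl))
      · rw [dx_pull, ← e]; exact Cb.C_mul lam (Cb.scale hl hK h.2.1)
      · rw [dy_pull, ← e]; exact Cb.C_mul lam (Cb.scale hl hK h.2.2)

theorem Cb.of_hasCompactSupport : ∀ (m : ℕ) (f : Sm), HasCompactSupport (f : ℝ × ℝ → ℝ) →
    ∃ K, 0 ≤ K ∧ Cb univ m K f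
  | 0, f, hf => by
      obtain ⟨K, hK⟩ := f.continuous.bounded_above_of_compact_support hf
      exact ⟨K, (norm_nonneg _).trans (hK 0), fun z _ => hK z⟩
  | m + 1, f, hf => by
      obtain ⟨K, hK⟩ := f.continuous.bounded_above_of_compact_support hf
      obtain ⟨K1, h0, h1⟩ := Cb.of_hasCompactSupport m (Sm.dx f) (hasCompactSupport_D hf _)
      obtain ⟨K2, -, h2⟩ := Cb.of_hasCompactSupport m (Sm.dy f) (hasCompactSupport_D hf _)
      exact ⟨max K (max K1 K2), by simp [h0], fun z _ => (hK z).trans (le_max_left _ _),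
        h1.mono (by simp), h2.mono (by simp)⟩

theorem Cb.norm_iteratedFDeriv_le : ∀ (k : ℕ) {K : ℝ} {f : Sm}, Cb univ k K f → ∀ z,
    ‖iteratedFDeriv ℝ k (f : ℝ × ℝ → ℝ) z‖ ≤ 2 ^ k * K
  | 0, K, f, h, z => by simpa using h z trivial
  | k + 1, K, f, h, z => by
      rw [← norm_iteratedFDeriv_fderiv]
      set A := ContinuousLinearMap.toSpanSingleton ℝ (ContinuousLinearMap.fst ℝ ℝ ℝ) with hA
      set B := ContinuousLinearMap.toSpanSingleton ℝ (ContinuousLinearMap.snd ℝ ℝ ℝ) with hB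
      have e : fderiv ℝ (f : ℝ × ℝ → ℝ) = (A ∘ Sm.dx f) + (B ∘ Sm.dy f) := by
        funext p
        ext
        · simp [hA, hB, dx_apply]
        · simp [hA, hB, dy_apply]
      have hAn : ‖A‖ ≤ 1 := by
        rw [hA, ContinuousLinearMap.norm_toSpanSingleton]
        exact ContinuousLinearMap.norm_fst_le ..
      have hBn : ‖B‖ ≤ 1 := by
        rw [hB, ContinuousLinearMap.norm_toSpanSingleton]
        exact ContinuousLinearMap.norm_snd_le ..
      have s1 : ContDiff ℝ ∞ (A ∘ Sm.dx f) := A.contDiff.comp (Sm.dx f).smooth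
      have s2 : ContDiff ℝ ∞ (B ∘ Sm.dy f) := B.contDiff.comp (Sm.dy f).smooth
      have hk : ((k : ℕ∞) : WithTop ℕ∞) ≤ ∞ := by exact_mod_cast le_top
      rw [e, iteratedFDeriv_add_apply (s1.of_le hk).contDiffAt (s2.of_le hk).contDiffAt]
      have i1 := A.norm_iteratedFDeriv_comp_left (x := z) (Sm.dx f).smooth.contDiffAt hk
      have i2 := B.norm_iteratedFDeriv_comp_left (x := z) (Sm.dy f).smooth.contDiffAt hk
      have j1 := Cb.norm_iteratedFDeriv_le k h.2.1 z
      have j2 := Cb.norm_iteratedFDeriv_le k h.2.2 z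
      have n1 := norm_nonneg (iteratedFDeriv ℝ k (Sm.dx f : ℝ × ℝ → ℝ) z)
      have n2 := norm_nonneg (iteratedFDeriv ℝ k (Sm.dy f : ℝ × ℝ → ℝ) z)
      refine (norm_add_le _ _).trans ?_
      have a1 := mul_le_of_le_one_left n1 hAn
      have a2 := mul_le_of_le_one_left n2 hBn
      rw [pow_succ]
      linarith

theorem GC.translate {U V : Set (ℝ × ℝ)} {G l m n : Sm} (h : GC U G l m n) (b d : ℝ)
    (hV : ∀ z ∈ V, (1 * z.1 + b, 1 * z.2 + d) ∈ U) :
    GC V (pull 1 b 1 d G) (pull 1 b 1 d l) (pull 1 b 1 d m) (pull 1 b 1 d n) := by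
  refine ⟨fun z hz => ?_, fun z hz => ?_, fun z hz => ?_⟩
  · have := h.gauss _ (hV z hz)
    simp only [dx_pull, map_one, one_mul] at this ⊢
    simpa using this
  · have := h.cod1 _ (hV z hz)
    simp only [dx_pull, dy_pull, map_one, one_mul] at this ⊢
    simpa using this
  · have := h.cod2 _ (hV z hz)
    simp only [dx_pull, dy_pull, map_one, one_mul] at this ⊢
    simpa using this

theorem GC.congr {U : Set (ℝ × ℝ)} (hU : IsOpen U) {G G' l m n : Sm} (h : GC U G l m n)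
    (e : ∀ z ∈ U, G z = G' z) : GC U G' l m n := by
  have ex := dx_eqOn hU e
  have ey := dy_eqOn hU e
  have exx := dx_eqOn hU ex
  refine ⟨fun z hz => ?_, fun z hz => ?_, fun z hz => ?_⟩
  · have := h.gauss z hz
    simp only [Sm.sub_apply, Sm.mul_apply, Sm.neg_apply, Sm.pow_apply, e z hz, exx z hz] at this ⊢
    exact this
  · have := h.cod1 z hz
    simp only [Sm.sub_apply, Sm.mul_apply, e z hz, ey z hz] at this ⊢
    exact this
  · have := h.cod2 z hz
    simp only [Sm.sub_apply, Sm.add_apply, Sm.mul_apply, Sm.pow_apply, e z hz, ex z hz, ey z hz]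
      at this ⊢
    exact this

theorem exists_island (A y ε : ℝ) (hy : 0 < y) (hε : 0 < ε) (M : ℕ) :
    ∃ (ρ w : ℝ) (h : Sm), 0 < ρ ∧ 32 * ρ ≤ y ∧ 0 < w ∧ 3 * w ≤ (y / 2) ^ 2 ∧ Cb univ M ε h ∧
      (∀ z : ℝ × ℝ, y / 4 ≤ |z.2| → h z = 0) ∧
      ¬ ∃ l m n : Sm, GC (orect (3 * w) (3 * ρ)) (g0 - h) l m n ∧
        Cb (orect (3 * w) (3 * ρ)) 5 A m ∧ Cb (orect (3 * w) (3 * ρ)) 5 A n ∧
        Cb (orect (3 * w) (3 * ρ)) 3 A (g0 - h) ∧
        ∀ z ∈ orect (3 * w) (3 * ρ), (y / 2) ^ 3 ≤ n z := by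
  obtain ⟨ρ0, hρ0, -, H⟩ := island A ((y / 2) ^ 3) (by positivity) (M + 8) (by omega)
  set ρ := min ρ0 (y / 32) with hρ
  have hρp : 0 < ρ := by positivity
  have hρy : 32 * ρ ≤ y := by have := min_le_right ρ0 (y / 32); linarith
  set F : Sm := X ^ 2 * (C (ρ ^ 2)⁻¹ * Y ^ 2 - 1) * pull (4 * ρ)⁻¹ 0 (4 * ρ)⁻¹ 0 chi2 with hF
  have hF0 : ∀ z : ℝ × ℝ, z ∉ orect (8 * ρ) (8 * ρ) → F z = 0 := by
    intro z hz
    have : chi2 ((4 * ρ)⁻¹ * z.1 + 0, (4 * ρ)⁻¹ * z.2 + 0) = 0 := by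
      apply cutoff_eq_zero (by norm_num) (by norm_num)
      rintro ⟨h1, h2⟩
      simp only [add_zero, abs_mul, abs_of_pos (show 0 < (4 * ρ)⁻¹ by positivity)] at h1 h2
      rw [inv_mul_lt_iff₀ (by positivity)] at h1 h2
      exact hz ⟨by linarith, by linarith⟩
    rw [hF, Sm.mul_apply, pull_apply, this, mul_zero]
  obtain ⟨K, hK, hFK⟩ := Cb.of_hasCompactSupport M F
    (hasCompactSupport_of_crect (a := 8 * ρ) (b := 8 * ρ) fun z hz =>
      hF0 z fun h => hz (orect_subset_crect _ _ h))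
  obtain ⟨K', hK', hPK⟩ := Cb.of_hasCompactSupport M Psi
    (hasCompactSupport_cutoff (by norm_num) (by norm_num))
  set w := min (min (ρ ^ 2) 1) (ε / (K + 1)) with hw
  have hwp : 0 < w := by positivity
  have hw1 : w ≤ ρ ^ 2 := (min_le_left _ _).trans (min_le_left _ _)
  have hw2 : w ≤ 1 := (min_le_left _ _).trans (min_le_right _ _)
  have hw3 : w * (K + 1) ≤ ε := (le_div_iff₀ (by positivity)).1 (min_le_right _ _)
  obtain ⟨lam, hlam, H⟩ := H ρ w hρp (min_le_left _ _) hwp hw1 (max (max 1 (4 / y)) (2 * K' / ε))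
  have hl1 : 1 ≤ lam := ((le_max_left _ _).trans (le_max_left _ _)).trans hlam
  have hl2 : 4 ≤ lam * y :=
    (div_le_iff₀ hy).1 (((le_max_right _ _).trans (le_max_left _ _)).trans hlam)
  have hl3 : 2 * K' ≤ lam * ε := (div_le_iff₀ hε).1 ((le_max_right _ _).trans hlam)
  refine ⟨ρ, w, isl ρ w + src (M + 8) lam, hρp, hρy, hwp, by nlinarith, ?_, ?_, ?_⟩
  · refine ((hFK.C_mul (w ^ 2 / 2)).add ((hPK.scale hl1 hK').C_mul
      (lam ^ (M + 8 + 2))⁻¹)).mono ?_
    have a1 : |w ^ 2 / 2| * K ≤ ε / 2 := by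
      rw [abs_of_nonneg (by positivity)]
      have : w * K ≤ ε := by nlinarith
      have : w * (w * K) ≤ ε := (mul_le_of_le_one_left (by positivity) hw2).trans this
      nlinarith
    have a2 : |(lam ^ (M + 8 + 2))⁻¹| * (lam ^ M * K') ≤ ε / 2 := by
      have hl0 : 0 < lam := by linarith
      rw [abs_of_nonneg (by positivity), inv_mul_le_iff₀ (by positivity)]
      have b1 : lam ^ M * lam ≤ lam ^ (M + 8 + 2) := by
        rw [← pow_succ]; exact pow_le_pow_right₀ hl1 (by omega)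
      have b2 : 0 < lam ^ M := by positivity
      calc lam ^ M * K' ≤ lam ^ M * (lam * ε / 2) := by gcongr; linarith
        _ = lam ^ M * lam * (ε / 2) := by ring
        _ ≤ _ := by gcongr
    linarith
  · intro z hz
    have b1 : F z = 0 := hF0 z fun h => by have := h.2; linarith
    have b2 : Psi (lam * z.1 + 0, lam * z.2 + 0) = 0 := by
      apply cutoff_eq_zero (by norm_num) (by norm_num)
      rintro ⟨-, h2⟩
      simp only [add_zero, abs_mul, abs_of_pos (show 0 < lam by linarith)] at h2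
      nlinarith
    change (w ^ 2 / 2) * F z + (lam ^ (M + 8 + 2))⁻¹ * Psi (lam * z.1 + 0, lam * z.2 + 0) = 0
    rw [b1, b2]; ring
  · rw [← sub_sub]; exact H

theorem g0_curv {h : Sm} {ε : ℝ} (hε : ε ≤ 1) (hh : Cb univ 2 ε h) {z : ℝ × ℝ}
    (hz : |z.1| < 1 / 2) : -(216 * ε) ≤ (-(g0 - h) ^ 3 * dx (dx (g0 - h))) z := by
  set V : Set (ℝ × ℝ) := {z | |z.1| < 1 / 2} with hV
  have hVo : IsOpen V := isOpen_lt (by fun_prop) continuous_const
  set g : Sm := 4 + (X - X ^ 4) with hg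
  have hGg : ∀ z ∈ V, g0 z = g z := by
    intro z hz
    have hb : bump (1 / 2) 1 z.1 = 1 := bump_eq_one (by norm_num) (le_of_lt hz)
    simp only [g0, hg, Sm.add_apply, Sm.mul_apply, comp_apply, X_apply, hb, one_mul]
  have hgx : dx g = 1 - 4 * X ^ 3 := by
    simp only [hg, map_add, map_sub, der_pow, der_ofNat, dx_X]; norm_num
  have hgxx : dx (dx g) = -(12 * X ^ 2) := by
    rw [hgx]
    simp only [map_sub, der_mul, der_pow, der_ofNat, dx_X, Derivation.map_one_eq_zero]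
    norm_num; ring
  have e1 := dx_eqOn hVo (dx_eqOn hVo hGg) z hz
  have e2 := hGg z hz
  have e3 := two_le_g0 z
  have b1 := abs_le.1 (hh.1 z trivial)
  have b2 := abs_le.1 (hh.2.1.2.1 z trivial)
  have b3 := abs_lt.1 hz
  rw [hgxx] at e1
  simp only [hg, Sm.add_apply, Sm.sub_apply, Sm.mul_apply, Sm.neg_apply, Sm.pow_apply,
    Sm.ofNat_apply, X_apply] at e1 e2
  simp only [map_sub, Sm.sub_apply, Sm.mul_apply, Sm.neg_apply, Sm.pow_apply, e1]
  have c0 : 0 ≤ z.1 ^ 4 := by positivity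
  have c1 : 0 ≤ g0 z - h z := by linarith
  have c2 : g0 z - h z ≤ 6 := by linarith
  have c3 : (g0 z - h z) ^ 3 ≤ 216 := (pow_le_pow_left₀ c1 c2 3).trans (by norm_num)
  have c4 : 0 ≤ (g0 z - h z) ^ 3 := by positivity
  have c5 : 0 ≤ ε := (abs_nonneg _).trans (hh.1 z trivial)
  have c6 : 0 ≤ (g0 z - h z) ^ 3 * (12 * z.1 ^ 2 + dx (dx h) z + ε) :=
    mul_nonneg c4 (by nlinarith [sq_nonneg z.1])
  nlinarith

/-- There is a smooth `G ≥ 1` for which the Gauss–Codazzi equations of `dx² + G² dy²` have no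
smooth solution near the origin. -/
theorem exists_bad_G : ∃ G : Sm, (∀ z, 1 ≤ G z) ∧
    ∀ r : ℝ, 0 < r → ¬ ∃ l m n : Sm, GC (orect r r) G l m n := by
  set y : ℕ → ℝ := fun j => (1 / 2) ^ j * (1 / 8) with hy
  have hyp : ∀ j, 0 < y j := fun j => by simp only [hy]; positivity
  have hy8 : ∀ j, y j ≤ 1 / 8 := fun j =>
    mul_le_of_le_one_left (by norm_num) (pow_le_one₀ (by norm_num) (by norm_num))
  have hysum : HasSum y (2 * (1 / 8)) := hasSum_geometric_two.mul_right _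
  have hysep : ∀ j k, j < k → 2 * y k ≤ y j := by
    intro j k hjk
    have : ((1 : ℝ) / 2) ^ k ≤ (1 / 2) ^ (j + 1) :=
      pow_le_pow_of_le_one (by norm_num) (by norm_num) hjk
    simp only [hy]
    rw [pow_succ] at this
    linarith
  set ε : ℕ → ℝ := fun j => (y j / 2) ^ 4 / 216 with hε
  have hεp : ∀ j, 0 < ε j := fun j => by have := hyp j; simp only [hε]; positivity
  have hεy : ∀ j, ε j ≤ y j := fun j => by
    have h1 := hyp j
    have h2 := hy8 j
    have h3 : (y j / 2) ^ 4 ≤ (y j / 2) ^ 1 :=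
      pow_le_pow_of_le_one (by positivity) (by linarith) (by norm_num)
    simp only [hε]
    linarith
  choose ρ w h hρ hρy hw hwy hh hsupp hno using
    fun j : ℕ => exists_island j (y j) (ε j) (hyp j) (hεp j) (j + 2)
  set f : ℕ → Sm := fun j => pull 1 0 1 (-y j) (h j) with hf
  have hfb : ∀ j, Cb univ (j + 2) (y j) (f j) := fun j =>
    (Cb.translate 0 (-y j) (fun _ _ => mem_univ _) (hh j)).mono (hεy j)
  have hS : ContDiff ℝ ∞ fun z => ∑' j, f j z := by
    apply contDiff_tsum_of_eventually (N := ⊤) (v := fun k j => 2 ^ k * y j)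
      (fun j => (f j).smooth) (fun k _ => hysum.summable.mul_left _)
    intro k _
    rw [Nat.cofinite_eq_atTop]
    filter_upwards [eventually_ge_atTop k] with j hj z
    exact Cb.norm_iteratedFDeriv_le k ((hfb j).of_le (by omega)) z
  set S : Sm := mk _ hS with hSdef
  have hf0 : ∀ j (z : ℝ × ℝ), y j / 4 ≤ |z.2 - y j| → f j z = 0 := by
    intro j z hz
    apply hsupp j
    simpa [sub_eq_add_neg] using hz
  have hS0 : ∀ z : ℝ × ℝ, z.2 ≤ 0 → S z = 0 := by
    intro z hz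
    have : ∀ j, f j z = 0 := fun j => hf0 j z (by
      have := hyp j
      rw [abs_of_nonpos (by linarith)]; linarith)
    simp [hSdef, this]
  have hS1 : ∀ j (z : ℝ × ℝ), |z.2 - y j| < y j / 4 → S z = f j z := by
    intro j z hz
    obtain ⟨h1, h2⟩ := abs_lt.1 hz
    apply tsum_eq_single
    intro k hk
    apply hf0
    have := hyp j
    have := hyp k
    rcases lt_or_gt_of_ne hk with hk | hk
    · have := hysep k j hk
      rw [abs_of_nonpos (by linarith)]; linarith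
    · have := hysep j k hk
      rw [abs_of_nonneg (by linarith)]; linarith
  refine ⟨g0 - S, fun z => ?_, fun r hr => ?_⟩
  · have h1 : ‖S z‖ ≤ 2 * (1 / 8) := tsum_of_norm_bounded hysum fun j => (hfb j).abs_le z trivial
    have h2 := two_le_g0 z
    have h3 := (abs_le.1 h1).2
    rw [Sm.sub_apply]; linarith
  rintro ⟨l0, m0, n0, hGC0⟩
  set G := g0 - S with hG
  obtain ⟨l, m, n, hGC, r', hr', hlow⟩ : ∃ l m n : Sm, GC (orect r r) G l m n ∧
      ∃ r' : ℝ, 0 < r' ∧ ∀ z : ℝ × ℝ, 0 < z.2 → z.2 < r' → |z.1| ≤ z.2 ^ 2 →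
        -z.2 ^ 4 ≤ (-G ^ 3 * dx (dx G)) z → z.2 ^ 3 ≤ n z := by
    obtain ⟨σ, hσ, r', hr', H⟩ := lower G l0 m0 n0 r hr hGC0 (fun z hz => by
      rw [hG, Sm.sub_apply, hS0 z hz, sub_zero])
    rcases hσ with rfl | rfl
    · exact ⟨l0, m0, n0, hGC0, r', hr', fun z h1 h2 h3 h4 => by simpa using H z h1 h2 h3 h4⟩
    · exact ⟨-l0, -m0, -n0, hGC0.neg, r', hr', fun z h1 h2 h3 h4 => by
        simpa using H z h1 h2 h3 h4⟩
  obtain ⟨A1, hA1⟩ := Cb.of_isCompact (isCompact_crect (r / 2) (r / 2)) 5 m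
  obtain ⟨A2, hA2⟩ := Cb.of_isCompact (isCompact_crect (r / 2) (r / 2)) 5 n
  obtain ⟨A3, hA3⟩ := Cb.of_isCompact (isCompact_crect (r / 2) (r / 2)) 3 G
  have hev : ∀ᶠ j : ℕ in atTop, (A1 ≤ j ∧ A2 ≤ j ∧ A3 ≤ j) ∧ y j < min r' (r / 2) / 2 := by
    refine Eventually.and (Eventually.and ?_ (Eventually.and ?_ ?_)) ?_
    · exact tendsto_natCast_atTop_atTop.eventually_ge_atTop _
    · exact tendsto_natCast_atTop_atTop.eventually_ge_atTop _
    · exact tendsto_natCast_atTop_atTop.eventually_ge_atTop _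
    · exact hysum.summable.tendsto_atTop_zero.eventually_lt_const (by positivity)
  obtain ⟨j, ⟨hj1, hj2, hj3⟩, hj⟩ := hev.exists
  have hja : 2 * y j < r' := by have := min_le_left r' (r / 2); linarith
  have hjb : 2 * y j < r / 2 := by have := min_le_right r' (r / 2); linarith
  have p1 := hyp j
  have p2 := hy8 j
  have p3 := hρy j
  have p4 := hwy j
  set U := orect (3 * w j) (3 * ρ j) with hU
  have hUo : IsOpen U := isOpen_orect _ _
  have hUb : ∀ z ∈ U, |z.1| < (y j / 2) ^ 2 ∧ -(y j / 8) < z.2 ∧ z.2 < y j / 8 := by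
    rintro z ⟨h1, h2⟩
    obtain ⟨h3, h4⟩ := abs_lt.1 h2
    have := hρ j
    exact ⟨by linarith, by linarith, by linarith⟩
  have hK : ∀ z ∈ U, (1 * z.1 + 0, 1 * z.2 + y j) ∈ crect (r / 2) (r / 2) := by
    intro z hz
    obtain ⟨h1, h2, h3⟩ := hUb z hz
    refine ⟨?_, ?_⟩
    · simp only [one_mul, add_zero]; nlinarith
    · simp only [one_mul]; rw [abs_of_nonneg (by linarith)]; linarith
  have hGU : ∀ z ∈ U, pull 1 0 1 (y j) G z = (g0 - h j) z := by
    intro z hz
    obtain ⟨h1, h2, h3⟩ := hUb z hz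
    rw [pull_apply, hG, Sm.sub_apply, Sm.sub_apply, hS1 j _ (by
      simp only [one_mul, add_sub_cancel_right]; exact abs_lt.2 ⟨by linarith, by linarith⟩)]
    simp [hf, g0]
  apply hno j
  refine ⟨pull 1 0 1 (y j) l, pull 1 0 1 (y j) m, pull 1 0 1 (y j) n,
    (hGC.translate 0 (y j) fun z hz =>
      crect_subset_orect (by linarith) (by linarith) (hK z hz)).congr hUo hGU,
    (Cb.translate 0 (y j) hK hA1).mono hj1, (Cb.translate 0 (y j) hK hA2).mono hj2,
    ((Cb.translate 0 (y j) hK hA3).congr hUo hGU).mono hj3, fun z hz => ?_⟩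
  obtain ⟨h1, h2, h3⟩ := hUb z hz
  have q1 : y j / 2 ≤ 1 * z.2 + y j := by linarith
  have q2 := pow_le_pow_left₀ (by positivity) q1 2
  have q3 := pow_le_pow_left₀ (by positivity) q1 3
  have q4 := pow_le_pow_left₀ (by positivity) q1 4
  refine q3.trans (hlow (1 * z.1 + 0, 1 * z.2 + y j) (by linarith) (by linarith) ?_ ?_)
  · simp only [one_mul, add_zero] at q2 ⊢; linarith
  · have c1 := g0_curv (h := h j) (z := z) ((hεy j).trans (by linarith))
      ((hh j).of_le (by omega)) (by nlinarith)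
    have c2 := dx_eqOn hUo (dx_eqOn hUo hGU) z hz
    have c3 := hGU z hz
    simp only [dx_pull, map_one, one_mul, pull_apply] at c2 c3
    simp only [Sm.mul_apply, Sm.neg_apply, Sm.pow_apply, one_mul] at c1 q4 ⊢
    rw [c2, c3]
    simp only [hε] at c1
    linarith

end Crest.Agent.R220
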