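import Crest.Agent.R220.ModelAux

/-! Properties of the model metric. -/

set_option autoImplicit false
open scoped ContDiff Topology
open MeasureTheory Set Filter

namespace Crest.Agent.R220

open Sm

theorem two_le_g0 (z : ℝ × ℝ) : 2 ≤ g0 z := by
  simp only [g0, add_apply, mul_apply, comp_apply, sub_apply, pow_apply, X_apply, ofNat_apply]
  by_cases h : 1 ≤ |z.1|
  · rw [bump_eq_zero (by norm_num) h]; norm_num
  · rw [not_le] at h
    have h1 := bump_nonneg (1 / 2) 1 z.1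
    have h2 := bump_le_one (1 / 2) 1 z.1
    obtain ⟨h3, h4⟩ := abs_lt.1 h
    have h5 : z.1 ^ 4 ≤ 1 := by
      have : z.1 ^ 4 = |z.1| ^ 4 := by rw [pow_abs, abs_of_nonneg (by positivity)]
      rw [this]; exact pow_le_one₀ (abs_nonneg _) h.le
    nlinarith

theorem isl_le {ρ w : ℝ} (hρ : 0 < ρ) (hρ' : ρ ≤ 1 / 8) (hw : 0 < w)
    (hw' : w ≤ ρ ^ 2) (z : ℝ × ℝ) : isl ρ w z ≤ 1 / 2 := by
  simp only [isl, mul_apply, C_apply, pow_apply, X_apply, Y_apply, sub_apply, one_apply,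
    pull_apply, add_zero]
  by_cases h : ((4 * ρ)⁻¹ * z.1, (4 * ρ)⁻¹ * z.2) ∈ crect 2 2
  · obtain ⟨h1, h2⟩ := h
    have h4 : 0 < 4 * ρ := by positivity
    simp only [abs_mul, abs_inv, abs_of_pos h4] at h1 h2
    rw [inv_mul_le_iff₀ h4] at h1 h2
    have hx : z.1 ^ 2 ≤ 1 := by
      rw [← sq_abs]; exact pow_le_one₀ (abs_nonneg _) (by linarith)
    have hy : (ρ ^ 2)⁻¹ * z.2 ^ 2 ≤ 64 := by
      rw [inv_mul_le_iff₀ (by positivity), ← sq_abs]
      calc |z.2| ^ 2 ≤ (4 * ρ * 2) ^ 2 := by gcongr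
        _ = _ := by ring
    have c0 : 0 ≤ chi2 ((4 * ρ)⁻¹ * z.1, (4 * ρ)⁻¹ * z.2) := cutoff_nonneg _ _ _ _ _
    have c1 : chi2 ((4 * ρ)⁻¹ * z.1, (4 * ρ)⁻¹ * z.2) ≤ 1 := cutoff_le_one _ _ _ _ _
    have hy0 : 0 ≤ (ρ ^ 2)⁻¹ * z.2 ^ 2 := by positivity
    have hw1 : w ≤ 1 / 64 := by nlinarith
    have hw2 : w ^ 2 / 2 ≤ 1 / 128 := by nlinarith
    have h5 : z.1 ^ 2 * ((ρ ^ 2)⁻¹ * z.2 ^ 2 - 1) * chi2 ((4 * ρ)⁻¹ * z.1, (4 * ρ)⁻¹ * z.2)
        ≤ 64 := by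
      calc _ ≤ z.1 ^ 2 * ((ρ ^ 2)⁻¹ * z.2 ^ 2) * chi2 ((4 * ρ)⁻¹ * z.1, (4 * ρ)⁻¹ * z.2) := by
            gcongr; linarith
        _ ≤ 1 * 64 * 1 := by gcongr
        _ = 64 := by ring
    calc _ ≤ w ^ 2 / 2 * 64 := by gcongr
      _ ≤ _ := by linarith
  · rw [van_chi2 _ h]; norm_num

theorem one_le_Gm {ρ w lam : ℝ} (N : ℕ) (hρ : 0 < ρ) (hρ' : ρ ≤ 1 / 8) (hw : 0 < w)
    (hw' : w ≤ ρ ^ 2) (hl : 2 ≤ lam) (z : ℝ × ℝ) : 1 ≤ Gm ρ w N lam z := by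
  have h1 := two_le_g0 z
  have h2 := isl_le hρ hρ' hw hw' z
  have h3 := src_le N (lam := lam) (by linarith) z
  have h4 : (lam ^ (N + 2))⁻¹ ≤ 2⁻¹ := by
    refine inv_anti₀ two_pos (hl.trans ?_)
    exact le_self_pow₀ (by linarith) (by omega)
  simp only [Gm, sub_apply]
  linarith

/-- On the island rectangle the curvature profile is `e0` plus the source term. -/
theorem e_Gm {ρ w : ℝ} (N : ℕ) (lam : ℝ) (hρ : 0 < ρ) (hρ' : ρ ≤ 1 / 8) (hw : 0 < w)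
    (hw' : w ≤ ρ ^ 2) :
    ∀ z ∈ orect (3 * w) (3 * ρ), (-dx (dx (Gm ρ w N lam))) z = (e0 ρ w + dx (dx (src N lam))) z := by
  have hU := isOpen_orect (3 * w) (3 * ρ)
  have key : ∀ z ∈ orect (3 * w) (3 * ρ), Gm ρ w N lam z =
      (4 + (X - X ^ 4) - C (w ^ 2 / 2) * (X ^ 2 * (C (ρ ^ 2)⁻¹ * Y ^ 2 - 1)) - src N lam : Sm) z := by
    intro z hz
    obtain ⟨h1, h2⟩ := hz
    have hwρ : w ≤ ρ := by nlinarith
    have h4 : 0 < 4 * ρ := by positivity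
    have hc : chi2 ((4 * ρ)⁻¹ * z.1, (4 * ρ)⁻¹ * z.2) = 1 := by
      refine cutoff_eq_one (by norm_num) (by norm_num) ⟨?_, ?_⟩
      · simp only [abs_mul, abs_inv, abs_of_pos h4]
        rw [inv_mul_le_iff₀ h4]; linarith
      · simp only [abs_mul, abs_inv, abs_of_pos h4]
        rw [inv_mul_le_iff₀ h4]; linarith
    have hb : bump (1 / 2) 1 z.1 = 1 := bump_eq_one (by norm_num) (by nlinarith)
    simp only [Gm, g0, isl, add_apply, mul_apply, comp_apply, sub_apply, pow_apply, X_apply,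
      Y_apply, C_apply, one_apply, pull_apply, add_zero, hc, hb, one_mul, mul_one]
  intro z hz
  rw [neg_apply, dx_eqOn hU (dx_eqOn hU key) z hz]
  simp only [map_sub, map_add, der_mul, der_pow, der_C, der_ofNat, dx_X, dx_Y,
    Derivation.map_one_eq_zero, Derivation.map_natCast, map_zero, e0]
  simp
  ring

theorem cb_resc {U : Set (ℝ × ℝ)} : ∀ (m : ℕ) (f : Sm), Van 1 1 f → ∃ K, 0 ≤ K ∧
    ∀ (n : ℤ) (lam : ℝ), 1 ≤ lam → Cb U m (K * lam ^ (n + m)) (resc n f lam)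
  | 0, f, hf => by
      obtain ⟨K, hK0, hK⟩ := hf.bdd
      exact ⟨K, hK0, fun n lam hl z _ => by
        simpa using abs_resc_le hK n (one_pos.trans_le hl) z⟩
  | m + 1, f, hf => by
      obtain ⟨K, hK0, hK⟩ := hf.bdd
      obtain ⟨K1, h10, h1⟩ := cb_resc (U := U) m _ hf.dx
      obtain ⟨K2, h20, h2⟩ := cb_resc (U := U) m _ hf.dy
      refine ⟨K + K1 + K2, by positivity, fun n lam hl => ?_⟩
      have hl0 : 0 < lam := one_pos.trans_le hl
      have he : n + 1 + (m : ℤ) = n + ((m + 1 : ℕ) : ℤ) := by push_cast; ring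
      have hp : 0 ≤ lam ^ (n + ((m + 1 : ℕ) : ℤ)) := by positivity
      refine ⟨fun z _ => (abs_resc_le hK n hl0 z).trans ?_, ?_, ?_⟩
      · exact mul_le_mul (by linarith) (zpow_le_zpow_right₀ hl (by omega)) (by positivity)
          (by positivity)
      · rw [dx_resc _ _ hl0]
        refine (h1 _ _ hl).mono ?_
        rw [he]; exact mul_le_mul_of_nonneg_right (by linarith) hp
      · rw [dy_resc _ _ hl0]
        refine (h2 _ _ hl).mono ?_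
        rw [he]; exact mul_le_mul_of_nonneg_right (by linarith) hp

theorem e_close {ρ w : ℝ} {N : ℕ} (hN : 2 ≤ N) (hρ : 0 < ρ) (hρ' : ρ ≤ 1 / 8) (hw : 0 < w)
    (hw' : w ≤ ρ ^ 2) {lam : ℕ → ℝ} (hl : Tendsto lam atTop atTop) (κ : ℝ) (hκ : 0 < κ) :
    ∀ᶠ i in atTop, Cb (orect (3 * w) (3 * ρ)) 1 κ (-dx (dx (Gm ρ w N (lam i))) - e0 ρ w) := by
  obtain ⟨K, hK0, hK⟩ := cb_resc (U := orect (3 * w) (3 * ρ)) 3 Psi van_Psi
  filter_upwards [hl.eventually_ge_atTop 1, hl.eventually_ge_atTop (K / κ)] with i h1 h2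
  have hl0 : 0 < lam i := one_pos.trans_le h1
  have h3 := (hK (-((N : ℤ) + 2)) (lam i) h1).dx.dx
  rw [← src_eq] at h3
  refine (h3.mono ?_).congr (isOpen_orect _ _) fun z hz => ?_
  · calc K * lam i ^ (-((N : ℤ) + 2) + (3 : ℕ)) ≤ K * lam i ^ (-1 : ℤ) :=
          mul_le_mul_of_nonneg_left (zpow_le_zpow_right₀ h1 (by omega)) hK0
      _ ≤ κ := by
          rw [zpow_neg_one, ← div_eq_mul_inv, div_le_iff₀ hl0]
          rw [div_le_iff₀ hκ] at h2; linarith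
  · rw [sub_apply, e_Gm N (lam i) hρ hρ' hw hw' z hz]; simp

set_option linter.unusedVariables false in
theorem tameSys_Gm {ρ w : ℝ} (N : ℕ) (hρ : 0 < ρ) (hρ' : ρ ≤ 1 / 8) (hw : 0 < w)
    (hw' : w ≤ ρ ^ 2) {lam : ℕ → ℝ} (hl : ∀ i, 2 ≤ lam i) (v s : ℕ → Sm) :
    TameSys (orect (3 * w) (3 * ρ)) lam N fun i => sysOf (Gm ρ w N (lam i)) (v i) (s i) := by
  have hl1 : ∀ i, 1 ≤ lam i := fun i => by linarith [hl i]
  have hl0 : ∀ i, 0 < lam i := fun i => by linarith [hl i]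
  have hU := orect_subset_crect (3 * w) (3 * ρ)
  set U := orect (3 * w) (3 * ρ)
  have fx : ∀ J f, TT U lam N J 0 fun _ => f := fun J f => TT.fixed hl1 hU J 0 f
  have hG : ∀ J, TT U lam N J 0 fun i => Gm ρ w N (lam i) := fun J => by
    simp only [Gm, src_eq]
    exact (fx J _).sub (TT.resc hl1 J 0 _ _ van_Psi (by omega))
  have hGx : ∀ J, TT U lam N J 0 fun i => dx (Gm ρ w N (lam i)) := fun J => by
    simp only [Gm, src_eq]
    simp only [map_sub _ (g0 - isl ρ w), dx_resc _ _ (hl0 _)]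
    exact (fx J _).sub (TT.resc hl1 J 0 _ _ van_Psi.dx (by omega))
  have hGy : ∀ J, TT U lam N J 0 fun i => dy (Gm ρ w N (lam i)) := fun J => by
    simp only [Gm, src_eq]
    simp only [map_sub _ (g0 - isl ρ w), dy_resc _ _ (hl0 _)]
    exact (fx J _).sub (TT.resc hl1 J 0 _ _ van_Psi.dy (by omega))
  have hGxx : ∀ J, TT U lam N J 0 fun i => dx (dx (Gm ρ w N (lam i))) := fun J => by
    simp only [Gm, src_eq]
    simp only [map_sub _ (g0 - isl ρ w), map_sub _ (dx (g0 - isl ρ w)), dx_resc _ _ (hl0 _)]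
    exact (fx J _).sub (TT.resc hl1 J 0 _ _ van_Psi.dx.dx (by omega))
  have hi : ∀ J, TT U lam N J 0 fun i => ginv (Gm ρ w N (lam i)) := fun J => (hG J).comp hl1 _
  have hE : ∀ J, TT U lam N J 0 fun i => Gm ρ w N (lam i) ^ 3 * -dx (dx (Gm ρ w N (lam i))) :=
    fun J => ((hG J).pow hl1 hU 3).mul' hl1 (hGxx J).neg
  have h1 : ∀ J, TT U lam N J 0 fun i => dx (Gm ρ w N (lam i)) * ginv (Gm ρ w N (lam i)) :=
    fun J => (hGx J).mul' hl1 (hi J)
  have h2 : ∀ J, TT U lam N J 0 fun i => dy (Gm ρ w N (lam i)) * ginv (Gm ρ w N (lam i)) :=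
    fun J => (hGy J).mul' hl1 (hi J)
  have h3 : ∀ J, TT U lam N J 0 fun i => -(Gm ρ w N (lam i) * dx (Gm ρ w N (lam i))) :=
    fun J => ((hG J).mul' hl1 (hGx J)).neg
  exact
    { p0 := TT.tame fun J => (fx J (-2)).mul' hl1 (h1 J)
      p1 := TT.tame fun J => (fx J 2).mul' hl1 (h2 J)
      p2 := TT.tame h3
      p3 := TT.tame fun J => (h3 J).mul' hl1 (hE J)
      q1 := TT.tame fun J => (fx J (-2)).mul' hl1 (h1 J)
      q2 := TT.tame h2
      q3 := TT.tame h3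
      q4 := TT.tame fun J => (h2 J).neg
      q5 := TT.tame h3
      E := TT.tame hE }

end Crest.Agent.R220
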