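import Crest.Agent.R220.ModelAux

/-! The point source is detected by the polynomial test functions. -/

set_option autoImplicit false
open scoped ContDiff Topology
open MeasureTheory Set Filter

namespace Crest.Agent.R220

open Sm

theorem Van.abs_integral_le {a b M : ℝ} {f : Sm} (hv : Van a b f) (ha : 0 ≤ a) (hb : 0 ≤ b)
    (hM : ∀ z ∈ crect a b, |f z| ≤ M) : |∫ z, f z| ≤ M * (4 * a * b) := by
  rw [← setIntegral_eq_integral_of_forall_compl_eq_zero (s := crect a b) hv,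
    ← volume_real_crect ha hb]
  exact norm_setIntegral_le_of_norm_le_const (f := fun z => f z)
    (isCompact_crect a b).measure_lt_top hM

theorem Van.ibp_dy {a b : ℝ} {f : Sm} (hv : Van a b f) (g : Sm) :
    ∫ z, (Sm.dy f * g) z = -∫ z, (f * Sm.dy g) z := by
  have h := integral_dy (hv.mul_right g).compact
  rw [der_mul] at h
  simp only [Sm.add_apply (Sm.dy f * g)] at h
  rw [integral_add (integrable (hv.dy.mul_right g).compact) (integrable (hv.mul_right _).compact)]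
    at h
  linarith

theorem Van.ibp_dx {a b : ℝ} {f : Sm} (hv : Van a b f) (g : Sm) :
    ∫ z, (Sm.dx f * g) z = -∫ z, (f * Sm.dx g) z := by
  have h := integral_dx (hv.mul_right g).compact
  rw [der_mul] at h
  simp only [Sm.add_apply (Sm.dx f * g)] at h
  rw [integral_add (integrable (hv.dx.mul_right g).compact) (integrable (hv.mul_right _).compact)]
    at h
  linarith

theorem Van.ibp_iter {a b : ℝ} {f : Sm} (hv : Van a b f) (j : ℕ) (g : Sm) :
    |∫ z, (Sm.dy^[j] f * g) z| = |∫ z, (f * Sm.dy^[j] g) z| := by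
  induction j generalizing g with
  | zero => rfl
  | succ j ih =>
    rw [Function.iterate_succ_apply', (hv.iter_dy j).ibp_dy, abs_neg, ih,
      Function.iterate_succ_apply]

theorem iter_dy_pow {ζ : Sm} {lam : ℝ} (h : dy ζ = C lam) (j : ℕ) :
    dy^[j] (ζ ^ (j + 2)) = C ((j + 2).factorial / 2 * lam ^ j) * ζ ^ 2 := by
  induction j with
  | zero => simp
  | succ j ih =>
    have h1 : dy (ζ ^ (j + 1 + 2)) = C (((j + 3 : ℕ) : ℝ) * lam) * ζ ^ (j + 2) := by
      rw [der_pow, h, map_mul, map_natCast]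
      simp only [Nat.add_succ_sub_one]
      ring
    rw [Function.iterate_succ_apply, h1, iter_C_mul, ih, ← mul_assoc, ← map_mul]
    congr 2
    rw [show j + 1 + 2 = (j + 2) + 1 by ring, Nat.factorial_succ (j + 2)]
    push_cast; ring

theorem integral_src_ge (N : ℕ) {lam : ℝ} (hl : 0 < lam) :
    (lam ^ (N + 4))⁻¹ ≤ ∫ z, src N lam z := by
  have h0 : 0 ≤ (2 * lam)⁻¹ := by positivity
  have h1 : ∫ z in crect (2 * lam)⁻¹ (2 * lam)⁻¹, src N lam z = (lam ^ (N + 4))⁻¹ := by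
    rw [setIntegral_congr_fun (measurableSet_crect _ _) (g := fun _ => (lam ^ (N + 2))⁻¹),
      setIntegral_const, Measure.real, volume_real_crect h0 h0, smul_eq_mul]
    · field_simp; ring
    · intro z hz
      obtain ⟨h1, h2⟩ := hz
      simp only [src, Sm.mul_apply, C_apply, pull_apply, add_zero]
      have : Psi (lam * z.1, lam * z.2) = 1 := by
        refine cutoff_eq_one (by norm_num) (by norm_num) ⟨?_, ?_⟩
        · simp only [abs_mul, abs_of_pos hl]
          calc lam * |z.1| ≤ lam * (2 * lam)⁻¹ := by gcongr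
            _ = 1 / 2 := by field_simp
        · simp only [abs_mul, abs_of_pos hl]
          calc lam * |z.2| ≤ lam * (2 * lam)⁻¹ := by gcongr
            _ = 1 / 2 := by field_simp
      rw [this, mul_one]
  rw [← h1]
  exact setIntegral_le_integral (integrable (van_src N hl).compact)
    (Eventually.of_forall (src_nonneg N hl))

/-- The linear function in the test functions. -/
noncomputable def zeta (lam σ : ℝ) : Sm := C lam * (Y + C σ * X)

theorem dy_zeta (lam σ : ℝ) : dy (zeta lam σ) = C lam := by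
  simp [zeta]

theorem dx_zeta (lam σ : ℝ) : dx (zeta lam σ) = C (lam * σ) := by
  simp [zeta]

theorem abs_zeta_le {lam σ C0 a : ℝ} (hl : 0 < lam) (hσ : |σ| ≤ C0) {z : ℝ × ℝ}
    (hz : z ∈ crect (a / lam) (a / lam)) : |zeta lam σ z| ≤ a * (1 + C0) := by
  obtain ⟨h1, h2⟩ := hz
  have hC : 0 ≤ C0 := (abs_nonneg _).trans hσ
  simp only [zeta, Sm.mul_apply, C_apply, Sm.add_apply, X_apply, Y_apply, abs_mul, abs_of_pos hl]
  calc lam * |z.2 + σ * z.1| ≤ lam * (|z.2| + |σ| * |z.1|) := by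
        gcongr; rw [← abs_mul]; exact abs_add_le _ _
    _ ≤ lam * (a / lam + C0 * (a / lam)) := by gcongr
    _ = _ := by field_simp

/-- The smooth part contributes a bounded amount. -/
theorem source_A (F : Sm) (k : ℕ) {Λ : ℝ} (hΛ : 1 ≤ Λ) (C0 : ℝ) : ∃ K, ∀ lam σ : ℝ, 2 * Λ ≤ lam →
    |σ| ≤ C0 → |∫ z, (F * tst k lam Λ σ) z| ≤ K := by
  obtain ⟨K, hK⟩ := (isCompact_crect 1 1).exists_bound_of_continuousOn F.continuous.continuousOn
  have hK0 : 0 ≤ K := (norm_nonneg _).trans (hK 0 ⟨by simp, by simp⟩)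
  refine ⟨K * (2 * Λ * (1 + C0)) ^ k * 4, fun lam σ hl hσ => ?_⟩
  have hC : 0 ≤ C0 := (abs_nonneg _).trans hσ
  have hl0 : 0 < lam := by linarith
  have hΛ0 : 0 < Λ := by linarith
  have he : 2 / (lam / Λ) = 2 * Λ / lam := by field_simp
  have hv : Van (2 * Λ / lam) (2 * Λ / lam) (F * tst k lam Λ σ) := by
    have := van_chi2.pull (div_pos hl0 hΛ0)
    rw [he] at this
    exact (this.mul_left _).mul_left _
  have h1 : 2 * Λ / lam ≤ 1 := (div_le_one hl0).2 hl
  have h0 : 0 ≤ 2 * Λ / lam := by positivity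
  refine (hv.abs_integral_le (M := K * (2 * Λ * (1 + C0)) ^ k) h0 h0 fun z hz => ?_).trans ?_
  · have h2 := hK z (crect_mono h1 h1 hz)
    have h3 := abs_zeta_le hl0 hσ hz
    rw [Sm.mul_apply, abs_mul]
    refine mul_le_mul h2 ?_ (abs_nonneg _) hK0
    change |zeta lam σ z ^ k * chi2 _| ≤ _
    rw [abs_mul, abs_pow, chi2, abs_of_nonneg (cutoff_nonneg _ _ _ _ _)]
    calc _ ≤ (2 * Λ * (1 + C0)) ^ k * 1 :=
          mul_le_mul (by gcongr) (cutoff_le_one _ _ _ _ _) (cutoff_nonneg _ _ _ _ _)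
            (by positivity)
      _ = _ := mul_one _
  · calc K * (2 * Λ * (1 + C0)) ^ k * (4 * (2 * Λ / lam) * (2 * Λ / lam))
        ≤ K * (2 * Λ * (1 + C0)) ^ k * (4 * 1 * 1) := by gcongr
      _ = _ := by ring

/-- Reduction of the singular part to an integral against the source. -/
theorem source_B (H R : Sm) (N : ℕ) {lam Λ : ℝ} (σ : ℝ) (hΛ : 1 ≤ Λ) (hl : 0 < lam) :
    |∫ z, (dy^[N + 3] (dx (dx (src N lam)) * H + src N lam * R) * tst (N + 5) lam Λ σ) z| =
      (N + 5).factorial / 2 * lam ^ (N + 3) * |∫ z, (src N lam * (C (2 * (lam * σ) ^ 2) * H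
        + (C (4 * (lam * σ)) * dx H * zeta lam σ + (dx (dx H) + R) * zeta lam σ ^ 2))) z| := by
  have hS := van_src N hl
  have hE : Van lam⁻¹ lam⁻¹ (dx (dx (src N lam)) * H + src N lam * R) :=
    (hS.dx.dx.mul_right _).add (hS.mul_right _)
  have h1 : dy^[N + 3] (dx (dx (src N lam)) * H + src N lam * R) * tst (N + 5) lam Λ σ =
      dy^[N + 3] (dx (dx (src N lam)) * H + src N lam * R) * zeta lam σ ^ (N + 3 + 2) := by
    ext z
    by_cases hz : z ∈ crect lam⁻¹ lam⁻¹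
    · have : chi2 (lam / Λ * z.1 + 0, lam / Λ * z.2 + 0) = 1 := by
        have hΛ0 : 0 < Λ := by linarith
        have h2 : 0 < lam / Λ := by positivity
        have h3 : lam / Λ * lam⁻¹ ≤ 1 := by
          rw [show lam / Λ * lam⁻¹ = 1 / Λ by field_simp, div_le_one hΛ0]; exact hΛ
        refine cutoff_eq_one (by norm_num) (by norm_num) ⟨?_, ?_⟩
        · simp only [add_zero, abs_mul, abs_of_pos h2]
          exact le_trans (by gcongr; exact hz.1) h3
        · simp only [add_zero, abs_mul, abs_of_pos h2]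
          exact le_trans (by gcongr; exact hz.2) h3
      simp only [tst, Sm.mul_apply, pull_apply, this, mul_one, zeta]
    · rw [Sm.mul_apply, Sm.mul_apply, hE.iter_dy _ z hz, zero_mul, zero_mul]
  rw [h1, hE.ibp_iter, iter_dy_pow (dy_zeta lam σ)]
  have h2 : ∀ (c : ℝ) (f g : Sm), ∫ z, (f * (C c * g)) z = c * ∫ z, (f * g) z := by
    intro c f g
    rw [← integral_const_mul]
    congr 1; ext z; simp only [Sm.mul_apply, C_apply]; ring
  rw [h2, abs_mul, abs_of_nonneg (by positivity)]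
  congr 2
  have h3 : (dx (dx (src N lam)) * H + src N lam * R) * zeta lam σ ^ 2 =
      dx (dx (src N lam)) * (H * zeta lam σ ^ 2) + src N lam * (R * zeta lam σ ^ 2) := by ring
  have h4 : src N lam * (C (2 * (lam * σ) ^ 2) * H
        + (C (4 * (lam * σ)) * dx H * zeta lam σ + (dx (dx H) + R) * zeta lam σ ^ 2)) =
      src N lam * dx (dx (H * zeta lam σ ^ 2)) + src N lam * (R * zeta lam σ ^ 2) := by
    simp only [pow_two, der_mul, map_add, dx_zeta, der_C, map_mul, map_ofNat]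
    ring
  rw [h3, h4]
  simp only [Sm.add_apply (_ * _ : Sm)]
  rw [integral_add (integrable (hS.dx.dx.mul_right _).compact) (integrable (hS.mul_right _).compact),
    integral_add (integrable (hS.mul_right _).compact) (integrable (hS.mul_right _).compact),
    hS.dx.ibp_dx, hS.ibp_dx, neg_neg]

theorem source_gen (G0 : Sm) (hG0 : G0 0 ≠ 0) (N : ℕ) {lam : ℕ → ℝ}
    (hl : Tendsto lam atTop atTop) :
    Source lam N fun i => (G0 - src N (lam i)) ^ 3 * -dx (dx (G0 - src N (lam i))) := by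
  intro Λ hΛ c0 hc0 C0
  set H := G0 ^ 3 with hH
  set H0 := H 0 with hH0
  have hH0' : H0 ≠ 0 := by rw [hH0, hH, pow_apply]; exact pow_ne_zero _ hG0
  have hH02 : 0 < H0 ^ 2 := by positivity
  have hH0a : 0 < |H0| := abs_pos.2 hH0'
  obtain ⟨KA, hKA⟩ := source_A (dy^[N + 3] (H * -dx (dx G0))) (N + 5) hΛ C0
  -- uniform bounds
  obtain ⟨K1, hK1⟩ := Cb.of_isCompact (isCompact_crect 1 1) 2 G0
  obtain ⟨K2, hK2⟩ := Cb.of_isCompact (isCompact_crect 1 1) 2 H
  obtain ⟨K3, hK30, hK3⟩ := van_Psi.dx.dx.bdd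
  have hK10 : 0 ≤ K1 := (abs_nonneg _).trans (hK1.abs_le 0 ⟨by simp, by simp⟩)
  have hK20 : 0 ≤ K2 := (abs_nonneg _).trans (hK2.abs_le 0 ⟨by simp, by simp⟩)
  -- sign of H near the origin
  obtain ⟨ε, hε, hsign⟩ : ∃ ε > 0, ∀ z ∈ crect ε ε, H0 ^ 2 / 2 ≤ H0 * H z := by
    have hc : Continuous fun z => H0 * H z := by fun_prop
    have : ∀ᶠ z in 𝓝 (0 : ℝ × ℝ), H0 ^ 2 / 2 < H0 * H z :=
      hc.continuousAt.eventually (lt_mem_nhds (by
        change H0 ^ 2 / 2 < H0 * H0
        nlinarith))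
    obtain ⟨ε, hε, h⟩ := Metric.eventually_nhds_iff.1 this
    refine ⟨ε / 2, by positivity, fun z hz => (h ?_).le⟩
    rw [dist_zero_right, Prod.norm_def, max_lt_iff, Real.norm_eq_abs, Real.norm_eq_abs]
    exact ⟨by linarith [hz.1], by linarith [hz.2]⟩
  set KR := (3 * K1 ^ 2 + 3 * K1 + 1) * (K1 + K3) with hKR
  have hKR0 : 0 ≤ KR := by positivity
  set KB := 4 * |C0| * K2 * (1 + |C0|) + (K2 + KR) * (1 + |C0|) ^ 2 with hKB
  have hKB0 : 0 ≤ KB := by positivity
  set cN : ℝ := (N + 5).factorial / 2 with hcN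
  have hcN0 : 0 < cN := by positivity
  refine ⟨cN * (c0 ^ 2 * |H0| / 2) / 2, by positivity, ?_⟩
  filter_upwards [hl.eventually_ge_atTop (2 * Λ), hl.eventually_ge_atTop ε⁻¹,
    hl.eventually_ge_atTop (KB / (c0 ^ 2 * |H0| / 2)),
    hl.eventually_ge_atTop (KA / (cN * (c0 ^ 2 * |H0| / 2) / 2))] with i e1 e2 e3 e4 σ hσ0 hσ1
  generalize lam i = l at *
  have hl1 : 1 ≤ l := by linarith
  have hl0 : 0 < l := by linarith
  have hσ2 : |σ| ≤ |C0| := hσ1.trans (le_abs_self _)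
  set S := src N l with hS
  set R := (3 * G0 ^ 2 - 3 * G0 * S + S ^ 2) * (dx (dx G0) - dx (dx S)) with hR
  have hvS : Van l⁻¹ l⁻¹ S := van_src N hl0
  have hdec : (G0 - S) ^ 3 * -dx (dx (G0 - S)) = H * -dx (dx G0) + (dx (dx S) * H + S * R) := by
    simp only [map_sub, hH, hR]; ring
  have hsub1 : crect l⁻¹ l⁻¹ ⊆ crect 1 1 := crect_mono (inv_le_one_of_one_le₀ hl1)
    (inv_le_one_of_one_le₀ hl1)
  have hsubε : crect l⁻¹ l⁻¹ ⊆ crect ε ε := crect_mono (inv_le_of_inv_le₀ hε e2)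
    (inv_le_of_inv_le₀ hε e2)
  have hRb : ∀ z ∈ crect l⁻¹ l⁻¹, |R z| ≤ KR := by
    intro z hz
    have a1 := hK1.abs_le z (hsub1 hz)
    have a2 := hK1.dx.dx.abs_le z (hsub1 hz)
    have a3 : |S z| ≤ 1 := by
      rw [abs_of_nonneg (src_nonneg N hl0 z)]
      exact (src_le N hl0 z).trans (inv_le_one_of_one_le₀ (one_le_pow₀ hl1))
    have a4 : |dx (dx S) z| ≤ K3 := by
      rw [hS, src_eq, dx_resc _ _ hl0, dx_resc _ _ hl0]
      refine (abs_resc_le hK3 _ hl0 z).trans (mul_le_of_le_one_right hK30 ?_)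
      exact zpow_le_one_of_nonpos₀ hl1 (by omega)
    simp only [hR, Sm.mul_apply, Sm.sub_apply, Sm.add_apply, pow_apply, ofNat_apply, abs_mul]
    refine mul_le_mul ?_ ((abs_sub _ _).trans (add_le_add a2 a4)) (abs_nonneg _) (by positivity)
    calc |3 * G0 z ^ 2 - 3 * G0 z * S z + S z ^ 2|
        ≤ |3 * G0 z ^ 2| + |3 * G0 z * S z| + |S z ^ 2| :=
          (abs_add_le _ _).trans (add_le_add_left (abs_sub _ _) _)
      _ = 3 * |G0 z| ^ 2 + 3 * |G0 z| * |S z| + |S z| ^ 2 := by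
          simp only [abs_mul, abs_pow, Nat.abs_ofNat]
      _ ≤ 3 * K1 ^ 2 + 3 * K1 * 1 + 1 ^ 2 := by gcongr
      _ = _ := by ring
  set Br := C (2 * (l * σ) ^ 2) * H
        + (C (4 * (l * σ)) * dx H * zeta l σ + (dx (dx H) + R) * zeta l σ ^ 2) with hBr
  have hBrb : ∀ z ∈ crect l⁻¹ l⁻¹, l ^ 2 * (c0 ^ 2 * H0 ^ 2 / 2) ≤ H0 * Br z := by
    intro z hz
    have a1 := hK2.dx.abs_le z (hsub1 hz)
    have a2 := hK2.dx.dx.abs_le z (hsub1 hz)
    have a3 := hRb z hz
    have a4 : |zeta l σ z| ≤ 1 + |C0| := by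
      have := abs_zeta_le (a := 1) hl0 hσ2 (z := z) (by rwa [one_div])
      rwa [one_mul] at this
    have a5 := hsign z (hsubε hz)
    have a6 : |(C (4 * (l * σ)) * dx H * zeta l σ + (dx (dx H) + R) * zeta l σ ^ 2 : Sm) z|
        ≤ l * KB := by
      simp only [Sm.mul_apply, Sm.add_apply, pow_apply, C_apply]
      calc _ ≤ |4 * (l * σ) * dx H z * zeta l σ z| + |(dx (dx H) z + R z) * zeta l σ z ^ 2| :=
            abs_add_le _ _
        _ = 4 * (l * |σ|) * |dx H z| * |zeta l σ z| + |dx (dx H) z + R z| * |zeta l σ z| ^ 2 := by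
            simp only [abs_mul, abs_pow, Nat.abs_ofNat, abs_of_pos hl0]
        _ ≤ 4 * (l * |C0|) * K2 * (1 + |C0|) + (K2 + KR) * (1 + |C0|) ^ 2 := by
            gcongr; exact (abs_add_le _ _).trans (add_le_add a2 a3)
        _ ≤ 4 * (l * |C0|) * K2 * (1 + |C0|) + l * ((K2 + KR) * (1 + |C0|) ^ 2) := by
            exact add_le_add_right (le_mul_of_one_le_left (by positivity) hl1) _
        _ = _ := by rw [hKB]; ring
    have a7 : c0 ^ 2 ≤ σ ^ 2 := by rw [← sq_abs σ]; gcongr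
    have a8 : 2 * (l ^ 2 * c0 ^ 2) * (H0 ^ 2 / 2) ≤ 2 * (l ^ 2 * σ ^ 2) * (H0 * H z) := by gcongr
    have a9 : KB ≤ l * (c0 ^ 2 * |H0| / 2) := by rwa [div_le_iff₀ (by positivity)] at e3
    rw [hBr, Sm.add_apply, Sm.mul_apply (C _) H, C_apply]
    generalize (C (4 * (l * σ)) * dx H * zeta l σ + (dx (dx H) + R) * zeta l σ ^ 2 : Sm) z = t
      at a6
    have a10 : |H0 * t| ≤ |H0| * (l * (l * (c0 ^ 2 * |H0| / 2))) := by
      rw [abs_mul]; gcongr; exact a6.trans (by gcongr)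
    have a11 := (abs_le.1 a10).1
    have a12 : |H0| * (l * (l * (c0 ^ 2 * |H0| / 2))) = l ^ 2 * (c0 ^ 2 * H0 ^ 2 / 2) := by
      rw [← sq_abs H0]; ring
    rw [a12] at a11
    linarith
  have hint : l ^ 2 * (c0 ^ 2 * H0 ^ 2 / 2) * (l ^ (N + 4))⁻¹ ≤ H0 * ∫ z, (S * Br) z := by
    calc l ^ 2 * (c0 ^ 2 * H0 ^ 2 / 2) * (l ^ (N + 4))⁻¹
        ≤ l ^ 2 * (c0 ^ 2 * H0 ^ 2 / 2) * ∫ z, S z := by
          gcongr; exact integral_src_ge N hl0
      _ ≤ _ := by
          rw [← integral_const_mul, ← integral_const_mul]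
          refine integral_mono ((integrable hvS.compact).const_mul _)
            ((integrable (hvS.mul_right _).compact).const_mul _) fun z => ?_
          by_cases hz : z ∈ crect l⁻¹ l⁻¹
          · have := mul_le_mul_of_nonneg_right (hBrb z hz) (src_nonneg N hl0 z)
            simp only [Sm.mul_apply]
            linarith
          · simp only [Sm.mul_apply, hvS z hz]; simp
  have hint2 : l ^ 2 * (c0 ^ 2 * |H0| / 2) * (l ^ (N + 4))⁻¹ ≤ |∫ z, (S * Br) z| := by
    have h1 := hint.trans (le_abs_self _)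
    rw [abs_mul, ← sq_abs H0] at h1
    refine le_of_mul_le_mul_left ?_ hH0a
    linarith
  have hB := source_B H R N σ hΛ hl0
  rw [← hS, ← hBr, ← hcN] at hB
  have hB2 : cN * (c0 ^ 2 * |H0| / 2) * l ≤
      |∫ z, (dy^[N + 3] (dx (dx S) * H + S * R) * tst (N + 5) l Λ σ) z| := by
    rw [hB]
    calc cN * (c0 ^ 2 * |H0| / 2) * l
        = cN * l ^ (N + 3) * (l ^ 2 * (c0 ^ 2 * |H0| / 2) * (l ^ (N + 4))⁻¹) := by
          field_simp; ring
      _ ≤ _ := by gcongr
  have hA := hKA l σ e1 hσ1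
  have hA2 : KA ≤ cN * (c0 ^ 2 * |H0| / 2) / 2 * l := by
    rw [div_le_iff₀ (by positivity)] at e4; linarith
  have hvT : Van (2 / (l / Λ)) (2 / (l / Λ)) (tst (N + 5) l Λ σ) :=
    (van_chi2.pull (div_pos hl0 (by linarith))).mul_left _
  rw [hdec, iter_add, add_mul]
  simp only [Sm.add_apply (_ * _ : Sm)]
  rw [integral_add (integrable (hvT.mul_left _).compact) (integrable (hvT.mul_left _).compact)]
  have := abs_sub_abs_le_abs_add
    (∫ z, (dy^[N + 3] (dx (dx S) * H + S * R) * tst (N + 5) l Λ σ) z)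
    (∫ z, (dy^[N + 3] (H * -dx (dx G0)) * tst (N + 5) l Λ σ) z)
  rw [add_comm (∫ z, (dy^[N + 3] (dx (dx S) * H + S * R) * tst (N + 5) l Λ σ) z)] at this
  linarith

end Crest.Agent.R220
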