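import Crest.Agent.R220.PDE
import Crest.Agent.R220.Model
import Crest.Agent.R220.Source

/-! One island with a sufficiently concentrated source carries no bounded solution of the
Gauss–Codazzi equations with `n` bounded below. -/

set_option autoImplicit false
open scoped ContDiff Topology
open MeasureTheory Set Filter

namespace Crest.Agent.R220

open Sm

theorem island_alg1 {G g Gx Gy E l m n v nx ny my vx vy : ℝ} (h1 : l * n - m ^ 2 = E)
    (h3 : G * (nx - my) = G ^ 2 * Gx * l - 2 * Gy * m + 2 * Gx * n) (h4 : n * v = 1)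
    (h4x : nx * v + n * vx = 0) (_h4y : ny * v + n * vy = 0) (h5 : G * g = 1) :
    vx - m * v * vy + v * (my * v + m * vy) - (v * (-2 * (Gx * g) + 2 * (Gy * g) * (m * v) +
      -(G * Gx) * (m * v) ^ 2) + -(G * Gx) * E * v ^ 3) = 0 := by
  have e1 : vx = -nx * v ^ 2 := by linear_combination v * h4x - vx * h4
  have e2 : l = (m ^ 2 + E) * v := by linear_combination v * h1 - l * h4
  have e3 : nx = my + (G * Gx * l - 2 * Gy * g * m + 2 * Gx * g * n) := by
    linear_combination g * h3 - (nx - my - G * Gx * l) * h5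
  rw [e1, e3, e2]
  linear_combination (-2 * Gx * g * v) * h4

theorem island_alg2 {G g Gx Gy E Ey l m n v nx ny mx my ly vx vy : ℝ} (h1 : l * n - m ^ 2 = E)
    (h1y : ly * n + l * ny - 2 * m * my = Ey) (h2 : G * (ly - mx) = Gy * l)
    (h3 : G * (nx - my) = G ^ 2 * Gx * l - 2 * Gy * m + 2 * Gx * n) (h4 : n * v = 1)
    (h4x : nx * v + n * vx = 0) (h4y : ny * v + n * vy = 0) (h5 : G * g = 1) :
    mx * v + m * vx - m * v * (my * v + m * vy) - v * (Ey * v + E * vy) -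
      (-2 * (Gx * g) * (m * v) + Gy * g * (m * v) ^ 2 + -(G * Gx) * (m * v) ^ 3 +
        E * v ^ 2 * (-(Gy * g) + -(G * Gx) * (m * v))) = 0 := by
  have e1 : vx = -nx * v ^ 2 := by linear_combination v * h4x - vx * h4
  have e1' : vy = -ny * v ^ 2 := by linear_combination v * h4y - vy * h4
  have e2 : l = (m ^ 2 + E) * v := by linear_combination v * h1 - l * h4
  have e3 : nx = my + (G * Gx * l - 2 * Gy * g * m + 2 * Gx * g * n) := by
    linear_combination g * h3 - (nx - my - G * Gx * l) * h5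
  have e4 : ly = mx + Gy * g * l := by linear_combination g * h2 - (ly - mx) * h5
  rw [← h1y, e1, e1', e3, e4, e2]
  linear_combination (-2 * Gx * g * m * v - v * (mx + Gy * g * ((m ^ 2 + E) * v))) * h4

theorem sysOf_bdd (A c : ℝ) (hc : 0 < c) : ∃ B : ℝ, ∀ (U : Set (ℝ × ℝ)) (G l m n : Sm), IsOpen U →
    (∀ z, 1 ≤ G z) → GC U G l m n → Cb U 5 A m → Cb U 5 A n → Cb U 3 A G → (∀ z ∈ U, c ≤ n z) →
    (sysOf G (comp (recip c hc) n) (m * comp (recip c hc) n)).Bdd U B := by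
  let ι := {p : Set (ℝ × ℝ) × Sm × Sm × Sm // Cb p.1 5 A p.2.2.1 ∧ Cb p.1 5 A p.2.2.2 ∧
    Cb p.1 3 A p.2.1}
  let U : ι → Set (ℝ × ℝ) := fun i => i.1.1
  let G : ι → Sm := fun i => i.1.2.1
  let m : ι → Sm := fun i => i.1.2.2.1
  let n : ι → Sm := fun i => i.1.2.2.2
  have hm : CBF U 5 m := CBF.of_bound fun i => i.2.1
  have hn : CBF U 5 n := CBF.of_bound fun i => i.2.2.1
  have hG : CBF U 3 G := CBF.of_bound fun i => i.2.2.2
  have hG1 : CBF U 1 G := hG.of_le (by norm_num)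
  have hg : CBF U 1 fun i => ginv (G i) := hG1.comp _
  have hGx : CBF U 1 fun i => dx (G i) := hG.dx.of_le (by norm_num)
  have hGy : CBF U 1 fun i => dy (G i) := hG.dy.of_le (by norm_num)
  have he : CBF U 1 fun i => -dx (dx (G i)) := hG.dx.dx.neg
  have hv := hn.comp (recip c hc)
  obtain ⟨K1, k1, h1⟩ := hv
  obtain ⟨K2, k2, h2⟩ := hm.mul (hn.comp (recip c hc))
  obtain ⟨K3, k3, h3⟩ := ((CBF.ofNat 2).neg.mul (hGx.mul hg))
  obtain ⟨K4, k4, h4⟩ := ((CBF.ofNat 2).mul (hGy.mul hg))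
  obtain ⟨K5, k5, h5⟩ := (hG1.mul hGx).neg
  obtain ⟨K6, k6, h6⟩ := (hG1.mul hGx).neg.mul ((hG1.pow 3).mul he)
  obtain ⟨K7, k7, h7⟩ := hGy.mul hg
  obtain ⟨K8, k8, h8⟩ := (hGy.mul hg).neg
  obtain ⟨K9, k9, h9⟩ := hG1.pow 3
  obtain ⟨K10, k10, h10⟩ := he
  have kA := abs_nonneg A
  refine ⟨K1 + K2 + K3 + K4 + K5 + K6 + K7 + K8 + K9 + K10 + |A|,
    fun U' G' l m' n' hU hG1' hGC bm bn bG hcn => ?_⟩
  let i : ι := ⟨(U', G', m', n'), bm, bn, bG⟩
  have hnv : ∀ z ∈ U', (n' * comp (recip c hc) n') z = (1 : Sm) z := fun z hz => by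
    have := hcn z hz
    simp only [Sm.mul_apply, comp_apply, Sm.one_apply, recip_eq hc this]
    exact mul_inv_cancel₀ (by linarith)
  have hGg : ∀ z, G' z * ginv G' z = 1 := fun z => by
    have := hG1' z
    simp only [ginv, comp_apply, recip_eq one_pos this]
    exact mul_inv_cancel₀ (by linarith)
  have hx := dx_eqOn hU hnv
  have hy := dy_eqOn hU hnv
  have hgauss : ∀ z ∈ U', (l * n' - m' * m') z = (G' ^ 3 * -dx (dx G')) z := fun z hz => by
    have := hGC.gauss z hz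
    simp only [Sm.mul_apply, Sm.sub_apply, Sm.pow_apply, Sm.neg_apply] at this ⊢
    linear_combination this
  have hgy := dy_eqOn hU hgauss
  refine ⟨fun z hz => ?_, fun z hz => ?_, (h1 i).mono (by linarith), (h2 i).mono (by linarith),
    (h3 i).mono (by linarith), (h4 i).mono (by linarith), (h5 i).mono (by linarith),
    (h6 i).mono (by linarith), (h3 i).mono (by linarith), (h7 i).mono (by linarith),
    (h5 i).mono (by linarith), (h8 i).mono (by linarith), (h5 i).mono (by linarith),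
    (h9 i).mono (by linarith), (h10 i).mono (by linarith), fun z hz => ?_, fun z _ => ?_⟩
  · have a1 := hgauss z hz
    have a3 := hGC.cod2 z hz
    have a4 := hnv z hz
    have a5 := hx z hz
    have a6 := hy z hz
    obtain ⟨v, hv⟩ : ∃ v, v = comp (recip c hc) n' := ⟨_, rfl⟩
    rw [← hv] at a4 a5 a6 ⊢
    rw [der_mul, Derivation.map_one_eq_zero] at a5 a6
    simp only [Sys.eq1, Sys.r1, sysOf, der_mul, Sm.mul_apply, Sm.sub_apply, Sm.pow_apply,
      Sm.neg_apply, Sm.add_apply, Sm.ofNat_apply, Sm.one_apply, Sm.zero_apply] at a1 a3 a4 a5 a6 ⊢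
    exact island_alg1 (by rw [← a1]; ring) a3 a4 a5 a6 (hGg z)
  · have a1 := hgauss z hz
    have a1y := hgy z hz
    have a2 := hGC.cod1 z hz
    have a3 := hGC.cod2 z hz
    have a4 := hnv z hz
    have a5 := hx z hz
    have a6 := hy z hz
    obtain ⟨v, hv⟩ : ∃ v, v = comp (recip c hc) n' := ⟨_, rfl⟩
    rw [← hv] at a4 a5 a6 ⊢
    rw [der_mul, Derivation.map_one_eq_zero] at a5 a6
    simp only [Sys.eq2, Sys.r2, Sys.E, sysOf]
    obtain ⟨E, hE⟩ : ∃ E, E = G' ^ 3 * -dx (dx G') := ⟨_, rfl⟩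
    rw [← hE] at a1 a1y ⊢
    simp only [map_sub, der_mul, Sm.mul_apply, Sm.sub_apply, Sm.pow_apply,
      Sm.neg_apply, Sm.add_apply, Sm.ofNat_apply, Sm.one_apply, Sm.zero_apply]
      at a1 a1y a2 a3 a4 a5 a6 ⊢
    exact island_alg2 (by rw [← a1]; ring) (by rw [← a1y]; ring) a2 a3 a4 a5 a6 (hGg z)
  · have h1 := hcn z hz
    have h2 := bn.abs_le z hz
    simp only [sysOf, comp_apply, recip_eq hc h1]
    refine inv_anti₀ (by linarith) ?_
    linarith [le_abs_self (n' z), le_abs_self A]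
  · simp only [sysOf, Sm.pow_apply]
    exact one_le_pow₀ (hG1' z)

theorem island (A c : ℝ) (hc : 0 < c) (N : ℕ) (hN : 8 ≤ N) : ∃ ρ0 : ℝ, 0 < ρ0 ∧ ρ0 ≤ 1 / 8 ∧
    ∀ ρ w : ℝ, 0 < ρ → ρ ≤ ρ0 → 0 < w → w ≤ ρ ^ 2 → ∀ L : ℝ, ∃ lam : ℝ, L ≤ lam ∧
      ¬ ∃ l m n : Sm, GC (orect (3 * w) (3 * ρ)) (Gm ρ w N lam) l m n ∧
        Cb (orect (3 * w) (3 * ρ)) 5 A m ∧ Cb (orect (3 * w) (3 * ρ)) 5 A n ∧
        Cb (orect (3 * w) (3 * ρ)) 3 A (Gm ρ w N lam) ∧ ∀ z ∈ orect (3 * w) (3 * ρ), c ≤ n z := by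
  obtain ⟨B, hB⟩ := sysOf_bdd A c hc
  obtain ⟨ρ1, hρ1, hno⟩ := pde_no_solution B N hN
  refine ⟨min ρ1 (1 / 8), by positivity, min_le_right _ _, fun ρ w hρ hρ0 hw hwρ L => ?_⟩
  have hρ8 : ρ ≤ 1 / 8 := hρ0.trans (min_le_right _ _)
  by_contra hcon
  push Not at hcon
  let lam : ℕ → ℝ := fun i => max L 2 + i
  have hl2 : ∀ i, 2 ≤ lam i := fun i => by
    have := le_max_right L 2
    have : (0 : ℝ) ≤ i := Nat.cast_nonneg i
    simp only [lam]; linarith
  have hlL : ∀ i, L ≤ lam i := fun i => by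
    have := le_max_left L 2
    have : (0 : ℝ) ≤ i := Nat.cast_nonneg i
    simp only [lam]; linarith
  have hl : Tendsto lam atTop atTop :=
    tendsto_atTop_add_const_left _ _ tendsto_natCast_atTop_atTop
  choose l m n hGC bm bn bG hcn using fun i => hcon (lam i) (hlL i)
  refine hno ρ w hρ (hρ0.trans (min_le_left _ _)) hw hwρ
    (fun i => sysOf (Gm ρ w N (lam i)) (comp (recip c hc) (n i)) (m i * comp (recip c hc) (n i)))
    lam hl (fun i => hB _ _ (l i) (m i) (n i) (isOpen_orect _ _)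
      (one_le_Gm N hρ hρ8 hw hwρ (hl2 i)) (hGC i) (bm i) (bn i) (bG i) (hcn i))
    (fun κ hκ => e_close (by omega) hρ hρ8 hw hwρ hl κ hκ)
    (tameSys_Gm N hρ hρ8 hw hwρ hl2 _ _) (source_gen (g0 - isl ρ w) ?_ N hl)
  simp [g0, isl]

end Crest.Agent.R220
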