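import Crest.Agent.R220.Defs

/-! Auxiliary lemmas on rescaled bumps and tame families. -/

set_option autoImplicit false
open scoped ContDiff Topology
open MeasureTheory Set Filter

namespace Crest.Agent.R220

open Sm

/-- `f` vanishes off the closed rectangle. -/
def Van (a b : ℝ) (f : Sm) : Prop := ∀ z, z ∉ crect a b → f z = 0

theorem Van.dx {a b : ℝ} {f : Sm} (h : Van a b f) : Van a b (dx f) :=
  dx_zero_on (U := (crect a b)ᶜ) (isClosed_crect a b).isOpen_compl h

theorem Van.dy {a b : ℝ} {f : Sm} (h : Van a b f) : Van a b (dy f) :=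
  dy_zero_on (U := (crect a b)ᶜ) (isClosed_crect a b).isOpen_compl h

theorem Van.iter_dy {a b : ℝ} {f : Sm} (h : Van a b f) (j : ℕ) : Van a b (Sm.dy^[j] f) :=
  iter_dy_zero_on (U := (crect a b)ᶜ) (isClosed_crect a b).isOpen_compl h j

theorem Van.mul_left {a b : ℝ} {f : Sm} (h : Van a b f) (g : Sm) : Van a b (g * f) :=
  fun z hz => by rw [mul_apply, h z hz, mul_zero]

theorem Van.mul_right {a b : ℝ} {f : Sm} (h : Van a b f) (g : Sm) : Van a b (f * g) :=
  fun z hz => by rw [mul_apply, h z hz, zero_mul]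

theorem Van.add {a b : ℝ} {f g : Sm} (h : Van a b f) (h' : Van a b g) : Van a b (f + g) :=
  fun z hz => by rw [add_apply, h z hz, h' z hz, add_zero]

theorem Van.compact {a b : ℝ} {f : Sm} (h : Van a b f) : HasCompactSupport (f : ℝ × ℝ → ℝ) :=
  hasCompactSupport_of_crect h

theorem Van.bdd {a b : ℝ} {f : Sm} (h : Van a b f) : ∃ K, 0 ≤ K ∧ ∀ z, |f z| ≤ K := by
  obtain ⟨K, hK⟩ := f.continuous.bounded_above_of_compact_support h.compact
  exact ⟨K, (norm_nonneg _).trans (hK 0), hK⟩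

theorem Van.pull {a lam : ℝ} {f : Sm} (h : Van a a f) (hl : 0 < lam) :
    Van (a / lam) (a / lam) (pull lam 0 lam 0 f) := fun z hz => by
  rw [pull_apply]
  refine h _ fun hz' => hz ?_
  obtain ⟨h1, h2⟩ := hz'
  simp only [add_zero, abs_mul, abs_of_pos hl] at h1 h2
  constructor
  · rw [le_div_iff₀ hl]; linarith
  · rw [le_div_iff₀ hl]; linarith

theorem van_cutoff {a a' b b' : ℝ} (ha : a < a') (hb : b < b') : Van a' b' (cutoff a a' b b') :=
  fun _ hz => cutoff_eq_zero ha hb fun h => hz (orect_subset_crect _ _ h)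

theorem van_Psi : Van 1 1 Psi := van_cutoff (by norm_num) (by norm_num)

theorem van_chi2 : Van 2 2 chi2 := van_cutoff (by norm_num) (by norm_num)

/-- Rescaled function with weight `λ^n`. -/
noncomputable def resc (n : ℤ) (f : Sm) (lam : ℝ) : Sm := C (lam ^ n) * pull lam 0 lam 0 f

theorem dx_resc (n : ℤ) (f : Sm) {lam : ℝ} (hl : 0 < lam) :
    dx (resc n f lam) = resc (n + 1) (dx f) lam := by
  rw [resc, resc, der_C_mul, dx_pull, zpow_add_one₀ hl.ne', map_mul, mul_assoc]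

theorem dy_resc (n : ℤ) (f : Sm) {lam : ℝ} (hl : 0 < lam) :
    dy (resc n f lam) = resc (n + 1) (dy f) lam := by
  rw [resc, resc, der_C_mul, dy_pull, zpow_add_one₀ hl.ne', map_mul, mul_assoc]

theorem src_eq (N : ℕ) (lam : ℝ) : src N lam = resc (-((N : ℤ) + 2)) Psi lam := by
  rw [src, resc, zpow_neg]; norm_cast

theorem Van.resc {f : Sm} (h : Van 1 1 f) (n : ℤ) {lam : ℝ} (hl : 0 < lam) :
    Van lam⁻¹ lam⁻¹ (resc n f lam) := by
  have := (h.pull hl).mul_left (C (lam ^ n))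
  rwa [one_div] at this

theorem abs_resc_le {f : Sm} {K : ℝ} (h : ∀ z, |f z| ≤ K) (n : ℤ) {lam : ℝ} (hl : 0 < lam)
    (z : ℝ × ℝ) : |resc n f lam z| ≤ K * lam ^ n := by
  rw [resc, mul_apply, C_apply, abs_mul, abs_of_pos (zpow_pos hl n), mul_comm, pull_apply]
  exact mul_le_mul_of_nonneg_right (h _) (zpow_pos hl n).le

theorem van_src (N : ℕ) {lam : ℝ} (hl : 0 < lam) : Van lam⁻¹ lam⁻¹ (src N lam) := by
  rw [src_eq]; exact van_Psi.resc _ hl

theorem src_nonneg (N : ℕ) {lam : ℝ} (hl : 0 < lam) (z : ℝ × ℝ) : 0 ≤ src N lam z := by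
  simp only [src, mul_apply, C_apply, pull_apply]
  exact mul_nonneg (by positivity) (cutoff_nonneg _ _ _ _ _)

theorem src_le (N : ℕ) {lam : ℝ} (hl : 0 < lam) (z : ℝ × ℝ) :
    src N lam z ≤ (lam ^ (N + 2))⁻¹ := by
  simp only [src, mul_apply, C_apply, pull_apply]
  exact mul_le_of_le_one_right (by positivity) (cutoff_le_one _ _ _ _ _)

/-! ### Tame families -/

theorem one_le_tau {lam : ℝ} (hl : 1 ≤ lam) (z : ℝ × ℝ) : 1 ≤ tau lam z := by
  unfold tau; split_ifs; exacts [hl, le_rfl]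

/-- Tameness up to order `J`, with weight `W`. -/
def TT (U : Set (ℝ × ℝ)) (lam : ℕ → ℝ) (N : ℕ) : ℕ → ℕ → (ℕ → Sm) → Prop
  | 0, W, c => ∃ K, 0 ≤ K ∧ ∀ i, ∀ z ∈ U, |c i z| ≤ K * tau (lam i) z ^ (W - N)
  | J + 1, W, c => (∃ K, 0 ≤ K ∧ ∀ i, ∀ z ∈ U, |c i z| ≤ K * tau (lam i) z ^ (W - N)) ∧
      TT U lam N J (W + 1) fun i => dy (c i)

namespace TT

variable {U : Set (ℝ × ℝ)} {lam : ℕ → ℝ} {N : ℕ}

theorem zero_of {J W : ℕ} {c : ℕ → Sm} (h : TT U lam N J W c) : TT U lam N 0 W c := by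
  cases J with
  | zero => exact h
  | succ J => exact h.1

theorem pred : ∀ {J W : ℕ} {c : ℕ → Sm}, TT U lam N (J + 1) W c → TT U lam N J W c
  | 0, _, _, h => h.1
  | _ + 1, _, _, h => ⟨h.1, pred h.2⟩

theorem iter : ∀ {J W : ℕ} {c : ℕ → Sm}, TT U lam N J W c →
    TT U lam N 0 (W + J) fun i => dy^[J] (c i)
  | 0, _, _, h => h
  | J + 1, W, c, h => by
      have := iter h.2
      simp only [Function.iterate_succ_apply]
      rwa [show W + (J + 1) = W + 1 + J by ring]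

theorem tame {c : ℕ → Sm} (h : ∀ J, TT U lam N J 0 c) : Tame U lam N c := fun j => by
  obtain ⟨K, -, hK⟩ := (h j).iter
  exact ⟨K, Eventually.of_forall fun i => by simpa using hK i⟩

theorem add0 {W : ℕ} {f g : ℕ → Sm} (h : TT U lam N 0 W f) (h' : TT U lam N 0 W g) :
    TT U lam N 0 W fun i => f i + g i := by
  obtain ⟨K, hK, h⟩ := h; obtain ⟨K', hK', h'⟩ := h'
  refine ⟨K + K', add_nonneg hK hK', fun i z hz => ?_⟩
  rw [add_apply, add_mul]
  exact (abs_add_le _ _).trans (add_le_add (h i z hz) (h' i z hz))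

theorem add : ∀ {J W : ℕ} {f g : ℕ → Sm}, TT U lam N J W f → TT U lam N J W g →
    TT U lam N J W fun i => f i + g i
  | 0, _, _, _, h, h' => add0 h h'
  | _ + 1, _, _, _, h, h' => ⟨add0 h.1 h'.1, by simp only [map_add]; exact add h.2 h'.2⟩

theorem neg0 {W : ℕ} {f : ℕ → Sm} (h : TT U lam N 0 W f) : TT U lam N 0 W fun i => -f i := by
  obtain ⟨K, hK, h⟩ := h
  exact ⟨K, hK, fun i z hz => by simpa using h i z hz⟩

theorem neg : ∀ {J W : ℕ} {f : ℕ → Sm}, TT U lam N J W f → TT U lam N J W fun i => -f i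
  | 0, _, _, h => neg0 h
  | _ + 1, _, _, h => ⟨neg0 h.1, by simp only [map_neg]; exact neg h.2⟩

theorem sub {J W : ℕ} {f g : ℕ → Sm} (h : TT U lam N J W f) (h' : TT U lam N J W g) :
    TT U lam N J W fun i => f i - g i := by
  simpa only [sub_eq_add_neg] using h.add h'.neg

theorem mul0 (hl : ∀ i, 1 ≤ lam i) {W W' : ℕ} {f g : ℕ → Sm} (h : TT U lam N 0 W f)
    (h' : TT U lam N 0 W' g) : TT U lam N 0 (W + W') fun i => f i * g i := by
  obtain ⟨K, hK, h⟩ := h; obtain ⟨K', hK', h'⟩ := h'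
  refine ⟨K * K', mul_nonneg hK hK', fun i z hz => ?_⟩
  have ht := one_le_tau (hl i) z
  have ht0 : 0 ≤ tau (lam i) z := by linarith
  rw [mul_apply, abs_mul]
  calc |f i z| * |g i z| ≤ (K * tau (lam i) z ^ (W - N)) * (K' * tau (lam i) z ^ (W' - N)) :=
        mul_le_mul (h i z hz) (h' i z hz) (abs_nonneg _) (by positivity)
    _ = K * K' * tau (lam i) z ^ (W - N + (W' - N)) := by ring
    _ ≤ _ := mul_le_mul_of_nonneg_left (pow_le_pow_right₀ ht (by omega)) (mul_nonneg hK hK')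

theorem mul (hl : ∀ i, 1 ≤ lam i) : ∀ {J W W' : ℕ} {f g : ℕ → Sm}, TT U lam N J W f →
    TT U lam N J W' g → TT U lam N J (W + W') fun i => f i * g i
  | 0, _, _, _, _, h, h' => mul0 hl h h'
  | _ + 1, W, W', _, _, h, h' => ⟨mul0 hl h.1 h'.1, by
      simp only [der_mul]
      have h1 := mul hl h.2 h'.pred
      have h2 := mul hl h.pred h'.2
      rw [show W + 1 + W' = W + W' + 1 by ring] at h1
      exact add h1 h2⟩

theorem mul' (hl : ∀ i, 1 ≤ lam i) {J : ℕ} {f g : ℕ → Sm} (h : TT U lam N J 0 f)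
    (h' : TT U lam N J 0 g) : TT U lam N J 0 fun i => f i * g i := mul hl h h'

theorem fixed (hl : ∀ i, 1 ≤ lam i) {a b : ℝ} (hU : U ⊆ crect a b) :
    ∀ (J W : ℕ) (f : Sm), TT U lam N J W fun _ => f := by
  have h0 : ∀ (W : ℕ) (f : Sm), TT U lam N 0 W fun _ => f := by
    intro W f
    obtain ⟨K, hK⟩ := (isCompact_crect a b).exists_bound_of_continuousOn f.continuous.continuousOn
    refine ⟨max K 0, le_max_right _ _, fun i z hz => ?_⟩
    exact ((hK z (hU hz)).trans (le_max_left _ _)).trans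
      (le_mul_of_one_le_right (le_max_right _ _) (one_le_pow₀ (one_le_tau (hl i) z)))
  intro J
  induction J with
  | zero => exact h0
  | succ J ih => exact fun W f => ⟨h0 W f, ih _ _⟩

theorem pow (hl : ∀ i, 1 ≤ lam i) {a b : ℝ} (hU : U ⊆ crect a b) {J : ℕ} {f : ℕ → Sm}
    (h : TT U lam N J 0 f) (n : ℕ) : TT U lam N J 0 fun i => f i ^ n := by
  induction n with
  | zero => simpa using fixed hl hU J 0 1
  | succ n ih => simpa only [pow_succ] using ih.mul' hl h

theorem comp (hl : ∀ i, 1 ≤ lam i) {J : ℕ} {f : ℕ → Sm} (h : TT U lam N J 0 f) (φ : S1) :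
    TT U lam N J 0 fun i => Sm.comp φ (f i) := by
  have h0 : ∀ φ : S1, TT U lam N 0 0 fun i => Sm.comp φ (f i) := by
    intro φ
    obtain ⟨K, -, hK⟩ := h.zero_of
    obtain ⟨M, hM⟩ := (isCompact_Icc (a := -K) (b := K)).exists_bound_of_continuousOn
      φ.continuous.continuousOn
    refine ⟨max M 0, le_max_right _ _, fun i z hz => ?_⟩
    have := hK i z hz
    simp only [Nat.zero_sub, pow_zero, mul_one] at this ⊢
    exact (hM _ (abs_le.1 this)).trans (le_max_left _ _)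
  induction J generalizing φ with
  | zero => exact h0 φ
  | succ J ih =>
    refine ⟨h0 φ, ?_⟩
    simp only [dy_comp]
    exact (ih h.pred φ.der).mul hl h.2

theorem resc (hl : ∀ i, 1 ≤ lam i) : ∀ (J W : ℕ) (n : ℤ) (f : Sm), Van 1 1 f → n + N ≤ W →
    TT U lam N J W fun i => resc n f (lam i) := by
  have hl0 : ∀ i, 0 < lam i := fun i => one_pos.trans_le (hl i)
  have h0 : ∀ (W : ℕ) (n : ℤ) (f : Sm), Van 1 1 f → n + N ≤ W →
      TT U lam N 0 W fun i => R220.resc n f (lam i) := by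
    intro W n f hf hn
    obtain ⟨K, hK0, hK⟩ := hf.bdd
    refine ⟨K, hK0, fun i z _ => ?_⟩
    by_cases hz : z ∈ crect (lam i)⁻¹ (lam i)⁻¹
    · refine (abs_resc_le hK n (hl0 i) z).trans (mul_le_mul_of_nonneg_left ?_ hK0)
      rw [tau, if_pos hz, ← zpow_natCast]
      exact zpow_le_zpow_right₀ (hl i) (by omega)
    · beta_reduce
      rw [hf.resc n (hl0 i) z hz, abs_zero]
      have := one_le_tau (hl i) z
      positivity
  intro J
  induction J with
  | zero => exact h0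
  | succ J ih =>
    intro W n f hf hn
    refine ⟨h0 W n f hf hn, ?_⟩
    simp only [dy_resc _ _ (hl0 _)]
    exact ih _ _ _ hf.dy (by push_cast; omega)

end TT

end Crest.Agent.R220
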