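import Crest.Agent.R220.Defs

/-! The multiplier that vanishes on a small box around the source. -/

set_option autoImplicit false
open scoped ContDiff Topology
open MeasureTheory Set Filter

namespace Crest.Agent.R220

open Sm

namespace MultAux

theorem st_apply (t : ℝ) : st t = Real.smoothTransition t := rfl

theorem hasDerivAt_H (t : ℝ) :
    HasDerivAt (fun u => ∫ x in (0 : ℝ)..u, Real.smoothTransition x) (Real.smoothTransition t) t :=
  (Real.smoothTransition.continuous.integral_hasStrictDerivAt 0 t).hasDerivAt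

/-- The primitive of the smooth transition. -/
noncomputable def H : S1 :=
  ⟨fun u => ∫ x in (0 : ℝ)..u, Real.smoothTransition x, by
    rw [contDiff_infty_iff_deriv]
    refine ⟨fun t => (hasDerivAt_H t).differentiableAt, ?_⟩
    rw [show deriv (fun u => ∫ x in (0 : ℝ)..u, Real.smoothTransition x) = Real.smoothTransition
      from funext fun t => (hasDerivAt_H t).deriv]
    exact Real.smoothTransition.contDiff⟩

theorem H_der (t : ℝ) : H.der t = st t := (hasDerivAt_H t).deriv

theorem H_apply (u : ℝ) : H u = ∫ x in (0 : ℝ)..u, Real.smoothTransition x := rfl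

theorem st_symm (u : ℝ) : st u + st (1 - u) = 1 := by
  simp only [st_apply, Real.smoothTransition, sub_sub_cancel]
  have := Real.smoothTransition.pos_denom u
  rw [add_comm (expNegInvGlue (1 - u)), ← add_div, div_self this.ne']

theorem H_mono : Monotone H.toFun :=
  monotone_of_deriv_nonneg (fun t => (hasDerivAt_H t).differentiableAt) fun t => by
    rw [← S1.der_apply, H_der]; exact Real.smoothTransition.nonneg t

theorem H_zero {u : ℝ} (hu : u ≤ 0) : H u = 0 := by
  rw [H_apply, intervalIntegral.integral_congr (g := fun _ => (0 : ℝ))]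
  · simp
  · intro x hx
    rw [uIcc_of_ge hu] at hx
    exact Real.smoothTransition.zero_of_nonpos hx.2

theorem H_nonneg (u : ℝ) : 0 ≤ H u := by
  rcases le_total u 0 with h | h
  · rw [H_zero h]
  · rw [← H_zero le_rfl]; exact H_mono h

theorem H_le (u : ℝ) : H u ≤ |u| * st u := by
  rcases le_total u 0 with h | h
  · rw [H_zero h]; exact mul_nonneg (abs_nonneg _) (Real.smoothTransition.nonneg _)
  · have := intervalIntegral.integral_mono_on (μ := volume) h
      (Real.smoothTransition.continuous.intervalIntegrable 0 u)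
      (g := fun _ => Real.smoothTransition u) (by simp)
      fun x hx => Real.smoothTransition.monotone hx.2
    rw [abs_of_nonneg h, H_apply, st_apply]
    simpa using this

theorem le_H (u : ℝ) : u - 1 ≤ H u := by
  rcases le_total u 1 with h | h
  · linarith [H_nonneg u]
  · have h1 : H u - H 1 = u - 1 := by
      rw [H_apply, H_apply, intervalIntegral.integral_interval_sub_left
        (Real.smoothTransition.continuous.intervalIntegrable _ _)
        (Real.smoothTransition.continuous.intervalIntegrable _ _),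
        intervalIntegral.integral_congr (g := fun _ => (1 : ℝ))]
      · simp
      · intro x hx
        rw [uIcc_of_le h] at hx
        exact Real.smoothTransition.one_of_one_le hx.1
    linarith [H_nonneg 1]

theorem st_nonneg (u : ℝ) : 0 ≤ st u := Real.smoothTransition.nonneg u
theorem st_le_one (u : ℝ) : st u ≤ 1 := Real.smoothTransition.le_one u
theorem st_zero {u : ℝ} (h : u ≤ 0) : st u = 0 := Real.smoothTransition.zero_of_nonpos h
theorem st_one {u : ℝ} (h : 1 ≤ u) : st u = 1 := Real.smoothTransition.one_of_one_le h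
theorem st_mono {u v : ℝ} (h : u ≤ v) : st u ≤ st v := Real.smoothTransition.monotone h

theorem exists_bound : ∃ M : ℝ, 0 < M ∧ ∀ t, |(bump (1 / 2) 1).der t| ≤ M := by
  have hc : HasCompactSupport (bump (1 / 2) 1).toFun :=
    HasCompactSupport.intro (isCompact_Icc (a := (-1 : ℝ)) (b := 1)) fun t ht =>
      bump_eq_zero (by norm_num) (by
        by_contra h
        exact ht (abs_le.1 (not_le.1 h).le))
  obtain ⟨M, hM⟩ := (bump (1 / 2) 1).der.continuous.bounded_above_of_compact_support hc.deriv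
  exact ⟨max M 1, by simp, fun t => (hM t).trans (le_max_left _ _)⟩

/-- the odd profile `u ↦ H (u - D) - H (-u - D)` -/
theorem prof {t D : ℝ} (hD0 : -1 / 2 ≤ D) (hD1 : D ≤ 1) :
    |H (t - D) - H (-t - D)| ≤ (st (t - D) + st (-t - D)) * (|t| + 1) ∧
      (st (t - D) + st (-t - D)) * (t ^ 2 - 2 * |t|) ≤ t * (H (t - D) - H (-t - D)) := by
  have a1 := st_nonneg (t - D)
  have a2 := st_nonneg (-t - D)
  have b1 := H_nonneg (t - D)
  have b2 := H_nonneg (-t - D)
  constructor
  · have c1 : |t - D| ≤ |t| + 1 := (abs_sub _ _).trans (by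
      have : |D| ≤ 1 := abs_le.2 ⟨by linarith, hD1⟩
      linarith)
    have c2 : |-t - D| ≤ |t| + 1 := (abs_sub _ _).trans (by
      have : |D| ≤ 1 := abs_le.2 ⟨by linarith, hD1⟩
      rw [abs_neg]; linarith)
    have d1 := (H_le (t - D)).trans (mul_le_mul_of_nonneg_right c1 a1)
    have d2 := (H_le (-t - D)).trans (mul_le_mul_of_nonneg_right c2 a2)
    rw [abs_le]
    constructor <;> linarith
  · rcases le_total 0 t with h | h
    · rw [abs_of_nonneg h]
      rcases le_total t 2 with h2 | h2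
      · have := H_mono (by linarith : -t - D ≤ t - D)
        have h3 : t ^ 2 - 2 * t ≤ 0 := by nlinarith
        nlinarith [mul_nonneg h (sub_nonneg.2 this)]
      · rw [st_one (by linarith : 1 ≤ t - D), st_zero (by linarith : -t - D ≤ 0),
          H_zero (by linarith : -t - D ≤ 0)]
        nlinarith [le_H (t - D)]
    · rw [abs_of_nonpos h]
      rcases le_total (-t) 2 with h2 | h2
      · have := H_mono (by linarith : t - D ≤ -t - D)
        have h3 : t ^ 2 - 2 * -t ≤ 0 := by nlinarith
        nlinarith [mul_nonneg (neg_nonneg.2 h) (sub_nonneg.2 this)]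
      · rw [st_one (by linarith : 1 ≤ -t - D), st_zero (by linarith : t - D ≤ 0),
          H_zero (by linarith : t - D ≤ 0)]
        nlinarith [le_H (-t - D)]

theorem W_le_one {t D : ℝ} (hD0 : -1 / 2 ≤ D) : st (t - D) + st (-t - D) ≤ 1 := by
  have := st_mono (by linarith : -t - D ≤ 1 - (t - D))
  linarith [st_symm (t - D)]

theorem W_zero {t : ℝ} (ht : |t| ≤ 1) : st (t - 1) + st (-t - 1) = 0 := by
  obtain ⟨h1, h2⟩ := abs_le.1 ht
  rw [st_zero (by linarith), st_zero (by linarith), add_zero]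

theorem W_one {t D : ℝ} (hD0 : -1 / 2 ≤ D) (hD1 : D ≤ 1) (ht : 2 ≤ |t|) :
    st (t - D) + st (-t - D) = 1 := by
  rcases le_abs.1 ht with h | h
  · rw [st_one (by linarith), st_zero (by linarith), add_zero]
  · rw [st_zero (by linarith), st_one (by linarith), zero_add]

theorem H_odd_le (t : ℝ) : |H (t - 1) - H (-t - 1)| ≤ |t| := by
  have a1 := H_nonneg (t - 1)
  have a2 := H_nonneg (-t - 1)
  have k : ∀ u : ℝ, H (u - 1) ≤ |u| := fun u => by
    rcases le_total u 1 with h | h
    · rw [H_zero (by linarith)]; exact abs_nonneg _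
    · have := H_le (u - 1)
      rw [abs_of_nonneg (by linarith)] at this
      have := mul_le_mul_of_nonneg_left (st_le_one (u - 1)) (by linarith : 0 ≤ u - 1)
      linarith [le_abs_self u]
  have b1 := k t
  have b2 := k (-t)
  rw [abs_neg] at b2
  rw [abs_le]
  constructor <;> linarith

end MultAux

open MultAux

theorem exists_mult : ∃ CD : ℝ, 0 < CD ∧ ∀ δ xl : ℝ, 0 < δ → 0 < xl → ∀ η : Sm,
    ∃ a b W bx : Sm, dy a = 0 ∧ dy b = W * dy η ∧ dx b = W * dx η + bx ∧ ∀ z : ℝ × ℝ,
      0 ≤ W z ∧ W z ≤ 1 ∧ 0 ≤ dx a z ∧ dx a z ≤ W z ∧ |a z| ≤ W z * |z.1| ∧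
      W z * (z.1 ^ 2 - 2 * xl * |z.1|) ≤ z.1 * a z ∧ |bx z| ≤ CD * δ / xl * W z ∧
      |b z| ≤ W z * (|η z| + δ) ∧ W z * (η z ^ 2 - 2 * δ * |η z|) ≤ η z * b z ∧
      (|z.1| ≤ xl / 2 → |η z| ≤ δ → W z = 0) ∧ (xl ≤ |z.1| ∨ 2 * δ ≤ |η z| → W z = 1) := by
  obtain ⟨M, hM0, hM⟩ := exists_bound
  refine ⟨3 / 2 * M, by positivity, fun δ xl hδ hxl η => ?_⟩
  obtain ⟨u, hu⟩ : ∃ u : Sm, u = C xl⁻¹ * X := ⟨_, rfl⟩
  obtain ⟨D, hD⟩ : ∃ D : Sm, D = C (3 / 2) * comp (bump (1 / 2) 1) u - C (1 / 2) := ⟨_, rfl⟩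
  obtain ⟨t, ht⟩ : ∃ t : Sm, t = C δ⁻¹ * η := ⟨_, rfl⟩
  have hdyu : dy u = 0 := by rw [hu, der_C_mul]; simp
  have hdxu : dx u = C xl⁻¹ := by rw [hu, der_C_mul]; simp
  have hdyD : dy D = 0 := by rw [hD, map_sub, der_C_mul, dy_comp, hdyu, der_C]; simp
  have hdxD : ∀ z, |dx D z| ≤ 3 / 2 * M / xl := fun z => by
    rw [hD, map_sub, der_C_mul, dx_comp, hdxu, der_C]
    simp only [sub_zero, Sm.mul_apply, C_apply, comp_apply, abs_mul]
    rw [abs_of_pos (inv_pos.2 hxl), abs_of_pos (by norm_num : (0 : ℝ) < 3 / 2), div_eq_mul_inv _ xl,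
      mul_assoc]
    have := hM (u z)
    gcongr
  have hdyt : dy t = C δ⁻¹ * dy η := by rw [ht, der_C_mul]
  have hdxt : dx t = C δ⁻¹ * dx η := by rw [ht, der_C_mul]
  have huz : ∀ z, u z = z.1 / xl := fun z => by simp [hu, div_eq_inv_mul]
  have htz : ∀ z, η z = δ * t z := fun z => by simp [ht, hδ.ne']
  have hDz : ∀ z, D z = 3 / 2 * bump (1 / 2) 1 (u z) - 1 / 2 := fun z => by simp [hD]
  refine ⟨C xl * (comp H (u - 1) - comp H (-u - 1)), C δ * (comp H (t - D) - comp H (-t - D)),
    comp st (t - D) + comp st (-t - D), -(C δ * dx D * (comp st (t - D) - comp st (-t - D))),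
    ?_, ?_, ?_, fun z => ?_⟩
  · rw [der_C_mul, map_sub, dy_comp, dy_comp, map_sub, map_sub, map_neg, hdyu]; simp
  · rw [der_C_mul, map_sub, dy_comp, dy_comp, map_sub, map_sub, map_neg, hdyD, hdyt]
    ext z
    simp only [Sm.mul_apply, C_apply, Sm.sub_apply, comp_apply, H_der, Sm.neg_apply, Sm.add_apply, Sm.zero_apply]
    field_simp
    ring
  · rw [der_C_mul, map_sub, dx_comp, dx_comp, map_sub, map_sub, map_neg, hdxt]
    ext z
    simp only [Sm.mul_apply, C_apply, Sm.sub_apply, comp_apply, H_der, Sm.neg_apply, Sm.add_apply]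
    field_simp
    ring
  have hda : dx (C xl * (comp H (u - 1) - comp H (-u - 1))) z = st (u z - 1) + st (-u z - 1) := by
    rw [der_C_mul, map_sub, dx_comp, dx_comp, map_sub, map_sub, map_neg, hdxu]
    simp only [Derivation.map_one_eq_zero, Sm.mul_apply, C_apply, Sm.sub_apply, comp_apply, H_der,
      Sm.neg_apply, Sm.zero_apply, Sm.one_apply]
    field_simp
    ring
  rw [hda]
  simp only [Sm.mul_apply, C_apply, Sm.sub_apply, comp_apply, Sm.neg_apply, Sm.add_apply, Sm.one_apply]
  have hD0 : -1 / 2 ≤ D z := by rw [hDz]; linarith [bump_nonneg (1 / 2) 1 (u z)]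
  have hD1 : D z ≤ 1 := by rw [hDz]; linarith [bump_le_one (1 / 2) 1 (u z)]
  have hx : z.1 = xl * u z := by rw [huz]; field_simp
  have hax : |z.1| = xl * |u z| := by rw [hx, abs_mul, abs_of_pos hxl]
  have haη : |η z| = δ * |t z| := by rw [htz, abs_mul, abs_of_pos hδ]
  have hW0 : 0 ≤ st (t z - D z) + st (-t z - D z) := add_nonneg (st_nonneg _) (st_nonneg _)
  have hW1 : 1 ≤ |u z| → st (t z - D z) + st (-t z - D z) = 1 := fun h => by
    have : D z = -1 / 2 := by rw [hDz, bump_eq_zero (by norm_num) h]; ring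
    rw [this, show -t z - -1 / 2 = 1 - (t z - -1 / 2) by ring, st_symm]
  obtain ⟨p1, p2⟩ := prof (t := t z) hD0 hD1
  refine ⟨hW0, W_le_one hD0, add_nonneg (st_nonneg _) (st_nonneg _), ?_, ?_, ?_, ?_, ?_, ?_, ?_, ?_⟩
  · rcases le_total |u z| 1 with h | h
    · rw [W_zero h]; exact hW0
    · rw [hW1 h]; exact W_le_one (by norm_num)
  · rcases le_total |u z| 1 with h | h
    · obtain ⟨h1, h2⟩ := abs_le.1 h
      rw [H_zero (by linarith), H_zero (by linarith)]
      simp only [sub_self, mul_zero, abs_zero]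
      positivity
    · rw [hW1 h, one_mul, hax, abs_mul, abs_of_pos hxl]
      exact mul_le_mul_of_nonneg_left (H_odd_le _) hxl.le
  · rw [hax, hx]
    rcases le_total |u z| 1 with h | h
    · obtain ⟨h1, h2⟩ := abs_le.1 h
      rw [H_zero (by linarith), H_zero (by linarith)]
      simp only [sub_self, mul_zero]
      refine mul_nonpos_of_nonneg_of_nonpos hW0 ?_
      rw [mul_pow, ← sq_abs (u z)]
      have := abs_nonneg (u z)
      have : xl ^ 2 * (|u z| * (|u z| - 2)) ≤ 0 :=
        mul_nonpos_of_nonneg_of_nonpos (by positivity)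
          (mul_nonpos_of_nonneg_of_nonpos this (by linarith))
      linarith
    · rw [hW1 h]
      have k : u z ^ 2 - 2 * |u z| ≤ u z * (H (u z - 1) - H (-u z - 1)) := by
        rcases le_abs.1 h with h1 | h1
        · rw [H_zero (by linarith : -u z - 1 ≤ 0), abs_of_nonneg (by linarith)]
          nlinarith [le_H (u z - 1)]
        · rw [H_zero (by linarith : u z - 1 ≤ 0), abs_of_nonpos (by linarith)]
          nlinarith [le_H (-u z - 1)]
      have := mul_le_mul_of_nonneg_left k (by positivity : 0 ≤ xl ^ 2)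
      linarith
  · rw [abs_neg, abs_mul, abs_mul, abs_of_pos hδ]
    have h1 : |st (t z - D z) - st (-t z - D z)| ≤ st (t z - D z) + st (-t z - D z) := by
      rw [abs_le]
      constructor <;> linarith [st_nonneg (t z - D z), st_nonneg (-t z - D z)]
    have h2 := hdxD z
    calc _ ≤ δ * (3 / 2 * M / xl) * (st (t z - D z) + st (-t z - D z)) := by gcongr
      _ = _ := by ring
  · rw [abs_mul, abs_of_pos hδ, haη]
    have := mul_le_mul_of_nonneg_left p1 hδ.le
    linarith
  · rw [haη, htz]
    have := mul_le_mul_of_nonneg_left p2 (by positivity : 0 ≤ δ ^ 2)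
    linarith
  · intro h1 h2
    have h3 : |u z| ≤ 1 / 2 := by
      rw [hax] at h1; nlinarith
    have h4 : |t z| ≤ 1 := by
      rw [haη] at h2; nlinarith
    have : D z = 1 := by rw [hDz, bump_eq_one (by norm_num) h3]; ring
    rw [this, W_zero h4]
  · rintro (h | h)
    · refine hW1 ?_
      rw [hax] at h; nlinarith
    · refine W_one hD0 hD1 ?_
      rw [haη] at h; nlinarith

end Crest.Agent.R220
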