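import Crest.Agent.R220.Stage2

/-! The first-order system has no uniformly bounded family of solutions. -/

set_option autoImplicit false
open scoped ContDiff Topology
open MeasureTheory Set Filter Asymptotics

namespace Crest.Agent.R220

open Sm

theorem final_alg {M G V S f1 f2 χ χx χy g g' κ c11 c12 c21 c22 s v vE sy vy vEy L σ R : ℝ}
    (hM : 1 ≤ M) (hV : |V| ≤ M * G) (hS : |S| ≤ M * G) (hf1 : |f1| ≤ M * G) (hf2 : |f2| ≤ M * G)
    (hR : |R| ≤ M * G) (h1 : |χx * V| ≤ M * G) (h2 : |χy * V| ≤ M * G) (h3 : |χx * S| ≤ M * G)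
    (h4 : |χy * S| ≤ M * G) (hχ : |χ| ≤ M) (hg : |g| ≤ M) (hg' : |g'| ≤ M) (hκ : |κ| ≤ M)
    (h11 : |c11| ≤ M) (h12 : |c12| ≤ M) (h21 : |c21| ≤ M) (h22 : |c22| ≤ M) (hs : |s| ≤ M)
    (hv : |v| ≤ M) (hvE : |vE| ≤ M) (hsy : |sy| ≤ M) (hvy : |vy| ≤ M) (hvEy : |vEy| ≤ M)
    (hP : |L * (κ * (σ - s) + vE)| ≤ M) (hQ : |L * (σ - s - κ * v)| ≤ M) :
    |-κ * (g * χ) * (c11 * V + c12 * S + f1) + g * χ * (c21 * V + c22 * S + f2 + R)
      + V * (-κ * (g' * (L * σ) * χ + g * χx) - s * (-κ * (g' * L * χ + g * χy))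
        - sy * (-κ * (g * χ)) - vE * (g' * L * χ + g * χy) - vEy * (g * χ))
      + S * ((g' * (L * σ) * χ + g * χx) - s * (g' * L * χ + g * χy) - sy * (g * χ)
        + v * (-κ * (g' * L * χ + g * χy)) + vy * (-κ * (g * χ)))| ≤ 19 * (M ^ 5 * G) := by
  have t : ∀ {a b c d e : ℝ}, |a| ≤ M → |b| ≤ M → |c| ≤ M → |d| ≤ M → |e| ≤ M * G →
      -(M ^ 5 * G) ≤ a * b * c * d * e ∧ a * b * c * d * e ≤ M ^ 5 * G := by
    intro a b c d e ha hb hc hd he
    rw [← abs_le, abs_mul, abs_mul, abs_mul, abs_mul]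
    calc |a| * |b| * |c| * |d| * |e| ≤ M * M * M * M * (M * G) := by gcongr
      _ = _ := by ring
  have o : |(1 : ℝ)| ≤ M := by rwa [abs_one]
  have t1 := t hκ hg hχ h11 hV
  have t2 := t hκ hg hχ h12 hS
  have t3 := t hκ hg hχ o hf1
  have t4 := t hg hχ h21 o hV
  have t5 := t hg hχ h22 o hS
  have t6 := t hg hχ o o hf2
  have t7 := t hg hχ o o hR
  have t8 := t hχ hg' hP o hV
  have t9 := t hg hκ o o h1
  have t10 := t hg hκ hs o h2
  have t11 := t hg hvE o o h2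
  have t12 := t hsy hκ hg hχ hV
  have t13 := t hvEy hg hχ o hV
  have t14 := t hχ hg' hQ o hS
  have t15 := t hg o o o h3
  have t16 := t hg hs o o h4
  have t17 := t hg hκ hv o h4
  have t18 := t hsy hg hχ o hS
  have t19 := t hvy hκ hg hχ hS
  rw [abs_le]
  constructor <;> linarith [t1.1, t1.2, t2.1, t2.2, t3.1, t3.2, t4.1, t4.2, t5.1, t5.2, t6.1, t6.2,
    t7.1, t7.2, t8.1, t8.2, t9.1, t9.2, t10.1, t10.2, t11.1, t11.2, t12.1, t12.2, t13.1, t13.2,
    t14.1, t14.2, t15.1, t15.2, t16.1, t16.2, t17.1, t17.2, t18.1, t18.2, t19.1, t19.2]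

theorem abs_le_of_sq {L W n u K : ℝ} (hL : 1 ≤ L) (hW : L⁻¹ ^ 2 ≤ W) (hn : 0 ≤ n) (hK : 0 ≤ K)
    (hu : u ^ 2 ≤ K * (1 + n + (L ^ 2) ^ 2)) : |u| ≤ (K + 1) * (L ^ 2 + W * (1 + n)) := by
  have hL0 : 0 < L := by linarith
  have h1 : |u| ≤ L⁻¹ ^ 2 * u ^ 2 + L ^ 2 := by
    have e : L⁻¹ ^ 2 * u ^ 2 + L ^ 2 - 2 * |u| = (L⁻¹ * |u| - L) ^ 2 := by
      rw [← sq_abs u]; field_simp; ring
    nlinarith [sq_nonneg (L⁻¹ * |u| - L), abs_nonneg u]
  have h2 : L⁻¹ ^ 2 * u ^ 2 ≤ L⁻¹ ^ 2 * (K * (1 + n + (L ^ 2) ^ 2)) := by gcongr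
  have h3 : L⁻¹ ^ 2 * (K * (1 + n + (L ^ 2) ^ 2)) = K * (L⁻¹ ^ 2 * (1 + n)) + K * L ^ 2 := by
    field_simp
  have h4 : K * (L⁻¹ ^ 2 * (1 + n)) ≤ K * (W * (1 + n)) := by gcongr
  have h5 : 0 ≤ W * (1 + n) := mul_nonneg ((sq_nonneg _).trans hW) (by linarith)
  nlinarith

theorem abs_setIntegral_le {a b : ℝ} {f g h : Sm} (hpt : ∀ z ∈ crect a b, |f z - g z| ≤ h z) :
    |∫ z in crect a b, (f z - g z)| ≤ ∫ z in crect a b, h z := by
  rw [← Real.norm_eq_abs]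
  exact norm_integral_le_of_norm_le (integrableOn_crect h a b)
    ((ae_restrict_iff' (measurableSet_crect _ _)).2 (Eventually.of_forall fun z hz => by
      rw [Real.norm_eq_abs]; exact hpt z hz))

theorem setIntegral_const_add {a b : ℝ} (ha : 0 ≤ a) (hb : 0 ≤ b) (t : ℝ) (f : Sm) :
    ∫ z in crect a b, (t + f z) = 4 * a * b * t + ∫ z in crect a b, f z := by
  have h : IntegrableOn (fun _ : ℝ × ℝ => t) (crect a b) := integrableOn_crect (C t) a b
  rw [integral_add h (integrableOn_crect _ _ _), setIntegral_const, Measure.real,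
    volume_real_crect ha hb, smul_eq_mul]

/-- The cut-off of the test functions. -/
noncomputable abbrev chiL (L Λ : ℝ) : Sm := pull (L / Λ) 0 (L / Λ) 0 chi2

theorem scale_mem {L Λ r : ℝ} (hL : 0 < L) (hΛ : 0 < Λ) (x : ℝ) :
    (|L / Λ * x + 0| < r ↔ |x| < r * Λ / L) ∧ (|L / Λ * x + 0| ≤ r ↔ |x| ≤ r * Λ / L) := by
  rw [add_zero, abs_mul, abs_of_pos (div_pos hL hΛ), div_mul_eq_mul_div, div_lt_iff₀ hΛ,
    div_le_iff₀ hΛ, lt_div_iff₀ hL, le_div_iff₀ hL, mul_comm]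
  exact ⟨Iff.rfl, Iff.rfl⟩

theorem chiL_zero {L Λ : ℝ} (hL : 0 < L) (hΛ : 0 < Λ) {z : ℝ × ℝ}
    (hz : z ∉ crect (2 * Λ / L) (2 * Λ / L)) : chiL L Λ z = 0 := by
  rw [pull_apply]
  refine cutoff_eq_zero (by norm_num) (by norm_num) fun h => hz ?_
  exact ⟨((scale_mem hL hΛ _).1.1 h.1).le, ((scale_mem hL hΛ _).1.1 h.2).le⟩

theorem exists_chiL_bound : ∃ M1 : ℝ, 0 ≤ M1 ∧ ∀ L Λ : ℝ, 0 < L → 1 ≤ Λ →
    ∀ z ∈ crect (2 * Λ / L) (2 * Λ / L), |dx (chiL L Λ) z| ≤ M1 * L ∧ |dy (chiL L Λ) z| ≤ M1 * L ∧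
      (z ∈ orect (Λ / L) (Λ / L) → dx (chiL L Λ) z = 0 ∧ dy (chiL L Λ) z = 0) := by
  obtain ⟨M1, hM1⟩ := Cb.of_isCompact (isCompact_crect 2 2) 1 chi2
  refine ⟨|M1|, abs_nonneg _, fun L Λ hL hΛ z hz => ?_⟩
  have hΛ0 : 0 < Λ := by linarith
  have hm : (L / Λ * z.1 + 0, L / Λ * z.2 + 0) ∈ crect 2 2 :=
    ⟨(scale_mem hL hΛ0 _).2.2 hz.1, (scale_mem hL hΛ0 _).2.2 hz.2⟩
  have h1 : |L / Λ| ≤ L := by rw [abs_of_pos (div_pos hL hΛ0)]; exact div_le_self hL.le hΛ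
  rw [dx_pull, dy_pull]
  simp only [Sm.mul_apply, C_apply, pull_apply, abs_mul]
  refine ⟨?_, ?_, fun hz' => ?_⟩
  · rw [mul_comm]
    exact mul_le_mul ((hM1.dx.abs_le _ hm).trans (le_abs_self _)) h1 (abs_nonneg _) (abs_nonneg _)
  · rw [mul_comm]
    exact mul_le_mul ((hM1.dy.abs_le _ hm).trans (le_abs_self _)) h1 (abs_nonneg _) (abs_nonneg _)
  · have hm' : (L / Λ * z.1 + 0, L / Λ * z.2 + 0) ∈ orect 1 1 :=
      ⟨(scale_mem hL hΛ0 _).1.2 (by simpa using hz'.1), (scale_mem hL hΛ0 _).1.2 (by simpa using hz'.2)⟩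
    have e : ∀ z ∈ orect 1 1, chi2 z = (1 : Sm) z := fun z hz =>
      cutoff_eq_one (by norm_num) (by norm_num) (orect_subset_crect _ _ hz)
    rw [dx_eqOn (isOpen_orect _ _) e _ hm', dy_eqOn (isOpen_orect _ _) e _ hm']
    simp

theorem test_pt (d : Sys) (k p : ℕ) (L Λ σ κ v0 : ℝ) (z : ℝ × ℝ) (f1 f2 D : ℝ)
    (h1 : d.F1 k z = d.c11 k z * d.V k z + d.c12 k z * d.S k z + f1)
    (h2 : d.F2 k z = d.c21 k z * d.V k z + d.c22 k z * d.S k z + (d.v z ^ 2 * D + f2))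
    (g g' : ℝ) (hg : g = (L * (z.2 + σ * z.1)) ^ (p + 1))
    (hg' : g' = (p + 1) * (L * (z.2 + σ * z.1)) ^ p) :
    (dx (C (-κ) * tst (p + 1) L Λ σ * d.V k + tst (p + 1) L Λ σ * d.S k)
      + dy (C (-κ) * tst (p + 1) L Λ σ * (d.v * d.S k - d.s * d.V k)
        - tst (p + 1) L Λ σ * (d.s * d.S k + d.v * d.E * d.V k))) z
      = v0 ^ 2 * (D * tst (p + 1) L Λ σ z) +
      (-κ * (g * chiL L Λ z) * (d.c11 k z * d.V k z + d.c12 k z * d.S k z + f1)
        + g * chiL L Λ z * (d.c21 k z * d.V k z + d.c22 k z * d.S k z + f2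
          + (d.v z ^ 2 - v0 ^ 2) * D)
      + d.V k z * (-κ * (g' * (L * σ) * chiL L Λ z + g * dx (chiL L Λ) z)
        - d.s z * (-κ * (g' * L * chiL L Λ z + g * dy (chiL L Λ) z))
        - dy d.s z * (-κ * (g * chiL L Λ z))
        - (d.v * d.E) z * (g' * L * chiL L Λ z + g * dy (chiL L Λ) z)
        - dy (d.v * d.E) z * (g * chiL L Λ z))
      + d.S k z * ((g' * (L * σ) * chiL L Λ z + g * dx (chiL L Λ) z)
        - d.s z * (g' * L * chiL L Λ z + g * dy (chiL L Λ) z) - dy d.s z * (g * chiL L Λ z)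
        + d.v z * (-κ * (g' * L * chiL L Λ z + g * dy (chiL L Λ) z))
        + dy d.v z * (-κ * (g * chiL L Λ z)))) := by
  have e0 : tst (p + 1) L Λ σ z = g * chiL L Λ z := by
    rw [hg, tst, Sm.mul_apply]; simp only [Sm.pow_apply, Sm.mul_apply, Sm.add_apply, C_apply,
      X_apply, Y_apply]
  have e1 : dx (tst (p + 1) L Λ σ) z = g' * (L * σ) * chiL L Λ z + g * dx (chiL L Λ) z := by
    rw [hg, hg', tst, der_mul, der_pow, der_C_mul, map_add, der_C_mul, dx_X, dx_Y]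
    simp only [Sm.pow_apply, Sm.mul_apply, Sm.add_apply, C_apply, X_apply, Y_apply,
      natCast_apply, Sm.zero_apply, Sm.one_apply, Nat.add_sub_cancel]
    push_cast; ring
  have e2 : dy (tst (p + 1) L Λ σ) z = g' * L * chiL L Λ z + g * dy (chiL L Λ) z := by
    rw [hg, hg', tst, der_mul, der_pow, der_C_mul, map_add, der_C_mul, dy_X, dy_Y]
    simp only [Sm.pow_apply, Sm.mul_apply, Sm.add_apply, C_apply, X_apply, Y_apply,
      natCast_apply, Sm.zero_apply, Sm.one_apply, Nat.add_sub_cancel]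
    push_cast; ring
  rw [test_id, der_C_mul, der_C_mul]
  change (C (-κ) * tst (p + 1) L Λ σ * d.F1 k + tst (p + 1) L Λ σ * d.F2 k + _ + _) z = _
  generalize d.v * d.E = vE
  simp only [Sm.add_apply, Sm.sub_apply, Sm.mul_apply, C_apply, h1, h2, e0, e1, e2]
  ring

section

variable {B ρ w : ℝ} {N K : ℕ} {d : ℕ → Sys} {lam : ℕ → ℝ}

theorem Ctx.zero_mem (c : Ctx B ρ w N K d lam) : (0 : ℝ × ℝ) ∈ orect (3 * w) (3 * ρ) :=
  ⟨by have := c.hw; simpa using this, by have := c.hρ; simpa using this⟩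

theorem Ctx.lip (c : Ctx B ρ w N K d lam) {f : Sm} (hf : Cb (orect (3 * w) (3 * ρ)) 1 B f)
    {z : ℝ × ℝ} (hz : z ∈ orect (3 * w) (3 * ρ)) {r : ℝ} (hr : z ∈ crect r r) :
    |f z - f 0| ≤ 2 * B * r := by
  refine (abs_sub_le_of_convex (convex_orect _ _) hf.dx.abs_le hf.dy.abs_le hz c.zero_mem).trans ?_
  have := c.hB
  gcongr
  rw [sub_zero, Prod.norm_def]
  exact max_le hr.1 hr.2

/-- The characteristic slope at the centre. -/
theorem Ctx.exists_kappa (c : Ctx B ρ w N K d lam) : ∀ᶠ i in atTop, ∃ κ : ℝ,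
    κ ^ 2 = -(d i).E 0 ∧ |κ| ≤ B ∧ B⁻¹ * (w / 2) ≤ |(d i).s 0 + κ * (d i).v 0| ∧
      |(d i).s 0 + κ * (d i).v 0| ≤ B + B * B := by
  filter_upwards [c.eclose] with i hi
  have h0 := c.zero_mem
  have hB := c.hB
  have hw := c.hw
  have hw1 : w ≤ 1 / 100 := c.w_le_ρ.trans c.ρ_le
  have h1 := (abs_le.1 (hi.abs_le 0 h0)).2
  simp only [e0, Sm.add_apply, Sm.mul_apply, Sm.sub_apply, Sm.pow_apply, C_apply, X_apply,
    Y_apply, Sm.one_apply, ofNat_apply, Prod.fst_zero, Prod.snd_zero] at h1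
  have h2 : (w / 2) ^ 2 ≤ -(d i).E 0 := by
    rw [Sys.E, Sm.mul_apply]
    have h3 : (d i).e 0 ≤ -(w / 2) ^ 2 := by nlinarith [sq_nonneg w]
    nlinarith [c.Γ_low i 0 h0, sq_nonneg (w / 2)]
  have h3 : -(d i).E 0 ≤ B ^ 2 := by
    have := (abs_le.1 ((c.la i).E 0 h0)).1
    nlinarith
  have h4 : w / 2 ≤ √(-(d i).E 0) := Real.le_sqrt_of_sq_le h2
  have h5 : √(-(d i).E 0) ≤ B := Real.sqrt_le_iff.2 ⟨by linarith, h3⟩
  have h6 : √(-(d i).E 0) ^ 2 = -(d i).E 0 := Real.sq_sqrt ((sq_nonneg _).trans h2)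
  have h7 := (c.la i).v_low 0 h0
  have h8 : B⁻¹ * (w / 2) ≤ √(-(d i).E 0) * (d i).v 0 := by
    rw [mul_comm]; gcongr
  have h9 := (c.la i).v.abs_le 0 h0
  have h10 := (c.la i).s.abs_le 0 h0
  have up : ∀ κ : ℝ, |κ| ≤ B → |(d i).s 0 + κ * (d i).v 0| ≤ B + B * B := fun κ hκ =>
    (abs_add_le _ _).trans (by rw [abs_mul]; gcongr)
  have h11 : |√(-(d i).E 0)| ≤ B := by rwa [abs_of_nonneg (Real.sqrt_nonneg _)]
  rcases le_total 0 ((d i).s 0) with h | h
  · exact ⟨_, h6, h11, le_trans (by linarith) (le_abs_self _), up _ h11⟩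
  · refine ⟨-√(-(d i).E 0), by rw [neg_sq, h6], by rwa [abs_neg], ?_, up _ (by rwa [abs_neg])⟩
    exact le_trans (by linarith) (neg_le_abs _)

theorem final (c : Ctx B ρ w N K d lam) (hN : 8 ≤ N) (hNK : N + 2 ≤ K)
    (h5 : ∀ t, t < 3 → KK (Fl ρ w t) d 5) (hsrc : Source lam N fun i => (d i).E) : False := by
  obtain ⟨A, β, W, βx, ad, hT, hμ, Λ, hΛ, hfar⟩ := exists_adm c
  obtain ⟨⟨C1, hC1⟩, hKK⟩ := stage2 c hN hNK h5 ad hT
  have hB := c.hB
  have hw := c.hw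
  have hρ := c.hρ
  have hΛ0 : 0 < Λ := by linarith
  obtain ⟨cs, hcs, hsrc⟩ := hsrc Λ hΛ (B⁻¹ * (w / 2)) (by positivity) (B + B * B)
  obtain ⟨K1, hK1, b1⟩ := Pol.sq_le c.hlam (c.Fl_le (t := 2) (by norm_num)) hKK (by omega)
    ((PS_f1 c.tame N).mono (M' := N + 2) (by omega) le_rfl le_rfl) (by omega)
  obtain ⟨K2, hK2, b2⟩ := Pol.sq_le c.hlam (c.Fl_le (t := 2) (by norm_num)) hKK (by omega)
    ((PS_f2 c.tame N).mono (M' := N + 2) (by omega) le_rfl le_rfl) (by omega)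
  rw [eventually_prod_principal_iff, Nat.add_sub_cancel_left] at b1 b2
  obtain ⟨K3, b3⟩ := c.tame.E (N + 3)
  rw [Nat.add_sub_cancel_left] at b3
  obtain ⟨M1, hM1, hchi⟩ := exists_chiL_bound
  obtain ⟨M, m1, m2, m3, m4, m5, m6, m7, m8⟩ : ∃ M : ℝ, B ≤ M ∧ K1 + 1 ≤ M ∧ K2 + 1 ≤ M ∧
      8 * B ^ 2 * Λ * |K3| ≤ M ∧ M1 ≤ M ∧ (2 * Λ * (1 + (B + B * B))) ^ (N + 4 + 1) ≤ M ∧
      ((N + 4 : ℕ) + 1) * (2 * Λ * (1 + (B + B * B))) ^ (N + 4) ≤ M ∧ (4 * B ^ 2 + 4 * B) * Λ ≤ M :=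
    ((eventually_ge_atTop _).and ((eventually_ge_atTop _).and ((eventually_ge_atTop _).and
      ((eventually_ge_atTop _).and ((eventually_ge_atTop _).and ((eventually_ge_atTop _).and
      ((eventually_ge_atTop _).and (eventually_ge_atTop _)))))))).exists
  have hM : 1 ≤ M := by linarith
  have key : ∀ᶠ i in atTop, B⁻¹ ^ 2 * cs * lam i ≤ 19 * (M ^ 5 * (16 * Λ ^ 2 + C1)) := by
    filter_upwards [hC1, hμ, hfar, hsrc, b1, b2, b3, c.exists_kappa, c.hlam.eventually_ge_atTop 1,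
      c.ev_small (2 * Λ) (b := 2 * w) (by positivity)]
      with i hC1 hμ hfar hsrc b1 b2 b3 ⟨κ, hκ1, hκ2, hσ1, hσ2⟩ hl hsm
    have hl0 : 0 < lam i := by linarith
    rw [← div_eq_mul_inv] at hsm
    have hsub : crect (2 * Λ / lam i) (2 * Λ / lam i) ⊆ crect (2 * w) (2 * ρ) :=
      crect_mono hsm (by linarith [c.w_le_ρ])
    obtain ⟨σ, hσ⟩ : ∃ σ, σ = (d i).s 0 + κ * (d i).v 0 := ⟨_, rfl⟩
    rw [← hσ] at hσ1 hσ2
    have hs := hsrc σ hσ1 hσ2
    have ht0 : ∀ z, z ∉ crect (2 * Λ / lam i) (2 * Λ / lam i) →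
        tst (N + 4 + 1) (lam i) Λ σ z = 0 := fun z hz => by
      rw [tst, Sm.mul_apply, chiL_zero hl0 hΛ0 hz, mul_zero]
    have hpt : ∀ z ∈ crect (2 * Λ / lam i) (2 * Λ / lam i),
        |(dx (C (-κ) * tst (N + 4 + 1) (lam i) Λ σ * (d i).V (N + 2)
            + tst (N + 4 + 1) (lam i) Λ σ * (d i).S (N + 2))
          + dy (C (-κ) * tst (N + 4 + 1) (lam i) Λ σ
              * ((d i).v * (d i).S (N + 2) - (d i).s * (d i).V (N + 2))
            - tst (N + 4 + 1) (lam i) Λ σ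
              * ((d i).s * (d i).S (N + 2) + (d i).v * (d i).E * (d i).V (N + 2)))) z
          - (C ((d i).v 0 ^ 2) * (dy^[N + 3] (d i).E * tst (N + 4 + 1) (lam i) Λ σ)) z| ≤
        (C (19 * M ^ 5) * (C (lam i ^ 2) + W i * (1 + (d i).N2 (N + 3)))) z := by
      intro z hz
      have hz2 := hsub hz
      have hzU := c.sub (t := 2) (by norm_num) hz2
      have la := c.la i
      rw [test_pt (d i) (N + 2) (N + 4) (lam i) Λ σ κ ((d i).v 0) z ((d i).f1 (N + 2) z)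
        ((d i).f2 (N + 2) z) ((dy^[N + 3] (d i).E) z) (c.F1_eq i _ hzU) (c.F2_eq i _ hzU) _ _
        rfl rfl]
      simp only [Sm.mul_apply (C _), Sm.mul_apply (dy^[N + 3] (d i).E), C_apply,
        Sm.add_apply (C _), Sm.mul_apply (W i), Sm.add_apply (1 : Sm), Sm.one_apply,
        add_sub_cancel_left]
      have hn := (d i).N2_nonneg (N + 3) z
      have hW0 : 0 ≤ W i z := (sq_nonneg _).trans (hμ z)
      have hG0 : 0 ≤ lam i ^ 2 + W i z * (1 + (d i).N2 (N + 3) z) := by positivity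
      have hτ : tau (lam i) z ≤ lam i := by unfold tau; split_ifs; exacts [le_rfl, hl]
      have hτ1 := one_le_tau hl z
      have hU2 := (d i).sq_le_N2 (j := N + 2) (k := N + 3) (by omega) z
      have hl4 : 0 ≤ (lam i ^ 2) ^ 2 := by positivity
      have hV : |(d i).V (N + 2) z| ≤ M * (lam i ^ 2 + W i z * (1 + (d i).N2 (N + 3) z)) :=
        (abs_le_of_sq hl (hμ z) hn zero_le_one
          (by nlinarith [sq_nonneg ((d i).S (N + 2) z)])).trans (by gcongr; linarith)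
      have hS : |(d i).S (N + 2) z| ≤ M * (lam i ^ 2 + W i z * (1 + (d i).N2 (N + 3) z)) :=
        (abs_le_of_sq hl (hμ z) hn zero_le_one
          (by nlinarith [sq_nonneg ((d i).V (N + 2) z)])).trans (by gcongr; linarith)
      have hf1 : |(d i).f1 (N + 2) z| ≤ M * (lam i ^ 2 + W i z * (1 + (d i).N2 (N + 3) z)) :=
        (abs_le_of_sq hl (hμ z) hn hK1.le ((b1 z hz2).trans (by
          change K1 * (1 + (d i).N2 (N + 3) z + _) ≤ _
          gcongr))).trans (by gcongr)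
      have hf2 : |(d i).f2 (N + 2) z| ≤ M * (lam i ^ 2 + W i z * (1 + (d i).N2 (N + 3) z)) :=
        (abs_le_of_sq hl (hμ z) hn hK2.le ((b2 z hz2).trans (by
          change K2 * (1 + (d i).N2 (N + 3) z + _) ≤ _
          gcongr))).trans (by gcongr)
      have lv := c.lip la.v hzU hz
      have ls := c.lip la.s hzU hz
      have lE := c.lip la.vE hzU hz
      have hR : |((d i).v z ^ 2 - (d i).v 0 ^ 2) * (dy^[N + 3] (d i).E) z| ≤
          M * (lam i ^ 2 + W i z * (1 + (d i).N2 (N + 3) z)) := by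
        have a1 : |(d i).v z + (d i).v 0| ≤ B + B :=
          (abs_add_le _ _).trans (add_le_add (la.v.abs_le z hzU) (la.v.abs_le 0 c.zero_mem))
        have a2 : |(dy^[N + 3] (d i).E) z| ≤ |K3| * lam i ^ 3 :=
          (b3 z hzU).trans (by gcongr; exact le_abs_self _)
        rw [sq_sub_sq, abs_mul, abs_mul]
        calc _ ≤ (B + B) * (2 * B * (2 * Λ / lam i)) * (|K3| * lam i ^ 3) := by gcongr
          _ = 8 * B ^ 2 * Λ * |K3| * lam i ^ 2 := by field_simp; ring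
          _ ≤ _ := by gcongr; nlinarith
      obtain ⟨c1, c2, c3⟩ := hchi (lam i) Λ hl0 hΛ z hz
      have hcut : ∀ a u : ℝ, |a| ≤ M1 * lam i → (z ∈ orect (Λ / lam i) (Λ / lam i) → a = 0) →
          u ^ 2 ≤ (d i).N2 (N + 3) z →
          |a * u| ≤ M * (lam i ^ 2 + W i z * (1 + (d i).N2 (N + 3) z)) := by
        intro a u ha ha0 hu
        by_cases hz' : z ∈ orect (Λ / lam i) (Λ / lam i)
        · rw [ha0 hz', zero_mul, abs_zero]; positivity
        · have a1 := hfar z hzU hz'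
          have a2 : 1 + (d i).N2 (N + 3) z ≤ W i z * (1 + (d i).N2 (N + 3) z) :=
            le_mul_of_one_le_left (by positivity) a1
          have a3 : lam i * |u| ≤ lam i ^ 2 + W i z * (1 + (d i).N2 (N + 3) z) := by
            rw [← sq_abs] at hu
            nlinarith [sq_nonneg (lam i - |u|)]
          rw [abs_mul]
          calc |a| * |u| ≤ M1 * lam i * |u| := by gcongr
            _ = M1 * (lam i * |u|) := by ring
            _ ≤ _ := by gcongr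
      have hV2 : (d i).V (N + 2) z ^ 2 ≤ (d i).N2 (N + 3) z := by
        nlinarith [sq_nonneg ((d i).S (N + 2) z)]
      have hS2 : (d i).S (N + 2) z ^ 2 ≤ (d i).N2 (N + 3) z := by
        nlinarith [sq_nonneg ((d i).V (N + 2) z)]
      have hζ : |lam i * (z.2 + σ * z.1)| ≤ 2 * Λ * (1 + (B + B * B)) := by
        have a1 : |z.2 + σ * z.1| ≤ 2 * Λ / lam i + (B + B * B) * (2 * Λ / lam i) :=
          (abs_add_le _ _).trans (by rw [abs_mul]; gcongr; exacts [hz.2, hz.1])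
        rw [abs_mul, abs_of_pos hl0]
        calc _ ≤ lam i * (2 * Λ / lam i + (B + B * B) * (2 * Λ / lam i)) := by gcongr
          _ = _ := by field_simp
      have hχ : |chiL (lam i) Λ z| ≤ M := by
        rw [pull_apply, chi2, abs_of_nonneg (cutoff_nonneg _ _ _ _ _)]
        exact (cutoff_le_one _ _ _ _ _).trans hM
      have hlin : ∀ a b : ℝ, |a| ≤ 2 * B * (2 * Λ / lam i) → |b| ≤ 2 * B * (2 * Λ / lam i) →
          |lam i * (κ * a + b)| ≤ M := by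
        intro a b ha hb
        rw [abs_mul, abs_of_pos hl0]
        calc lam i * |κ * a + b|
            ≤ lam i * (B * (2 * B * (2 * Λ / lam i)) + 2 * B * (2 * Λ / lam i)) := by
              gcongr
              exact (abs_add_le _ _).trans (by rw [abs_mul]; gcongr)
          _ = (4 * B ^ 2 + 4 * B) * Λ := by field_simp; ring
          _ ≤ M := m8
      refine (final_alg hM hV hS hf1 hf2 hR (hcut _ _ c1 (fun h => (c3 h).1) hV2)
        (hcut _ _ c2 (fun h => (c3 h).2) hV2) (hcut _ _ c1 (fun h => (c3 h).1) hS2)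
        (hcut _ _ c2 (fun h => (c3 h).2) hS2) hχ ?_ ?_ (hκ2.trans m1)
        ((la.c11 _ hNK z hzU).trans m1) ((la.c12 _ hNK z hzU).trans m1)
        ((la.c21 _ hNK z hzU).trans m1) ((la.c22 _ hNK z hzU).trans m1)
        ((la.s.abs_le z hzU).trans m1) ((la.v.abs_le z hzU).trans m1)
        ((la.vE.abs_le z hzU).trans m1) ((la.s.dy.abs_le z hzU).trans m1)
        ((la.v.dy.abs_le z hzU).trans m1) ((la.vE.dy.abs_le z hzU).trans m1) ?_ ?_).trans
        (le_of_eq (by ring))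
      · rw [abs_pow]; exact le_trans (by gcongr) m6
      · rw [abs_mul, abs_pow, abs_of_nonneg (by positivity)]; exact le_trans (by gcongr) m7
      · have := hlin (-((d i).s z - (d i).s 0)) _ (by rwa [abs_neg]) lE
        convert this using 3
        rw [hσ, Sm.mul_apply _ _ 0]
        linear_combination ((d i).v 0) * hκ1
      · have := hlin (-((d i).v z - (d i).v 0)) (-((d i).s z - (d i).s 0)) (by rwa [abs_neg])
          (by rwa [abs_neg])
        convert this using 3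
        rw [hσ]; ring
    have hdiv := setIntegral_div (a := 2 * Λ / lam i) (b := 2 * Λ / lam i)
      (J1 := C (-κ) * tst (N + 4 + 1) (lam i) Λ σ * (d i).V (N + 2)
            + tst (N + 4 + 1) (lam i) Λ σ * (d i).S (N + 2))
      (J2 := C (-κ) * tst (N + 4 + 1) (lam i) Λ σ
              * ((d i).v * (d i).S (N + 2) - (d i).s * (d i).V (N + 2))
            - tst (N + 4 + 1) (lam i) Λ σ
              * ((d i).s * (d i).S (N + 2) + (d i).v * (d i).E * (d i).V (N + 2)))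
      (fun z hz => by simp [ht0 z hz]) (fun z hz => by simp [ht0 z hz])
    have k1 := abs_setIntegral_le hpt
    rw [integral_sub (integrableOn_crect _ _ _) (integrableOn_crect _ _ _), hdiv, zero_sub,
      abs_neg] at k1
    simp only [Sm.mul_apply (C _), C_apply, integral_const_mul, Sm.add_apply (C _)] at k1
    rw [setIntegral_eq_integral_of_forall_compl_eq_zero (fun z hz => by
      rw [Sm.mul_apply, ht0 z hz, mul_zero]),
      setIntegral_const_add (by positivity) (by positivity), abs_mul] at k1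
    have k2 := setIntegral_mono_set (integrableOn_crect (W i * (1 + (d i).N2 (N + 3))) (2 * w)
      (2 * ρ)) (Eventually.of_forall fun z => by
        have := (d i).N2_nonneg (N + 3) z
        have hW0 : 0 ≤ W i z := (sq_nonneg _).trans (hμ z)
        simp only [Pi.zero_apply, Sm.mul_apply, Sm.add_apply, Sm.one_apply]
        positivity) hsub.eventuallyLE
    have k3 : 4 * (2 * Λ / lam i) * (2 * Λ / lam i) * lam i ^ 2 = 16 * Λ ^ 2 := by
      field_simp; ring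
    have k4 : B⁻¹ ^ 2 ≤ |(d i).v 0 ^ 2| := by
      rw [abs_of_nonneg (sq_nonneg _)]
      gcongr
      exact (c.la i).v_low 0 c.zero_mem
    rw [k3] at k1
    calc B⁻¹ ^ 2 * cs * lam i = B⁻¹ ^ 2 * (cs * lam i) := by ring
      _ ≤ _ := mul_le_mul k4 hs (by positivity) (abs_nonneg _)
      _ ≤ _ := k1
      _ ≤ 19 * M ^ 5 * (16 * Λ ^ 2 + C1) := by gcongr; exact k2.trans hC1
      _ = _ := by ring
  have hinf := (c.hlam.const_mul_atTop (r := B⁻¹ ^ 2 * cs) (by positivity)).eventually_gt_atTop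
    (19 * (M ^ 5 * (16 * Λ ^ 2 + C1)))
  obtain ⟨i, h1, h2⟩ := (key.and hinf).exists
  exact absurd h1 (not_le.2 h2)

end

theorem pde_no_solution (B : ℝ) (N : ℕ) (hN : 8 ≤ N) : ∃ ρ0 : ℝ, 0 < ρ0 ∧ ∀ ρ w : ℝ, 0 < ρ →
    ρ ≤ ρ0 → 0 < w → w ≤ ρ ^ 2 → ∀ (d : ℕ → Sys) (lam : ℕ → ℝ), Tendsto lam atTop atTop →
    (∀ i, (d i).Bdd (orect (3 * w) (3 * ρ)) B) →
    (∀ κ : ℝ, 0 < κ → ∀ᶠ i in atTop, Cb (orect (3 * w) (3 * ρ)) 1 κ ((d i).e - e0 ρ w)) →
    TameSys (orect (3 * w) (3 * ρ)) lam N d → Source lam N (fun i => (d i).E) → False := by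
  obtain ⟨B', hB', hK, hla⟩ := exists_LA B (N + 2)
  have hpos : 0 < B' ^ 10 := by positivity
  refine ⟨(B' ^ 10)⁻¹, by positivity, fun ρ w hρ hρ0 hw hwρ d lam hlam hb he ht hs => ?_⟩
  have hρB : ρ * B' ^ 10 ≤ 1 := by
    calc ρ * B' ^ 10 ≤ (B' ^ 10)⁻¹ * B' ^ 10 := by gcongr
      _ = 1 := inv_mul_cancel₀ hpos.ne'
  have hρ3 : 3 * ρ ≤ 1 := by
    have : (100 : ℝ) ^ 10 ≤ B' ^ 10 := pow_le_pow_left₀ (by norm_num) hB' 10
    nlinarith
  have hU : orect (3 * w) (3 * ρ) ⊆ crect 1 1 :=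
    (orect_subset_crect _ _).trans (crect_mono (by nlinarith) hρ3)
  have c : Ctx B' ρ w N (N + 2) d lam :=
    ⟨hB', hK, hρ, hρB, hw, hwρ, hlam, fun i => (hb i).eq1, fun i => (hb i).eq2,
      fun i => hla _ _ (hb i) hU, fun i => (hb i).Γ_low, he _ (by positivity), ht⟩
  refine final c hN le_rfl (fun t ht j hj => ⟨?_, ?_⟩) hs
  · refine IsBigO.of_bound B ?_
    rw [eventually_prod_principal_iff]
    refine Eventually.of_forall fun i z hz => ?_
    rw [norm_one, mul_one]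
    exact (Cb.iter_dy (m := 0) (j := j) ((hb i).v.of_le (by omega))) z (c.sub ht hz)
  · refine IsBigO.of_bound B ?_
    rw [eventually_prod_principal_iff]
    refine Eventually.of_forall fun i z hz => ?_
    rw [norm_one, mul_one]
    exact (Cb.iter_dy (m := 0) (j := j) ((hb i).s.of_le (by omega))) z (c.sub ht hz)

end Crest.Agent.R220
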