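import Mathlib

/-! Pointwise positivity of the quadratic form produced by the multiplier. -/

set_option autoImplicit false

namespace Crest.Agent.R220

private theorem bm {a b A B : ℝ} (ha : |a| ≤ A) (hb : |b| ≤ B) : |a * b| ≤ A * B := by
  rw [abs_mul]; exact mul_le_mul ha hb (abs_nonneg _) ((abs_nonneg _).trans ha)

private theorem ba {a b A B : ℝ} (ha : |a| ≤ A) (hb : |b| ≤ B) : |a + b| ≤ A + B :=
  (abs_add_le _ _).trans (add_le_add ha hb)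

private theorem bs {a b A B : ℝ} (ha : |a| ≤ A) (hb : |b| ≤ B) : |a - b| ≤ A + B :=
  (abs_sub _ _).trans (add_le_add ha hb)

private theorem bn {a A : ℝ} (ha : |a| ≤ A) : |-a| ≤ A := by rwa [abs_neg]

private theorem bd {a A : ℝ} (c : ℝ) (hc : 0 < c) (ha : |a| ≤ A) : |a / c| ≤ A / c := by
  rw [abs_div, abs_of_pos hc]; gcongr

private theorem pos_SS (B ρ x v vy Xv sy h Xh hy c12 c22 ηy W A A' β : ℝ)
    (hB : 100 ≤ B) (hρ : 0 < ρ) (hx : |x| ≤ 1)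
    (hv : |v| ≤ B) (hvy : |vy| ≤ B) (hXv : |Xv| ≤ B) (hsy : |sy| ≤ B)
    (hh : |h| ≤ B) (hXh : |Xh| ≤ B)
    (hhy : |hy| ≤ B) (hc12 : |c12| ≤ B) (hc22 : |c22| ≤ B)
    (hηy : |ηy - 1| ≤ 3 * B * ρ)
    (hW : 0 ≤ W) (hA : |A| ≤ 3 * ρ * W) (hβ : |β| ≤ 5 * ρ * W) :
    |((W * ηy * v + β * vy - β * v * x * hy) / 2 + β * c12
      - ((v * A' / 2 + Xv * A / 2) + (v * A / 2) * (-h - x * Xh) - (v * A / 2) * sy) / 2
      - (v * A / 2) * c22) - v * (W - A' / 2) / 2| ≤ 20 * B ^ 2 * (ρ * W) := by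
  have hW' : |W| ≤ W := (abs_of_nonneg hW).le
  have ha : |v * A / 2| ≤ B * (3 * ρ * W) / 2 := bd 2 two_pos (bm hv hA)
  have key := bs (bs (ba (bd 2 two_pos (bs (ba (bm (bm hW' hηy) hv) (bm hβ hvy))
      (bm (bm (bm hβ hv) hx) hhy))) (bm hβ hc12))
    (bd 2 two_pos (bs (ba (bd 2 two_pos (bm hXv hA)) (bm ha (bs (bn hh) (bm hx hXh))))
      (bm ha hsy)))) (bm ha hc22)
  refine le_trans (le_of_eq ?_) (key.trans ?_)
  · congr 1; ring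
  · have hP : 0 ≤ ρ * W := by positivity
    have h1 : B ≤ B ^ 2 := by nlinarith
    have : (8.25 * B + 7.75 * B ^ 2) * (ρ * W) ≤ 20 * B ^ 2 * (ρ * W) := by
      gcongr; nlinarith
    refine le_trans (le_of_eq ?_) this
    ring

private theorem pos_VV_err (B ρ w K x v vy Xv s sy Γ Γy XΓ e ex ey h Xh hy c11 ct
    ηy W A A' β : ℝ)
    (hB : 100 ≤ B) (hρ : 0 < ρ) (hK : 0 ≤ K) (hKB : K ≤ B) (hx : |x| ≤ 1)
    (hv : |v| ≤ B) (hvy : |vy| ≤ B) (hXv : |Xv| ≤ B) (hs : |s| ≤ B) (hsy : |sy| ≤ B)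
    (hΓ : |Γ| ≤ B) (hΓy : |Γy| ≤ B) (hXΓ : |XΓ| ≤ B) (hh : |h| ≤ B) (hXh : |Xh| ≤ B)
    (hhy : |hy| ≤ B) (hc11 : |c11| ≤ B) (hct : |ct| ≤ B)
    (hηy : |ηy - 1| ≤ 3 * B * ρ) (hW : 0 ≤ W)
    (he : |e| ≤ 120 * w ^ 2)
    (hβe : |β * e| ≤ 600 * (ρ * W * w ^ 2)) (hAe : |A * e| ≤ 360 * (ρ * W * w ^ 2))
    (hAey : |A * ey| ≤ 21 * (ρ * W * w ^ 2))
    (E Ey XE c21 a Xa qVV : ℝ)
    (dE : E = Γ * e) (dEy : Ey = Γy * e + Γ * ey) (dXE : XE = XΓ * e + Γ * (ex - s * ey))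
    (dc21 : c21 = (K + 2) * v * Ey + E * ct)
    (da : a = v * A / 2) (dXa : Xa = v * A' / 2 + Xv * A / 2)
    (dVV : qVV = β * c21 - (W * ηy * v * E + β * (vy * E + v * Ey) - β * v * E * x * hy) / 2
      + (Xa * E + a * XE + a * E * (-h - x * Xh) - a * E * sy) / 2 + a * E * c11) :
    |qVV - v * Γ * ((K + 3 / 2) * β * ey - (W - A' / 2) * e / 2 + A * ex / 4)|
      ≤ 4000 * B ^ 3 * (ρ * W * w ^ 2) := by
  have hW' : |W| ≤ W := (abs_of_nonneg hW).le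
  have hK' : |K + 3 / 2| ≤ 2 * B := by rw [abs_of_nonneg (by linarith)]; linarith
  have k1 := bm (bm (bm hK' hv) hΓy) hβe
  have k2 := bm (bm hΓ hct) hβe
  have k3 := bd 2 two_pos (bm (bm (bm (bm hW' hηy) hv) hΓ) he)
  have k4 := bd 2 two_pos (bm (bm hvy hΓ) hβe)
  have k5 := bd 2 two_pos (bm (bm (bm (bm hv hΓ) hx) hhy) hβe)
  have k6 := bd 4 four_pos (bm (bm hXv hΓ) hAe)
  have k7 := bd 4 four_pos (bm (bm hv hXΓ) hAe)
  have k8 := bd 4 four_pos (bm (bm (bm hv hΓ) hs) hAey)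
  have k9 := bd 4 four_pos (bm (bm (bm hv hΓ) (bs (bn hh) (bm hx hXh))) hAe)
  have k10 := bd 4 four_pos (bm (bm (bm hv hΓ) hsy) hAe)
  have k11 := bd 2 two_pos (bm (bm (bm hv hΓ) hc11) hAe)
  have key := ba (bs (ba (bs (ba (ba (ba (bs (bs (ba k1 k2) k3) k4) k5) k6) k7) k8) k9) k10) k11
  subst dE dEy dXE dc21 da dXa dVV
  refine le_trans (le_of_eq ?_) (key.trans ?_)
  · congr 1; ring
  · have hP : 0 ≤ ρ * W * w ^ 2 := by positivity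
    have h1 : B ^ 2 ≤ B ^ 3 := pow_le_pow_right₀ (by linarith) (by norm_num)
    have h2 : 0 ≤ B ^ 2 := by positivity
    have : (1080 * B ^ 2 + 2135.25 * B ^ 3) * (ρ * W * w ^ 2)
        ≤ 4000 * B ^ 3 * (ρ * W * w ^ 2) := by
      gcongr; linarith
    refine le_trans (le_of_eq ?_) this
    ring

private theorem pos_VS_err (B ρ w K x v vy Xh hy c12 ct Γ Γy e ey Xη W A β βx : ℝ)
    (hB : 100 ≤ B) (hρ : 0 < ρ) (hw : 0 < w) (hK : 0 ≤ K) (hKB : K ≤ B) (hx : |x| ≤ 1)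
    (hx' : |x| ≤ 3 * w)
    (hv : |v| ≤ B) (hvy : |vy| ≤ B) (hΓ : |Γ| ≤ B) (hΓy : |Γy| ≤ B) (hXh : |Xh| ≤ B)
    (hhy : |hy| ≤ B) (hc12 : |c12| ≤ B) (hct : |ct| ≤ B)
    (hXη : |Xη| ≤ 9 * B * (w * ρ)) (hW : 0 ≤ W)
    (he : |e| ≤ ρ) (hey : |ey| ≤ ρ) (hA : |A| ≤ 3 * w * W) (hβ : |β| ≤ 5 * ρ * W)
    (E Ey c21 a ay qVS : ℝ)
    (dE : E = Γ * e) (dEy : Ey = Γy * e + Γ * ey)
    (dc21 : c21 = (K + 2) * v * Ey + E * ct)
    (da : a = v * A / 2) (day : ay = vy * A / 2)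
    (dVS : qVS = (βx + W * Xη) - β * x * Xh + (ay * v * E + a * vy * E + a * v * Ey)
      - a * v * E * x * hy - a * c21 + a * E * c12) :
    |qVS - βx| ≤ 50 * B ^ 4 * (ρ * W * w) := by
  have hW' : |W| ≤ W := (abs_of_nonneg hW).le
  have hK' : |K + 2| ≤ 2 * B := by rw [abs_of_nonneg (by linarith)]; linarith
  have hE : |E| ≤ B * ρ := dE ▸ bm hΓ he
  have hEy : |Ey| ≤ B * ρ + B * ρ := dEy ▸ ba (bm hΓy he) (bm hΓ hey)
  have hc : |c21| ≤ 2 * B * B * (B * ρ + B * ρ) + B * ρ * B :=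
    dc21 ▸ ba (bm (bm hK' hv) hEy) (bm hE hct)
  have ha : |a| ≤ B * (3 * w * W) / 2 := da ▸ bd 2 two_pos (bm hv hA)
  have hay : |ay| ≤ B * (3 * w * W) / 2 := day ▸ bd 2 two_pos (bm hvy hA)
  have key := ba (bs (bs (ba (bs (bm hW' hXη) (bm (bm hβ hx') hXh))
    (ba (ba (bm (bm hay hv) hE) (bm (bm ha hvy) hE)) (bm (bm ha hv) hEy)))
    (bm (bm (bm (bm ha hv) hE) hx) hhy)) (bm ha hc)) (bm (bm ha hE) hc12)
  subst dVS
  refine le_trans (le_of_eq ?_) (key.trans ?_)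
  · congr 1; ring
  · have hP : 0 ≤ ρ * W * w := by positivity
    have h1 : B ^ 3 ≤ B ^ 4 := pow_le_pow_right₀ (by linarith) (by norm_num)
    have h2 : B ^ 1 ≤ B ^ 4 := pow_le_pow_right₀ (by linarith) (by norm_num)
    have h3 : 0 ≤ B ^ 4 := by positivity
    have : (24 * B + 9 * B ^ 3 + 7.5 * B ^ 4) * (ρ * W * w)
        ≤ 50 * B ^ 4 * (ρ * W * w) := by
      gcongr; rw [pow_one] at h2; linarith
    refine le_trans (le_of_eq ?_) this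
    ring

private theorem pos_main (B ρ w δ K x y e ex ey η W A A' β : ℝ)
    (hB : 100 ≤ B) (hρ : 0 < ρ) (hs : 1000 * B ^ 2 * ρ ≤ 1 / 1000) (hw : 0 < w) (hwρ : w ≤ ρ ^ 2)
    (_hδ : 0 ≤ δ) (hδw : δ ≤ w ^ 2) (hK : 0 ≤ K) (hKB : K ≤ B)
    (hx : |x| ≤ 3 * w) (hy' : |y| ≤ 3 * ρ)
    (he : |e - (12 * x ^ 2 + w ^ 2 * ((ρ ^ 2)⁻¹ * y ^ 2 - 1))| ≤ w ^ 3)
    (hex : |ex - 24 * x| ≤ w ^ 3) (hey : |ey - w ^ 2 * ((ρ ^ 2)⁻¹ * (2 * y))| ≤ w ^ 3)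
    (hη : |η - y| ≤ 3 * B * w) (hη4 : |η| ≤ 4 * ρ)
    (hW : 0 ≤ W) (hA'0 : 0 ≤ A') (hA' : A' ≤ W) (hA : |A| ≤ 3 * w * W)
    (hxA : W * (x ^ 2 - δ * |x|) ≤ x * A)
    (hβ : |β| ≤ 5 * ρ * W) (hηβ : W * (η ^ 2 - δ * |η|) ≤ η * β) :
    0.24 * (W * w ^ 2) ≤ (K + 3 / 2) * β * ey - (W - A' / 2) * e / 2 + A * ex / 4 := by
  have hB2 : B ≤ B ^ 2 := by nlinarith only [hB]
  have hBρ : B * ρ ≤ 1 / 1000000 := by nlinarith only [hB2, hρ, hs]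
  have hρ1 : ρ ≤ 1 / 100000000 := by nlinarith only [hB, hρ, hBρ]
  have hwρ' : w ≤ ρ := by nlinarith only [hwρ, hρ, hρ1]
  have hw1 : w ≤ 1 := by linarith
  set r := (ρ ^ 2)⁻¹ with hr
  have hr0 : 0 < r := by positivity
  have hrρ : r * ρ ^ 2 = 1 := inv_mul_cancel₀ (by positivity)
  have hwr : w * r ≤ 1 := by nlinarith only [hrρ, hr0, hwρ]
  have hP : 0 ≤ W * w ^ 2 := by positivity
  -- β y
  have h1 : y ^ 2 - 18 * B * ρ * w ≤ η ^ 2 := by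
    have := bm hy' hη
    have h2 := (abs_le.1 this).1
    nlinarith only [sq_nonneg (η - y), h2]
  have h2 : δ * |η| ≤ 4 * ρ * w := by
    have : δ ≤ w := by nlinarith only [hδw, hw, hw1]
    calc δ * |η| ≤ w * (4 * ρ) := by gcongr
      _ = _ := by ring
  have h3 : W * (y ^ 2 - 40 * B * ρ * w) ≤ β * y := by
    have h4 := (abs_le.1 (bm hβ hη)).2
    have h5 : W * (y ^ 2 - 18 * B * ρ * w - 4 * ρ * w) ≤ W * (η ^ 2 - δ * |η|) :=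
      mul_le_mul_of_nonneg_left (by linarith only [h1, h2]) hW
    have h6 : 0 ≤ W * (ρ * w) := by positivity
    have h7 : W * (ρ * w) * 100 ≤ W * (ρ * w) * B := by gcongr
    linarith only [h4, h5, h6, h7, hηβ]
  have h4 : W * (r * y ^ 2 - 40 * B * ρ) ≤ r * (β * y) := by
    have h5 : r * (W * (y ^ 2 - 40 * B * ρ * w)) ≤ r * (β * y) := by gcongr
    have h6 : W * (40 * B * ρ) * (w * r) ≤ W * (40 * B * ρ) * 1 := by gcongr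
    linarith only [h5, h6]
  set u := r * y ^ 2 with hu
  have hu0 : 0 ≤ u := by positivity
  -- first term
  have hK' : |K + 3 / 2| ≤ 2 * B := by rw [abs_of_nonneg (by linarith)]; linarith
  have t1 : 3 * (W * w ^ 2) * u - 0.001 * (W * w ^ 2) ≤ (K + 3 / 2) * β * ey := by
    have a1 := (abs_le.1 (bm (bm hK' hβ) hey)).1
    have a2 : (2 * K + 3) * w ^ 2 * (W * (u - 40 * B * ρ)) ≤ (2 * K + 3) * w ^ 2 * (r * (β * y)) := by
      gcongr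
    have a3 : 3 * (W * w ^ 2 * u) ≤ (2 * K + 3) * (W * w ^ 2 * u) := by
      gcongr; linarith
    have a4 : (2 * K + 3) * (40 * B * ρ) * (W * w ^ 2) ≤ (3 * B) * (40 * B * ρ) * (W * w ^ 2) := by
      gcongr; linarith
    have a5 : (B ^ 2 * ρ) * (W * w ^ 2) ≤ (1 / 1000000) * (W * w ^ 2) := by
      gcongr; linarith
    have a6 : (B * ρ * w) * (W * w ^ 2) ≤ (1 / 1000000 * 1) * (W * w ^ 2) := by
      gcongr
    linarith only [a1, a2, a3, a4, a5, a6, hP]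
  -- second term
  have t2 : W * w ^ 2 / 4 - 6 * W * x ^ 2 - W * w ^ 2 * u / 2 - 0.001 * (W * w ^ 2)
      ≤ -((W - A' / 2) * e / 2) := by
    have hμ : |W - A' / 2| ≤ W := by rw [abs_of_nonneg (by linarith)]; linarith
    have a1 := (abs_le.1 (bm hμ he)).2
    have a2 : 0 ≤ A' * x ^ 2 := by positivity
    have a3 : 0 ≤ A' * (w ^ 2 * u) := by positivity
    have a4 : A' * w ^ 2 ≤ W * w ^ 2 := by gcongr
    have a5 : w * (W * w ^ 2) ≤ (1 / 100000000) * (W * w ^ 2) := by gcongr; linarith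
    rw [hu] at *
    linarith only [a1, a2, a3, a4, a5, hP]
  have t3 : 6 * W * x ^ 2 - 0.001 * (W * w ^ 2) ≤ A * ex / 4 := by
    have a1 := (abs_le.1 (bm hA hex)).1
    have a2 : W * (δ * |x|) ≤ W * (w ^ 2 * (3 * w)) := by gcongr
    have a5 : w * (W * w ^ 2) ≤ (1 / 100000000) * (W * w ^ 2) := by gcongr; linarith
    have a6 : w * w * (W * w ^ 2) ≤ (1 / 100000000) * 1 * (W * w ^ 2) := by gcongr; linarith
    linarith only [a1, a2, a5, a6, hP, hxA]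
  have t4 : 0 ≤ W * w ^ 2 * u := by positivity
  linarith only [t1, t2, t3, t4, hP]

theorem pos_form (B ρ w δ K x y v vy Xv s sy Γ Γy XΓ e ex ey h Xh hy c11 c12 c22 ct
    η ηy Xη W A A' β βx V S : ℝ)
    (hB : 100 ≤ B) (hρ : 0 < ρ) (hρB : ρ * B ^ 10 ≤ 1) (hw : 0 < w) (hwρ : w ≤ ρ ^ 2)
    (hδ : 0 ≤ δ) (hδw : δ ≤ w ^ 2) (hK : 0 ≤ K) (hKB : K ≤ B)
    (hx : |x| ≤ 3 * w) (hy' : |y| ≤ 3 * ρ)
    (hv : |v| ≤ B) (hvy : |vy| ≤ B) (hXv : |Xv| ≤ B) (hs : |s| ≤ B) (hsy : |sy| ≤ B)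
    (hΓ : |Γ| ≤ B) (hΓy : |Γy| ≤ B) (hXΓ : |XΓ| ≤ B) (hh : |h| ≤ B) (hXh : |Xh| ≤ B)
    (hhy : |hy| ≤ B) (hc11 : |c11| ≤ B) (hc12 : |c12| ≤ B) (hc22 : |c22| ≤ B) (hct : |ct| ≤ B)
    (hv0 : B⁻¹ ≤ v) (hΓ1 : 1 ≤ Γ)
    (he : |e - (12 * x ^ 2 + w ^ 2 * ((ρ ^ 2)⁻¹ * y ^ 2 - 1))| ≤ w ^ 3)
    (hex : |ex - 24 * x| ≤ w ^ 3) (hey : |ey - w ^ 2 * ((ρ ^ 2)⁻¹ * (2 * y))| ≤ w ^ 3)
    (hη : |η - y| ≤ B * |x|) (hηy : |ηy - 1| ≤ B * |x|) (hXη : |Xη| ≤ B * x ^ 2)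
    (hW : 0 ≤ W) (hA'0 : 0 ≤ A') (hA' : A' ≤ W) (hA : |A| ≤ W * |x|)
    (hxA : W * (x ^ 2 - δ * |x|) ≤ x * A) (hβx : |βx| ≤ w / (10 * B) * W)
    (hβ : |β| ≤ W * (|η| + δ)) (hηβ : W * (η ^ 2 - δ * |η|) ≤ η * β)
    (E Ey XE c21 a Xa ay qSS qVV qVS : ℝ)
    (dE : E = Γ * e) (dEy : Ey = Γy * e + Γ * ey) (dXE : XE = XΓ * e + Γ * (ex - s * ey))
    (dc21 : c21 = (K + 2) * v * Ey + E * ct)
    (da : a = v * A / 2) (dXa : Xa = v * A' / 2 + Xv * A / 2) (day : ay = vy * A / 2)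
    (dSS : qSS = (W * ηy * v + β * vy - β * v * x * hy) / 2 + β * c12
      - (Xa + a * (-h - x * Xh) - a * sy) / 2 - a * c22)
    (dVV : qVV = β * c21 - (W * ηy * v * E + β * (vy * E + v * Ey) - β * v * E * x * hy) / 2
      + (Xa * E + a * XE + a * E * (-h - x * Xh) - a * E * sy) / 2 + a * E * c11)
    (dVS : qVS = (βx + W * Xη) - β * x * Xh + (ay * v * E + a * vy * E + a * v * Ey)
      - a * v * E * x * hy - a * c21 + a * E * c12) :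
    w ^ 2 / (10 * B) * W * (V ^ 2 + S ^ 2) ≤ qSS * S ^ 2 + qVV * V ^ 2 + qVS * (V * S) := by
  have hB1 : 1 ≤ B := by linarith
  have hB0 : 0 < B := by linarith
  have hB5 : B ^ 5 * ρ ≤ 1 / 10000000000 := by
    have h1 : (100 : ℝ) ^ 5 ≤ B ^ 5 := by gcongr
    have h2 : 100 ^ 5 * (B ^ 5 * ρ) ≤ B ^ 5 * (B ^ 5 * ρ) := by gcongr
    linarith only [h2, hρB]
  have hBk : ∀ k ≤ 5, B ^ k * ρ ≤ 1 / 10000000000 := fun k hk =>
    le_trans (by gcongr) hB5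
  have hρ1 : ρ ≤ 1 / 10000000000 := by simpa using hBk 0 (by norm_num)
  have hBρ : B * ρ ≤ 1 / 10000000000 := by simpa using hBk 1 (by norm_num)
  have hwρ' : w ≤ ρ := by nlinarith only [hwρ, hρ, hρ1]
  have hw1 : w ≤ 1 := by linarith only [hwρ', hρ1]
  have hx1 : |x| ≤ 1 := by linarith only [hwρ', hρ1, hx]
  have hη3 : |η - y| ≤ 3 * B * w := hη.trans (by nlinarith only [hx, hB0])
  have hη4 : |η| ≤ 4 * ρ := by
    have h1 : |η| ≤ |η - y| + |y| := by simpa using abs_add_le (η - y) y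
    have h2 : B * w ≤ B * ρ ^ 2 := by gcongr
    have h3 : B * ρ * ρ ≤ 1 / 10000000000 * ρ := by gcongr
    linarith only [h1, h2, h3, hη3, hy', hρ]
  have hβ5 : |β| ≤ 5 * ρ * W := by
    have h1 : δ ≤ ρ := by nlinarith only [hδw, hw, hw1, hwρ']
    calc |β| ≤ W * (|η| + δ) := hβ
      _ ≤ W * (4 * ρ + ρ) := by gcongr
      _ = _ := by ring
  have hA3 : |A| ≤ 3 * w * W := by
    calc |A| ≤ W * |x| := hA
      _ ≤ W * (3 * w) := by gcongr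
      _ = _ := by ring
  have hA3' : |A| ≤ 3 * ρ * W := hA3.trans (by gcongr)
  have hηy' : |ηy - 1| ≤ 3 * B * ρ := by
    calc |ηy - 1| ≤ B * |x| := hηy
      _ ≤ B * (3 * ρ) := by gcongr; linarith
      _ = _ := by ring
  have hx2 : x ^ 2 ≤ 9 * w ^ 2 := by
    have := sq_le_sq' (abs_le.1 hx).1 (abs_le.1 hx).2
    linarith
  have hy2 : y ^ 2 ≤ 9 * ρ ^ 2 := by
    have := sq_le_sq' (abs_le.1 hy').1 (abs_le.1 hy').2
    linarith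
  have hr0 : 0 < (ρ ^ 2)⁻¹ := by positivity
  have hrρ : (ρ ^ 2)⁻¹ * ρ ^ 2 = 1 := inv_mul_cancel₀ (by positivity)
  have hw3 : w ^ 3 ≤ w ^ 2 := pow_le_pow_of_le_one hw.le hw1 (by norm_num)
  have he' : |e| ≤ 120 * w ^ 2 := by
    have h1 : (ρ ^ 2)⁻¹ * y ^ 2 ≤ (ρ ^ 2)⁻¹ * (9 * ρ ^ 2) := by gcongr
    have h2 : 0 ≤ (ρ ^ 2)⁻¹ * y ^ 2 := by positivity
    have h3 : w ^ 2 * ((ρ ^ 2)⁻¹ * y ^ 2 - 1) ≤ w ^ 2 * 8 := by gcongr; linarith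
    have h4 : w ^ 2 * (-1) ≤ w ^ 2 * ((ρ ^ 2)⁻¹ * y ^ 2 - 1) := by gcongr; linarith
    obtain ⟨h5, h6⟩ := abs_le.1 he
    have h7 := sq_nonneg x
    have h8 := sq_nonneg w
    rw [abs_le]; constructor <;> linarith
  have hey' : |ey| ≤ 7 * (w * ρ) := by
    have h1 : |w ^ 2 * ((ρ ^ 2)⁻¹ * (2 * y))| ≤ 6 * (w * ρ) := by
      rw [abs_mul, abs_mul, abs_mul, abs_of_pos hr0, abs_of_nonneg (sq_nonneg w), abs_two]
      calc w ^ 2 * ((ρ ^ 2)⁻¹ * (2 * |y|)) = w * w * ((ρ ^ 2)⁻¹ * (2 * |y|)) := by ring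
        _ ≤ w * ρ ^ 2 * ((ρ ^ 2)⁻¹ * (2 * (3 * ρ))) := by gcongr
        _ = 6 * (w * ρ) * ((ρ ^ 2)⁻¹ * ρ ^ 2) := by ring
        _ = _ := by rw [hrρ, mul_one]
    have h2 : w ^ 3 ≤ w * ρ := by
      calc w ^ 3 ≤ w ^ 2 := hw3
        _ = w * w := by ring
        _ ≤ w * ρ := by gcongr
    have h3 : |ey| ≤ |ey - w ^ 2 * ((ρ ^ 2)⁻¹ * (2 * y))| + |w ^ 2 * ((ρ ^ 2)⁻¹ * (2 * y))| := by
      have := abs_add_le (ey - w ^ 2 * ((ρ ^ 2)⁻¹ * (2 * y))) (w ^ 2 * ((ρ ^ 2)⁻¹ * (2 * y)))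
      rwa [sub_add_cancel] at this
    linarith
  have hBv : 1 ≤ B * v := by
    have : B * B⁻¹ ≤ B * v := by gcongr
    rwa [mul_inv_cancel₀ hB0.ne'] at this
  have hv1 : 0 < v := lt_of_lt_of_le (inv_pos.2 hB0) hv0
  -- the three coefficients
  have eSS := pos_SS B ρ x v vy Xv sy h Xh hy c12 c22 ηy W A A' β hB hρ hx1 hv hvy hXv hsy hh hXh
    hhy hc12 hc22 hηy' hW hA3' hβ5
  have hSS : v * W / 5 ≤ qSS := by
    rw [dSS, dXa, da]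
    have h1 := (abs_le.1 eSS).1
    have h2 : 20 * B ^ 2 * (ρ * W) * 1 ≤ 20 * B ^ 2 * (ρ * W) * (B * v) := by gcongr
    have h3 : B ^ 3 * ρ * (v * W) ≤ 1 / 10000000000 * (v * W) := by
      gcongr; exact hBk 3 (by norm_num)
    have h4 : v * A' ≤ v * W := by gcongr
    have h5 : 0 ≤ v * W := by positivity
    linarith only [h1, h2, h3, h4, h5]
  have eVV := pos_VV_err B ρ w K x v vy Xv s sy Γ Γy XΓ e ex ey h Xh hy c11 ct ηy W A A' β hB hρ hK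
    hKB hx1 hv hvy hXv hs hsy hΓ hΓy hXΓ hh hXh hhy hc11 hct hηy' hW he'
    ((bm hβ5 he').trans (le_of_eq (by ring))) ((bm hA3' he').trans (le_of_eq (by ring)))
    ((bm hA3 hey').trans (le_of_eq (by ring))) E Ey XE c21 a Xa qVV dE dEy dXE dc21 da dXa dVV
  have hM := pos_main B ρ w δ K x y e ex ey η W A A' β hB hρ
    (by have := hBk 2 (by norm_num); linarith) hw hwρ hδ hδw hK hKB hx hy' he hex hey hη3 hη4 hW
    hA'0 hA' hA3 hxA hβ5 hηβ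
  have hVV : v * W * w ^ 2 / 5 ≤ qVV := by
    have h1 := (abs_le.1 eVV).1
    set M := (K + 3 / 2) * β * ey - (W - A' / 2) * e / 2 + A * ex / 4
    have h5 : 0 ≤ W * w ^ 2 := by positivity
    have h6 : v * 1 * (0.24 * (W * w ^ 2)) ≤ v * Γ * M := by gcongr
    have h2 : 4000 * B ^ 3 * (ρ * W * w ^ 2) * 1 ≤ 4000 * B ^ 3 * (ρ * W * w ^ 2) * (B * v) := by
      gcongr
    have h3 : B ^ 4 * ρ * (v * (W * w ^ 2)) ≤ 1 / 10000000000 * (v * (W * w ^ 2)) := by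
      gcongr; exact hBk 4 (by norm_num)
    have h7 : 0 ≤ v * (W * w ^ 2) := by positivity
    linarith only [h1, h2, h3, h6, h7]
  have eVS := pos_VS_err B ρ w K x v vy Xh hy c12 ct Γ Γy e ey Xη W A β βx hB hρ hw hK hKB hx1 hx
    hv hvy hΓ hΓy hXh hhy hc12 hct
    (by
      calc |Xη| ≤ B * x ^ 2 := hXη
        _ ≤ B * (9 * w ^ 2) := by gcongr
        _ = 9 * B * (w * w) := by ring
        _ ≤ 9 * B * (w * ρ) := by gcongr)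
    hW (he'.trans (by nlinarith only [hw, hwρ', hρ1, hρ]))
    (hey'.trans (by nlinarith only [hw, hwρ', hρ1, hρ])) hA3 hβ5 E Ey c21 a ay qVS dE dEy
    dc21 da day dVS
  have hVS : |qVS| ≤ v * W * w / 5 := by
    have h1 : |qVS| ≤ |qVS - βx| + |βx| := by simpa using abs_add_le (qVS - βx) βx
    have h2 : 50 * B ^ 4 * (ρ * W * w) * 1 ≤ 50 * B ^ 4 * (ρ * W * w) * (B * v) := by gcongr
    have h3 : B ^ 5 * ρ * (v * (W * w)) ≤ 1 / 10000000000 * (v * (W * w)) := by gcongr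
    have h4 : w / (10 * B) * W ≤ v * W * w / 10 := by
      calc w / (10 * B) * W = B⁻¹ * W * w / 10 := by field_simp
        _ ≤ _ := by gcongr
    have h7 : 0 ≤ v * (W * w) := by positivity
    linarith only [h1, h2, h3, h4, h7, eVS, hβx]
  have f1 : v * W / 5 * S ^ 2 ≤ qSS * S ^ 2 := by gcongr
  have f2 : v * W * w ^ 2 / 5 * V ^ 2 ≤ qVV * V ^ 2 := by gcongr
  have f3 : -(v * W * w / 5 * (|V| * |S|)) ≤ qVS * (V * S) :=
    (abs_le.1 (bm hVS (le_of_eq (abs_mul V S)))).1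
  have f4 : 2 * (w * |V| * |S|) ≤ w ^ 2 * V ^ 2 + S ^ 2 := by
    have := sq_nonneg (w * |V| - |S|)
    rw [← sq_abs V, ← sq_abs S]
    linarith only [this]
  have f5 : v * W / 10 * (2 * (w * |V| * |S|)) ≤ v * W / 10 * (w ^ 2 * V ^ 2 + S ^ 2) := by gcongr
  have f6 : w ^ 2 / (10 * B) * W * (V ^ 2 + S ^ 2) ≤ v * W / 10 * (w ^ 2 * V ^ 2 + S ^ 2) := by
    have hw2 : w ^ 2 ≤ 1 := pow_le_one₀ hw.le hw1
    calc w ^ 2 / (10 * B) * W * (V ^ 2 + S ^ 2)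
        = B⁻¹ * W / 10 * (w ^ 2 * V ^ 2 + w ^ 2 * S ^ 2) := by field_simp
      _ ≤ v * W / 10 * (w ^ 2 * V ^ 2 + 1 * S ^ 2) := by gcongr
      _ = _ := by ring
  linarith only [f1, f2, f3, f5, f6]

end Crest.Agent.R220
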