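import Mathlib

/-!
The ring `Sm` of smooth real functions on the plane, with its partial derivatives as derivations.
-/

set_option autoImplicit false
open scoped ContDiff Topology
open MeasureTheory Set Filter

namespace Crest.Agent.R220

/-- Smooth functions as a subalgebra of all functions. -/
def smAlg : Subalgebra ℝ (ℝ × ℝ → ℝ) where
  carrier := {f | ContDiff ℝ ∞ f}
  mul_mem' := fun {a b} ha hb => by
    simp only [Set.mem_ofPred_eq] at *; exact ContDiff.mul ha hb
  add_mem' := fun {a b} ha hb => by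
    simp only [Set.mem_ofPred_eq] at *; exact ContDiff.add ha hb
  algebraMap_mem' := fun r => by
    simp only [Set.mem_ofPred_eq]; exact contDiff_const (c := r)

/-- Smooth real functions on the plane. -/
def Sm : Type := smAlg

namespace Sm

noncomputable instance : CommRing Sm := inferInstanceAs (CommRing smAlg)
noncomputable instance : Algebra ℝ Sm := inferInstanceAs (Algebra ℝ smAlg)

instance : FunLike Sm (ℝ × ℝ) ℝ where
  coe f := f.1
  coe_injective _ _ h := Subtype.ext h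

/-- Bundle a smooth function. -/
def mk (f : ℝ × ℝ → ℝ) (hf : ContDiff ℝ ∞ f) : Sm := ⟨f, hf⟩

@[simp] theorem mk_apply (f : ℝ × ℝ → ℝ) (hf : ContDiff ℝ ∞ f) (z : ℝ × ℝ) : mk f hf z = f z := rfl
theorem coe_mk (f : ℝ × ℝ → ℝ) (hf : ContDiff ℝ ∞ f) : ⇑(mk f hf) = f := rfl

theorem smooth (f : Sm) : ContDiff ℝ ∞ (f : ℝ × ℝ → ℝ) := f.2

@[ext] theorem ext {f g : Sm} (h : ∀ z, f z = g z) : f = g := DFunLike.ext f g h

@[fun_prop] theorem continuous (f : Sm) : Continuous (f : ℝ × ℝ → ℝ) := f.smooth.continuous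
@[fun_prop] theorem differentiable (f : Sm) : Differentiable ℝ (f : ℝ × ℝ → ℝ) :=
  f.smooth.differentiable (by simp)

/-- Constants. -/
noncomputable abbrev C : ℝ →+* Sm := algebraMap ℝ Sm

@[simp] theorem add_apply (f g : Sm) (z : ℝ × ℝ) : (f + g) z = f z + g z := rfl
@[simp] theorem mul_apply (f g : Sm) (z : ℝ × ℝ) : (f * g) z = f z * g z := rfl
@[simp] theorem sub_apply (f g : Sm) (z : ℝ × ℝ) : (f - g) z = f z - g z := rfl
@[simp] theorem neg_apply (f : Sm) (z : ℝ × ℝ) : (-f) z = -f z := rfl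
@[simp] theorem zero_apply (z : ℝ × ℝ) : (0 : Sm) z = 0 := rfl
@[simp] theorem one_apply (z : ℝ × ℝ) : (1 : Sm) z = 1 := rfl
@[simp] theorem pow_apply (f : Sm) (n : ℕ) (z : ℝ × ℝ) : (f ^ n) z = f z ^ n := rfl
@[simp] theorem smul_apply (r : ℝ) (f : Sm) (z : ℝ × ℝ) : (r • f) z = r * f z := rfl
@[simp] theorem C_apply (r : ℝ) (z : ℝ × ℝ) : (C r) z = r := rfl
@[simp] theorem natCast_apply (n : ℕ) (z : ℝ × ℝ) : (n : Sm) z = n := by
  induction n with
  | zero => simp
  | succ n ih => rw [Nat.cast_succ, add_apply, ih]; simp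
@[simp] theorem ofNat_apply (n : ℕ) [n.AtLeastTwo] (z : ℝ × ℝ) :
    (ofNat(n) : Sm) z = ofNat(n) := natCast_apply n z

theorem coe_add (f g : Sm) : ⇑(f + g) = ⇑f + ⇑g := rfl
theorem coe_mul (f g : Sm) : ⇑(f * g) = ⇑f * ⇑g := rfl

/-- Evaluation at a point. -/
noncomputable def ev (z : ℝ × ℝ) : Sm →ₐ[ℝ] ℝ where
  toFun f := f z
  map_one' := rfl
  map_mul' _ _ := rfl
  map_zero' := rfl
  map_add' _ _ := rfl
  commutes' _ := rfl

@[simp] theorem ev_apply (z : ℝ × ℝ) (f : Sm) : ev z f = f z := rfl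

@[simp] theorem sum_apply {ι : Type*} (s : Finset ι) (f : ι → Sm) (z : ℝ × ℝ) :
    (∑ i ∈ s, f i) z = ∑ i ∈ s, f i z := map_sum (ev z) f s

/-- Directional derivative. -/
noncomputable def D (u : ℝ × ℝ) : Derivation ℝ Sm Sm :=
  Derivation.mk'
    { toFun := fun f => mk (fun z => fderiv ℝ f z u)
        ((f.smooth.fderiv_right (m := ∞) (by simp)).clm_apply contDiff_const)
      map_add' := fun f g => by
        ext z
        simp only [mk_apply, add_apply, coe_add]
        rw [fderiv_add (f.differentiable z) (g.differentiable z)]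
        rfl
      map_smul' := fun r f => by
        ext z
        simp only [mk_apply, RingHom.id_apply, smul_apply]
        have : (⇑(r • f) : ℝ × ℝ → ℝ) = r • ⇑f := rfl
        rw [this, fderiv_const_smul (f.differentiable z)]
        rfl }
    (fun f g => by
      ext z
      simp only [LinearMap.coe_mk, AddHom.coe_mk, mk_apply, smul_eq_mul, add_apply, mul_apply,
        coe_mul]
      rw [fderiv_mul (f.differentiable z) (g.differentiable z)]
      simp)

theorem D_apply (u : ℝ × ℝ) (f : Sm) (z : ℝ × ℝ) : D u f z = fderiv ℝ f z u := rfl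

theorem D_comm (u u' : ℝ × ℝ) (f : Sm) : D u (D u' f) = D u' (D u f) := by
  ext z
  have h2 : ContDiff ℝ ∞ (fderiv ℝ (f : ℝ × ℝ → ℝ)) := f.smooth.fderiv_right (m := ∞) (by simp)
  have hd : DifferentiableAt ℝ (fderiv ℝ (f : ℝ × ℝ → ℝ)) z := h2.differentiable (by simp) z
  have key : ∀ a b : ℝ × ℝ, D a (D b f) z = fderiv ℝ (fderiv ℝ (f : ℝ × ℝ → ℝ)) z a b := by
    intro a b
    rw [D_apply]
    have : (⇑(D b f) : ℝ × ℝ → ℝ) = fun z => fderiv ℝ f z b := rfl
    rw [this, fderiv_clm_apply hd (differentiableAt_const _)]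
    simp
  rw [key, key]
  exact (f.smooth.contDiffAt.isSymmSndFDerivAt (by
    rw [minSmoothness_of_isRCLikeNormedField]; exact ENat.LEInfty.out)).eq u u'

/-- Partial derivative in the first variable. -/
noncomputable def dx : Derivation ℝ Sm Sm := D (1, 0)
/-- Partial derivative in the second variable. -/
noncomputable def dy : Derivation ℝ Sm Sm := D (0, 1)

theorem dx_apply (f : Sm) (z : ℝ × ℝ) : dx f z = fderiv ℝ f z (1, 0) := rfl
theorem dy_apply (f : Sm) (z : ℝ × ℝ) : dy f z = fderiv ℝ f z (0, 1) := rfl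

/-- Normal form: `dx` outside, `dy` inside. -/
theorem dy_dx (f : Sm) : dy (dx f) = dx (dy f) := D_comm _ _ f

theorem iter_dy_dx (j : ℕ) (f : Sm) : dy^[j] (dx f) = dx (dy^[j] f) := by
  induction j with
  | zero => rfl
  | succ j ih => rw [Function.iterate_succ_apply', Function.iterate_succ_apply', ih, dy_dx]

theorem fderiv_apply (f : Sm) (z u : ℝ × ℝ) :
    fderiv ℝ f z u = u.1 * dx f z + u.2 * dy f z := by
  have : u = u.1 • ((1 : ℝ), (0 : ℝ)) + u.2 • ((0 : ℝ), (1 : ℝ)) := by ext <;> simp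
  conv_lhs => rw [this]
  rw [map_add, map_smul, map_smul, dx_apply, dy_apply]
  simp

theorem der_mul (d : Derivation ℝ Sm Sm) (f g : Sm) : d (f * g) = d f * g + f * d g := by
  rw [d.leibniz]; simp only [smul_eq_mul]; ring

theorem der_pow (d : Derivation ℝ Sm Sm) (f : Sm) (n : ℕ) :
    d (f ^ n) = (n : Sm) * f ^ (n - 1) * d f := by
  rw [d.leibniz_pow]; simp only [smul_eq_mul, nsmul_eq_mul]; ring

theorem der_C (d : Derivation ℝ Sm Sm) (r : ℝ) : d (C r) = 0 := d.map_algebraMap r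

theorem der_ofNat (d : Derivation ℝ Sm Sm) (n : ℕ) [n.AtLeastTwo] : d (ofNat(n) : Sm) = 0 :=
  d.map_natCast n

theorem der_C_mul (d : Derivation ℝ Sm Sm) (r : ℝ) (f : Sm) :
    d (C r * f) = C r * d f := by
  rw [der_mul, der_C]; ring

theorem iter_add (d : Derivation ℝ Sm Sm) (j : ℕ) (f g : Sm) :
    d^[j] (f + g) = d^[j] f + d^[j] g := by
  induction j with
  | zero => rfl
  | succ j ih => simp only [Function.iterate_succ_apply', ih, map_add]

theorem iter_sub (d : Derivation ℝ Sm Sm) (j : ℕ) (f g : Sm) :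
    d^[j] (f - g) = d^[j] f - d^[j] g := by
  induction j with
  | zero => rfl
  | succ j ih => simp only [Function.iterate_succ_apply', ih, map_sub]

theorem iter_neg (d : Derivation ℝ Sm Sm) (j : ℕ) (f : Sm) :
    d^[j] (-f) = -d^[j] f := by
  induction j with
  | zero => rfl
  | succ j ih => simp only [Function.iterate_succ_apply', ih, map_neg]

theorem iter_C_mul (d : Derivation ℝ Sm Sm) (j : ℕ) (r : ℝ) (f : Sm) :
    d^[j] (C r * f) = C r * d^[j] f := by
  induction j with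
  | zero => rfl
  | succ j ih => simp only [Function.iterate_succ_apply', ih, der_C_mul]

/-- First coordinate. -/
def X : Sm := mk (fun z => z.1) contDiff_fst
/-- Second coordinate. -/
def Y : Sm := mk (fun z => z.2) contDiff_snd

@[simp] theorem X_apply (z : ℝ × ℝ) : X z = z.1 := rfl
@[simp] theorem Y_apply (z : ℝ × ℝ) : Y z = z.2 := rfl

theorem D_X (u : ℝ × ℝ) : D u X = C u.1 := by
  ext z; rw [D_apply]; change fderiv ℝ (fun z : ℝ × ℝ => z.1) z u = _; rw [fderiv_fst]; simp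
theorem D_Y (u : ℝ × ℝ) : D u Y = C u.2 := by
  ext z; rw [D_apply]; change fderiv ℝ (fun z : ℝ × ℝ => z.2) z u = _; rw [fderiv_snd]; simp

@[simp] theorem dx_X : dx X = 1 := by rw [dx, D_X]; simp
@[simp] theorem dy_X : dy X = 0 := by rw [dy, D_X]; simp
@[simp] theorem dx_Y : dx Y = 0 := by rw [dx, D_Y]; simp
@[simp] theorem dy_Y : dy Y = 1 := by rw [dy, D_Y]; simp

/-- Smooth functions of one variable. -/
structure S1 where
  toFun : ℝ → ℝ
  smooth : ContDiff ℝ ∞ toFun

instance : CoeFun S1 (fun _ => ℝ → ℝ) := ⟨S1.toFun⟩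

/-- The derivative of a smooth function of one variable. -/
noncomputable def S1.der (φ : S1) : S1 :=
  ⟨deriv φ.toFun, (contDiff_infty_iff_deriv.1 φ.smooth).2⟩

theorem S1.der_apply (φ : S1) (t : ℝ) : φ.der t = deriv φ.toFun t := rfl

theorem S1.hasDerivAt (φ : S1) (t : ℝ) : HasDerivAt φ.toFun (φ.der t) t :=
  (φ.smooth.differentiable (by simp) t).hasDerivAt

theorem S1.continuous (φ : S1) : Continuous φ.toFun := φ.smooth.continuous

/-- Composition with a smooth function of one variable. -/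
def comp (φ : S1) (f : Sm) : Sm := mk (fun z => φ (f z)) (φ.smooth.comp f.smooth)

@[simp] theorem comp_apply (φ : S1) (f : Sm) (z : ℝ × ℝ) : comp φ f z = φ (f z) := rfl

theorem D_comp (u : ℝ × ℝ) (φ : S1) (f : Sm) : D u (comp φ f) = comp φ.der f * D u f := by
  ext z
  rw [D_apply, mul_apply, comp_apply, D_apply]
  have h := ((φ.hasDerivAt (f z)).comp_hasFDerivAt z (f.differentiable z).hasFDerivAt).fderiv
  have : (⇑(comp φ f) : ℝ × ℝ → ℝ) = φ.toFun ∘ f := rfl
  rw [this, h]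
  simp

theorem dx_comp (φ : S1) (f : Sm) : dx (comp φ f) = comp φ.der f * dx f := D_comp _ _ _
theorem dy_comp (φ : S1) (f : Sm) : dy (comp φ f) = comp φ.der f * dy f := D_comp _ _ _

/-- Pull-back along `(x, y) ↦ (a x + b, c y + d)`. -/
noncomputable def pull (a b c d : ℝ) : Sm →ₐ[ℝ] Sm where
  toFun f := mk (fun z => f (a * z.1 + b, c * z.2 + d)) (f.smooth.comp (by fun_prop))
  map_one' := rfl
  map_mul' _ _ := rfl
  map_zero' := rfl
  map_add' _ _ := rfl
  commutes' _ := rfl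

@[simp] theorem pull_apply (a b c d : ℝ) (f : Sm) (z : ℝ × ℝ) :
    pull a b c d f z = f (a * z.1 + b, c * z.2 + d) := rfl

theorem D_pull (u : ℝ × ℝ) (a b c d : ℝ) (f : Sm) :
    D u (pull a b c d f) = pull a b c d (D (a * u.1, c * u.2) f) := by
  ext z
  rw [D_apply, pull_apply, D_apply]
  have hA : HasFDerivAt (fun z : ℝ × ℝ => (a * z.1 + b, c * z.2 + d))
      ((a • ContinuousLinearMap.fst ℝ ℝ ℝ).prod (c • ContinuousLinearMap.snd ℝ ℝ ℝ)) z := by
    apply HasFDerivAt.prodMk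
    · exact ((hasFDerivAt_fst.const_mul a).add_const b)
    · exact ((hasFDerivAt_snd.const_mul c).add_const d)
  have h := ((f.differentiable _).hasFDerivAt.comp z hA).fderiv
  have : (⇑(pull a b c d f) : ℝ × ℝ → ℝ) = f ∘ fun z : ℝ × ℝ => (a * z.1 + b, c * z.2 + d) := rfl
  rw [this, h]
  simp

theorem dx_pull (a b c d : ℝ) (f : Sm) :
    dx (pull a b c d f) = C a * pull a b c d (dx f) := by
  rw [dx, D_pull]; ext z
  simp only [pull_apply, D_apply, fderiv_apply, mul_apply, C_apply]; simp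

theorem dy_pull (a b c d : ℝ) (f : Sm) :
    dy (pull a b c d f) = C c * pull a b c d (dy f) := by
  rw [dy, D_pull]; ext z
  simp only [pull_apply, D_apply, fderiv_apply, mul_apply, C_apply]; simp

/-! ### Locality -/

theorem D_congr {f g : Sm} {z : ℝ × ℝ} (h : (f : ℝ × ℝ → ℝ) =ᶠ[𝓝 z] g) (u : ℝ × ℝ) :
    D u f z = D u g z := by
  rw [D_apply, D_apply, h.fderiv_eq]

theorem D_eqOn {U : Set (ℝ × ℝ)} (hU : IsOpen U) {f g : Sm} (h : ∀ z ∈ U, f z = g z)
    (u : ℝ × ℝ) : ∀ z ∈ U, D u f z = D u g z := fun z hz =>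
  D_congr (by filter_upwards [hU.mem_nhds hz] with y hy using h y hy) u

theorem dx_eqOn {U : Set (ℝ × ℝ)} (hU : IsOpen U) {f g : Sm} (h : ∀ z ∈ U, f z = g z) :
    ∀ z ∈ U, dx f z = dx g z := D_eqOn hU h _
theorem dy_eqOn {U : Set (ℝ × ℝ)} (hU : IsOpen U) {f g : Sm} (h : ∀ z ∈ U, f z = g z) :
    ∀ z ∈ U, dy f z = dy g z := D_eqOn hU h _

theorem dx_zero_on {U : Set (ℝ × ℝ)} (hU : IsOpen U) {f : Sm} (h : ∀ z ∈ U, f z = 0) :
    ∀ z ∈ U, dx f z = 0 := fun z hz => by
  have := dx_eqOn hU (f := f) (g := 0) h z hz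
  simpa using this
theorem dy_zero_on {U : Set (ℝ × ℝ)} (hU : IsOpen U) {f : Sm} (h : ∀ z ∈ U, f z = 0) :
    ∀ z ∈ U, dy f z = 0 := fun z hz => by
  have := dy_eqOn hU (f := f) (g := 0) h z hz
  simpa using this

theorem iter_dy_zero_on {U : Set (ℝ × ℝ)} (hU : IsOpen U) {f : Sm} (h : ∀ z ∈ U, f z = 0)
    (j : ℕ) : ∀ z ∈ U, (dy^[j] f) z = 0 := by
  induction j with
  | zero => exact h
  | succ j ih => rw [Function.iterate_succ_apply']; exact dy_zero_on hU ih

theorem zero_on_closure {U : Set (ℝ × ℝ)} {f : Sm} (h : ∀ z ∈ U, f z = 0) :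
    ∀ z ∈ closure U, f z = 0 := fun _ hz =>
  closure_minimal (s := U) (t := {z | f z = 0}) h (isClosed_eq f.continuous continuous_const) hz

/-- A smooth function on an open set agrees near a compact subset with a global smooth function. -/
theorem exists_extend {U K : Set (ℝ × ℝ)} (hU : IsOpen U) (hK : IsCompact K) (hKU : K ⊆ U)
    {f : ℝ × ℝ → ℝ} (hf : ContDiffOn ℝ ∞ f U) : ∃ g : Sm, ∀ z ∈ K, g z = f z := by
  obtain ⟨χ, hχs, hχ0, hχ1⟩ : ∃ χ : ℝ × ℝ → ℝ, ContDiff ℝ ∞ χ ∧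
      (∀ᶠ z in 𝓝ˢ Uᶜ, χ z = 0) ∧ ∀ z ∈ K, χ z = 1 := by
    obtain ⟨χ, h0, h1, -⟩ := exists_contMDiffMap_zero_one_nhds_of_isClosed (n := ⊤)
      (modelWithCornersSelf ℝ (ℝ × ℝ)) hU.isClosed_compl hK.isClosed
      (Set.disjoint_left.2 fun z hz hzK => hz (hKU hzK))
    exact ⟨χ, χ.contMDiff.contDiff, h0, fun z hz => h1.self_of_nhdsSet z hz⟩
  refine ⟨mk (fun z => χ z * f z) ?_, fun z hz => by rw [mk_apply, hχ1 z hz, one_mul]⟩
  rw [contDiff_iff_contDiffAt]
  intro z
  by_cases hz : z ∈ U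
  · exact hχs.contDiffAt.mul (hf.contDiffAt (hU.mem_nhds hz))
  · have : (fun z => χ z * f z) =ᶠ[𝓝 z] fun _ => 0 := by
      filter_upwards [(eventually_nhdsSet_iff_forall.1 hχ0) z hz] with y hy
      simp [hy]
    exact contDiffAt_const.congr_of_eventuallyEq this

/-! ### Integration -/

theorem hasCompactSupport_D {f : Sm} (hf : HasCompactSupport (f : ℝ × ℝ → ℝ)) (u : ℝ × ℝ) :
    HasCompactSupport (D u f : ℝ × ℝ → ℝ) :=
  hf.fderiv_apply ℝ u

theorem integrable {f : Sm} (hf : HasCompactSupport (f : ℝ × ℝ → ℝ)) :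
    Integrable (f : ℝ × ℝ → ℝ) :=
  f.continuous.integrable_of_hasCompactSupport hf

theorem integral_D {f : Sm} (hf : HasCompactSupport (f : ℝ × ℝ → ℝ)) (u : ℝ × ℝ) :
    ∫ z, D u f z = 0 := by
  have h := integral_mul_fderiv_eq_neg_fderiv_mul_of_integrable (μ := volume)
    (f := fun _ : ℝ × ℝ => (1 : ℝ)) (g := f) (v := u) (by simp)
    (by simp only [one_mul]; exact integrable (hasCompactSupport_D hf u))
    (by simpa using integrable hf)
    (fun _ _ => differentiableAt_const _) (fun z _ => f.differentiable z)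
  simp only [D_apply]
  simpa using h

theorem integral_dx {f : Sm} (hf : HasCompactSupport (f : ℝ × ℝ → ℝ)) : ∫ z, dx f z = 0 :=
  integral_D hf _
theorem integral_dy {f : Sm} (hf : HasCompactSupport (f : ℝ × ℝ → ℝ)) : ∫ z, dy f z = 0 :=
  integral_D hf _

theorem hasCompactSupport_mul_left {f : Sm} (hf : HasCompactSupport (f : ℝ × ℝ → ℝ)) (g : Sm) :
    HasCompactSupport ((f * g : Sm) : ℝ × ℝ → ℝ) := hf.mul_right
theorem hasCompactSupport_mul_right {f : Sm} (hf : HasCompactSupport (f : ℝ × ℝ → ℝ)) (g : Sm) :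
    HasCompactSupport ((g * f : Sm) : ℝ × ℝ → ℝ) := hf.mul_left

theorem hasDerivAt_fst (f : Sm) (x y : ℝ) : HasDerivAt (fun t => f (t, y)) (dx f (x, y)) x := by
  have h1 : HasDerivAt (fun t : ℝ => (t, y)) ((1 : ℝ), (0 : ℝ)) x :=
    (hasDerivAt_id x).prodMk (hasDerivAt_const x y)
  exact (f.differentiable (x, y)).hasFDerivAt.comp_hasDerivAt x h1

theorem hasDerivAt_snd (f : Sm) (x y : ℝ) : HasDerivAt (fun t => f (x, t)) (dy f (x, y)) y := by
  have h1 : HasDerivAt (fun t : ℝ => (x, t)) ((0 : ℝ), (1 : ℝ)) y :=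
    (hasDerivAt_const y x).prodMk (hasDerivAt_id y)
  exact (f.differentiable (x, y)).hasFDerivAt.comp_hasDerivAt y h1

/-- One-dimensional bound by the integral of the derivative. -/
theorem abs_le_integral_deriv {g : ℝ → ℝ} (hg : ContDiff ℝ 1 g) (hc : HasCompactSupport g)
    (b : ℝ) : |g b| ≤ ∫ t, |deriv g t| := by
  rw [← hc.integral_Iic_deriv_eq hg b]
  have hi : Integrable (deriv g) :=
    (hg.continuous_deriv le_rfl).integrable_of_hasCompactSupport hc.deriv
  calc |∫ t in Iic b, deriv g t| ≤ ∫ t in Iic b, |deriv g t| := abs_integral_le_integral_abs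
    _ ≤ ∫ t, |deriv g t| := setIntegral_le_integral hi.abs (by filter_upwards with t; simp)

/-- The two-dimensional Sobolev bound `|u| ≤ ∫ |u_xy|`. -/
theorem abs_le_integral_dxdy {f : Sm} (hf : HasCompactSupport (f : ℝ × ℝ → ℝ)) (z : ℝ × ℝ) :
    |f z| ≤ ∫ p, |dx (dy f) p| := by
  obtain ⟨x, y⟩ := z
  have cs1 : ∀ (g : Sm), HasCompactSupport (g : ℝ × ℝ → ℝ) → ∀ y,
      HasCompactSupport fun t => g (t, y) := fun g hg y =>
    hg.comp_isClosedEmbedding (Isometry.isClosedEmbedding (Isometry.of_dist_eq fun a b => by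
      simp [Prod.dist_eq]))
  have cs2 : ∀ (g : Sm), HasCompactSupport (g : ℝ × ℝ → ℝ) → ∀ x,
      HasCompactSupport fun t => g (x, t) := fun g hg x =>
    hg.comp_isClosedEmbedding (Isometry.isClosedEmbedding (Isometry.of_dist_eq fun a b => by
      simp [Prod.dist_eq]))
  have h1 : |f (x, y)| ≤ ∫ t, |dx f (t, y)| := by
    have := abs_le_integral_deriv (g := fun t => f (t, y))
      ((f.smooth.of_le (by simp)).comp (by fun_prop)) (cs1 f hf y) x
    simpa only [(f.hasDerivAt_fst _ y).deriv] using this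
  have h2 : ∀ t, |dx f (t, y)| ≤ ∫ s, |dx (dy f) (t, s)| := by
    intro t
    have := abs_le_integral_deriv (g := fun s => dx f (t, s))
      (((dx f).smooth.of_le (by simp)).comp (by fun_prop)) (cs2 _ (hasCompactSupport_D hf _) t) y
    simpa only [((dx f).hasDerivAt_snd t _).deriv, dy_dx] using this
  have hi : Integrable (fun p => |dx (dy f) p|) :=
    (integrable (hasCompactSupport_D (hasCompactSupport_D hf _) _)).abs
  have h3 : ∫ p, |dx (dy f) p| = ∫ t, ∫ s, |dx (dy f) (t, s)| := integral_prod _ hi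
  rw [h3]
  refine h1.trans (integral_mono_of_nonneg (by filter_upwards with t; simp) ?_
    (by filter_upwards with t using h2 t))
  exact hi.integral_prod_left

/-- Mean value bound on a convex set. -/
theorem abs_sub_le_of_convex {U : Set (ℝ × ℝ)} (hU : Convex ℝ U) {f : Sm} {K : ℝ}
    (hx : ∀ z ∈ U, |dx f z| ≤ K) (hy : ∀ z ∈ U, |dy f z| ≤ K) {z z' : ℝ × ℝ} (hz : z ∈ U)
    (hz' : z' ∈ U) : |f z - f z'| ≤ 2 * K * ‖z - z'‖ := by
  have hK : 0 ≤ K := (abs_nonneg _).trans (hx z hz)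
  have := hU.norm_image_sub_le_of_norm_fderiv_le (𝕜 := ℝ) (f := f) (C := 2 * K)
    (fun p _ => f.differentiable p) (fun p hp => by
      refine ContinuousLinearMap.opNorm_le_bound _ (by positivity) fun u => ?_
      rw [fderiv_apply, Real.norm_eq_abs]
      have h1 : |u.1| ≤ ‖u‖ := norm_fst_le u
      have h2 : |u.2| ≤ ‖u‖ := norm_snd_le u
      calc |u.1 * dx f p + u.2 * dy f p| ≤ |u.1| * |dx f p| + |u.2| * |dy f p| := by
            rw [← abs_mul, ← abs_mul]; exact abs_add_le _ _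
        _ ≤ ‖u‖ * K + ‖u‖ * K := by gcongr; exacts [hx p hp, hy p hp]
        _ = 2 * K * ‖u‖ := by ring) hz' hz
  simpa [Real.norm_eq_abs] using this

end Sm

end Crest.Agent.R220
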