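import Crest.Agent.R220.Step

/-! First stage: unweighted bounds, uniform in the source scale, up to order about `N`. -/

set_option autoImplicit false
open scoped ContDiff Topology
open MeasureTheory Set Filter Asymptotics

namespace Crest.Agent.R220

open Sm

variable {B ρ w : ℝ} {N K : ℕ} {d : ℕ → Sys} {lam : ℕ → ℝ}

theorem Ctx.box_bounds (c : Ctx B ρ w N K d lam) (i : ℕ) (hl : 1 ≤ lam i) {z : ℝ × ℝ}
    (hz : z ∈ orect (3 * w) (3 * ρ)) :
    tau (lam i) z * |z.1| ≤ 1 ∧ tau (lam i) z * |(d i).eta z| ≤ 1 + B := by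
  have hB := c.hB
  have hl0 : 0 < lam i := by linarith
  by_cases hb : z ∈ crect (lam i)⁻¹ (lam i)⁻¹
  · rw [tau_of_mem hb]
    have h1 : lam i * |z.1| ≤ 1 := by
      calc lam i * |z.1| ≤ lam i * (lam i)⁻¹ := by gcongr; exact hb.1
        _ = 1 := mul_inv_cancel₀ hl0.ne'
    have h2 : lam i * |z.2| ≤ 1 := by
      calc lam i * |z.2| ≤ lam i * (lam i)⁻¹ := by gcongr; exact hb.2
        _ = 1 := mul_inv_cancel₀ hl0.ne'
    refine ⟨h1, ?_⟩
    have h3 := (c.la i).eta z hz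
    have h4 := abs_sub_abs_le_abs_sub ((d i).eta z) z.2
    have h5 : |(d i).eta z| ≤ |z.2| + B * |z.1| := by linarith
    calc lam i * |(d i).eta z| ≤ lam i * (|z.2| + B * |z.1|) := by gcongr
      _ = lam i * |z.2| + B * (lam i * |z.1|) := by ring
      _ ≤ 1 + B * 1 := by gcongr
      _ = 1 + B := by ring
  · rw [tau_of_not_mem hb, one_mul, one_mul]
    have := c.eta_le i hz
    have := c.w_le_ρ; have := c.ρ_le; have := hz.1
    constructor <;> linarith

theorem adm_plain (c : Ctx B ρ w N K d lam) :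
    Adm B ρ w d lam (fun _ => X) (fun i => (d i).eta) (fun _ => 1) (fun _ => 0) where
  dyA _ := dy_X
  dyβ _ := (one_mul _).symm
  dxβ _ := by simp
  pt := Eventually.of_forall fun i z _ => by
    have h1 : 0 ≤ w ^ 2 * |z.1| := by positivity
    have h2 : 0 ≤ w ^ 2 * |(d i).eta z| := by positivity
    have h3 : 0 ≤ w / (10 * B) := by have := c.hw; have := c.hB; positivity
    simp only [Sm.one_apply, dx_X, X_apply, Sm.zero_apply, abs_zero, one_mul, mul_one]
    refine ⟨zero_le_one, by norm_num, zero_le_one, le_rfl, le_rfl, by nlinarith, h3,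
      by nlinarith [sq_nonneg w], by nlinarith⟩
  far := Eventually.of_forall fun _ _ _ _ => le_rfl
  src := ⟨1 + B, by
    filter_upwards [c.hlam.eventually_ge_atTop 1] with i hi z hz
    have := c.box_bounds i hi hz
    have hB := c.hB
    simp only [X_apply, Sm.one_apply, mul_one]
    exact ⟨by linarith [this.1], this.2⟩⟩

theorem sobolev_gen (c : Ctx B ρ w N K d lam) {t t' : ℝ} (ht' : 2 ≤ t') (htt : t' < t)
    {k : ℕ} (hH : HS ρ w d (fun _ => 1) t k) {f : ℕ → Sm} {K0 : ℝ}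
    (hf : ∀ᶠ i in atTop, ∀ z ∈ crect (t * w) (t * ρ), f i z ^ 2 + dx (f i) z ^ 2 + dy (f i) z ^ 2
      + dx (dy (f i)) z ^ 2 ≤ K0 * (1 + (d i).N2 k z)) :
    (fun p : ℕ × (ℝ × ℝ) => f p.1 p.2) =O[Fl ρ w t'] fun _ => (1 : ℝ) := by
  obtain ⟨Θ, -, -, -, hΘ0, hΘ1, -⟩ := exists_cutoffs c.hρ c.hw ht' htt
  obtain ⟨M0, hM0⟩ := Cb.of_isCompact (isCompact_crect (t * w) (t * ρ)) 2 Θ
  obtain ⟨C1, hC1⟩ := hH
  refine IsBigO.of_bound (|M0| * (2 + |K0|) * C1) ?_
  rw [eventually_prod_principal_iff]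
  filter_upwards [hf, hC1] with i hf hC1 z hz
  have ho : IsOpen (crect (t * w) (t * ρ))ᶜ := (isClosed_crect _ _).isOpen_compl
  have hu : ∀ z, z ∉ crect (t * w) (t * ρ) → (Θ * f i) z = 0 := fun z hz => by simp [hΘ0 z hz]
  have h1 := abs_le_integral_dxdy (hasCompactSupport_of_crect hu) z
  rw [Sm.mul_apply, hΘ1 z hz, one_mul,
    ← setIntegral_eq_integral_of_forall_compl_eq_zero (s := crect (t * w) (t * ρ)) (fun z hz => by
      rw [dx_zero_on ho (dy_zero_on ho hu) z hz, abs_zero])] at h1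
  rw [norm_one, mul_one, Real.norm_eq_abs]
  refine h1.trans ?_
  have h2 := setIntegral_mono_on (integrableOn_crect (dx (dy (Θ * f i))) (t * w) (t * ρ)).abs
    ((integrableOn_crect ((1 : Sm) * (1 + (d i).N2 k)) (t * w) (t * ρ)).const_mul
      (|M0| * (2 + |K0|))) (measurableSet_crect _ _) (fun z hz => by
      have a0 := (hM0.abs_le z hz).trans (le_abs_self _)
      have a1 := (hM0.dx.abs_le z hz).trans (le_abs_self _)
      have a2 := (hM0.dy.abs_le z hz).trans (le_abs_self _)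
      have a3 := (hM0.dy.dx.abs_le z hz).trans (le_abs_self _)
      have hN := (d i).N2_nonneg k z
      have a4 := hf z hz
      have a5 : K0 * (1 + (d i).N2 k z) ≤ |K0| * (1 + (d i).N2 k z) := by
        gcongr; exact le_abs_self _
      have y : ∀ a : ℝ, |a| ≤ (1 + a ^ 2) / 2 := fun a => by
        rw [← sq_abs]; nlinarith [sq_nonneg (|a| - 1)]
      simp only [der_mul, map_add, Sm.add_apply, Sm.mul_apply, Sm.one_apply, one_mul]
      calc _ ≤ |dx (dy Θ) z| * |f i z| + |dy Θ z| * |dx (f i) z|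
            + (|dx Θ z| * |dy (f i) z| + |Θ z| * |dx (dy (f i)) z|) := by
            simp only [← abs_mul]
            exact (abs_add_le _ _).trans (add_le_add (abs_add_le _ _) (abs_add_le _ _))
        _ ≤ |M0| * ((1 + f i z ^ 2) / 2) + |M0| * ((1 + dx (f i) z ^ 2) / 2)
            + (|M0| * ((1 + dy (f i) z ^ 2) / 2) + |M0| * ((1 + dx (dy (f i)) z ^ 2) / 2)) := by
            gcongr <;> exact y _
        _ = |M0| * (2 + (f i z ^ 2 + dx (f i) z ^ 2 + dy (f i) z ^ 2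
            + dx (dy (f i)) z ^ 2) / 2) := by ring
        _ ≤ |M0| * ((2 + |K0|) * (1 + (d i).N2 k z)) := by
            gcongr
            nlinarith [mul_nonneg (abs_nonneg K0) (add_nonneg zero_le_one hN)]
        _ = _ := by ring)
  rw [integral_const_mul] at h2
  exact h2.trans (mul_le_mul_of_nonneg_left hC1 (by positivity))

theorem sobolev (c : Ctx B ρ w N K d lam) {n0 j : ℕ} (hn : n0 ≤ N) (hj : j + 2 ≤ 2 * n0 + 1)
    (hjN : j + 2 ≤ N) {t t' : ℝ} (ht' : 2 ≤ t') (htt : t' < t) (ht : t < 3)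
    (hKK : KK (Fl ρ w t) d n0) (hH : HS ρ w d (fun _ => 1) t (j + 3)) :
    (fun p : ℕ × (ℝ × ℝ) => (d p.1).V j p.2) =O[Fl ρ w t'] (fun _ => (1 : ℝ)) ∧
    (fun p : ℕ × (ℝ × ℝ) => (d p.1).S j p.2) =O[Fl ρ w t'] fun _ => (1 : ℝ) := by
  obtain ⟨K1, hK1, b1⟩ := Pol.sq_le c.hlam (c.Fl_le ht) hKK hn
    ((PS_dxV c.tame j).mono (M' := j + 2) (Wc' := N) (W' := j + 2) (by omega) (by omega) (by omega)) hj
  obtain ⟨K2, hK2, b2⟩ := Pol.sq_le c.hlam (c.Fl_le ht) hKK hn
    ((PS_dxV c.tame (j + 1)).mono (M' := j + 2) (Wc' := N) (W' := j + 2) le_rfl hjN le_rfl) hj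
  obtain ⟨K3, hK3, b3⟩ := Pol.sq_le c.hlam (c.Fl_le ht) hKK hn
    ((PS_dxS c.tame j).mono (M' := j + 2) (Wc' := N) (W' := j + 2) (by omega) (by omega) (by omega)) hj
  obtain ⟨K4, hK4, b4⟩ := Pol.sq_le c.hlam (c.Fl_le ht) hKK hn
    ((PS_dxS c.tame (j + 1)).mono (M' := j + 2) (Wc' := N) (W' := j + 2) le_rfl hjN le_rfl) hj
  rw [eventually_prod_principal_iff] at b1 b2 b3 b4
  simp only [Nat.sub_self, pow_zero, one_pow] at b1 b2 b3 b4
  constructor
  · refine sobolev_gen c ht' htt hH (f := fun i => (d i).V j) (K0 := 2 + 2 * K1 + 2 * K2) ?_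
    filter_upwards [b1, b2] with i b1 b2 z hz
    have hzU := c.sub ht hz
    have a1 := b1 z hz
    have a2 := b2 z hz
    have hN := (d i).N2_nonneg (j + 3) z
    have a3 := (d i).sq_le_N2 (j := j) (k := j + 3) (by omega) z
    have a4 := (d i).sq_le_N2 (j := j + 1) (k := j + 3) (by omega) z
    rw [← Sys.V_succ, Sys.dx_V, Sys.dx_V, Sm.add_apply, Sm.add_apply,
      iter_dy_zero_on (isOpen_orect _ _) (c.eq1 i) _ z hzU,
      iter_dy_zero_on (isOpen_orect _ _) (c.eq1 i) _ z hzU, add_zero, add_zero]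
    change _ ≤ K1 * (1 + (d i).N2 (j + 3) z + 1) at a1
    change _ ≤ K2 * (1 + (d i).N2 (j + 3) z + 1) at a2
    nlinarith [sq_nonneg ((d i).S j z), sq_nonneg ((d i).S (j + 1) z), mul_nonneg hK1.le hN,
      mul_nonneg hK2.le hN]
  · refine sobolev_gen c ht' htt hH (f := fun i => (d i).S j) (K0 := 2 + 2 * K3 + 2 * K4) ?_
    filter_upwards [b3, b4] with i b1 b2 z hz
    have hzU := c.sub ht hz
    have a1 := b1 z hz
    have a2 := b2 z hz
    have hN := (d i).N2_nonneg (j + 3) z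
    have a3 := (d i).sq_le_N2 (j := j) (k := j + 3) (by omega) z
    have a4 := (d i).sq_le_N2 (j := j + 1) (k := j + 3) (by omega) z
    rw [← Sys.S_succ, Sys.dx_S, Sys.dx_S, Sm.add_apply, Sm.add_apply,
      iter_dy_zero_on (isOpen_orect _ _) (c.eq2 i) _ z hzU,
      iter_dy_zero_on (isOpen_orect _ _) (c.eq2 i) _ z hzU, add_zero, add_zero]
    change _ ≤ K3 * (1 + (d i).N2 (j + 3) z + 1) at a1
    change _ ≤ K4 * (1 + (d i).N2 (j + 3) z + 1) at a2
    nlinarith [sq_nonneg ((d i).V j z), sq_nonneg ((d i).V (j + 1) z), mul_nonneg hK3.le hN,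
      mul_nonneg hK4.le hN]

theorem HS_of_KK {t : ℝ} {n0 : ℕ} (hKK : KK (Fl ρ w t) d n0) :
    HS ρ w d (fun _ => 1) t (n0 + 1) := by
  obtain ⟨K0, hK0⟩ := (N2_bdd hKK (le_refl (n0 + 1))).bound
  rw [eventually_prod_principal_iff] at hK0
  refine ⟨∫ z in crect (t * w) (t * ρ), (C (1 + K0) : Sm) z, ?_⟩
  filter_upwards [hK0] with i hi
  refine setIntegral_mono_on (integrableOn_crect _ _ _) (integrableOn_crect _ _ _)
    (measurableSet_crect _ _) fun z hz => ?_
  have := hi z hz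
  rw [norm_one, mul_one, Real.norm_eq_abs] at this
  simp only [Sm.add_apply, Sm.one_apply, C_apply, one_mul]
  linarith [le_abs_self ((d i).N2 (n0 + 1) z)]

theorem WT_plain (t : ℝ) : WT ρ w lam (fun _ => 1) t 0 :=
  ⟨∫ z in crect (t * w) (t * ρ), (1 : ℝ), Eventually.of_forall fun i => by simp⟩

theorem KK.mono {l : Filter (ℕ × (ℝ × ℝ))} {n0 n1 : ℕ} (h : KK l d n1) (hn : n0 ≤ n1) :
    KK l d n0 := fun j hj => h j (hj.trans hn)

theorem stage1 (c : Ctx B ρ w N K d lam) (hNK : N ≤ K)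
    (h5 : ∀ t, t < 3 → KK (Fl ρ w t) d 5) (k : ℕ) (hk : k + 6 ≤ N) :
    (∀ t, 2 ≤ t → t < 3 → HS ρ w d (fun _ => 1) t (k + 6)) ∧
      ∀ t, 2 ≤ t → t < 3 → KK (Fl ρ w t) d (k + 3) := by
  induction k with
  | zero => exact ⟨fun t _ ht => HS_of_KK (h5 t ht), fun t _ ht => (h5 t ht).mono (by norm_num)⟩
  | succ k ih =>
    obtain ⟨ih1, ih2⟩ := ih (by omega)
    have h1 : ∀ t, 2 ≤ t → t < 3 → HS ρ w d (fun _ => 1) t (k + 1 + 6) := by
      intro t' ht' ht3
      obtain ⟨t, htt, ht⟩ := exists_between ht3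
      have h2 : 2 ≤ t := ht'.trans htt.le
      exact step c (adm_plain c) (n0 := k + 3) (k := k + 3) (by omega) (by omega) (by omega) ht'
        htt ht (ih2 t h2 ht) (ih1 t h2 ht) (by rw [show k + 3 + 3 - N = 0 by omega]; exact WT_plain t)
    refine ⟨h1, fun t' ht' ht3 j hj => ?_⟩
    rcases Nat.lt_or_ge j (k + 4) with hj' | hj'
    · exact ih2 t' ht' ht3 j (by omega)
    · obtain rfl : j = k + 4 := by omega
      obtain ⟨t, htt, ht⟩ := exists_between ht3
      have h2 : 2 ≤ t := ht'.trans htt.le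
      exact sobolev c (n0 := k + 3) (by omega) (by omega) (by omega) ht' htt ht (ih2 t h2 ht)
        (h1 t h2 ht)

end Crest.Agent.R220
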