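import Crest.Agent.R220.Stage1
import Crest.Agent.R220.Mult

/-! Second stage: bounds with a weight that almost vanishes on the source box. -/

set_option autoImplicit false
open scoped ContDiff Topology
open MeasureTheory Set Filter Asymptotics

namespace Crest.Agent.R220

open Sm

variable {B ρ w : ℝ} {N K : ℕ} {d : ℕ → Sys} {lam : ℕ → ℝ}

theorem Ctx.ev_small (c : Ctx B ρ w N K d lam) (a : ℝ) {b : ℝ} (hb : 0 < b) :
    ∀ᶠ i in atTop, a * (lam i)⁻¹ ≤ b := by
  have h := (tendsto_inv_atTop_zero.comp c.hlam).const_mul a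
  rw [mul_zero] at h
  exact h.eventually (ge_mem_nhds hb)

theorem exists_adm (c : Ctx B ρ w N K d lam) : ∃ A β W βx : ℕ → Sm, Adm B ρ w d lam A β W βx ∧
    (∀ t, t < 3 → ∀ e ≤ 2, WT ρ w lam W t e) ∧
    (∀ᶠ i in atTop, ∀ z, (lam i)⁻¹ ^ 2 ≤ W i z) ∧
    ∃ Λ : ℝ, 1 ≤ Λ ∧ ∀ᶠ i in atTop, ∀ z ∈ orect (3 * w) (3 * ρ),
      z ∉ orect (Λ / lam i) (Λ / lam i) → 1 ≤ W i z := by
  obtain ⟨CD, hCD, hm⟩ := exists_mult
  have hB := c.hB
  have hw := c.hw
  have hρ := c.hρ
  obtain ⟨R, hR, hR2, hRb⟩ : ∃ R : ℝ, 0 < R ∧ 2 ≤ R ∧ CD * (3 * B) / R ≤ w / (10 * B) := by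
    refine ⟨30 * B ^ 2 * CD / w + 2, by positivity, le_add_of_nonneg_left (by positivity), ?_⟩
    rw [div_le_div_iff₀ (by positivity) (by positivity)]
    have : w * (30 * B ^ 2 * CD / w + 2) = 30 * B ^ 2 * CD + 2 * w := by field_simp
    nlinarith
  have hl' : ∀ i, 0 < (max (lam i) 1)⁻¹ := fun i => by positivity
  choose a b W0 bx h1 h2 h3 h4 using fun i => hm (3 * B * (max (lam i) 1)⁻¹)
    (R * (max (lam i) 1)⁻¹) (by have := hl' i; positivity) (by have := hl' i; positivity) (d i).eta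
  have hev : ∀ᶠ i in atTop, 1 ≤ lam i ∧ max (lam i) 1 = lam i := by
    filter_upwards [c.hlam.eventually_ge_atTop 1] with i hi using ⟨hi, max_eq_left hi⟩
  have hbox : ∀ᶠ i in atTop, ∀ z ∈ orect (3 * w) (3 * ρ), z ∈ crect (lam i)⁻¹ (lam i)⁻¹ →
      W0 i z = 0 := by
    filter_upwards [hev] with i ⟨hl, hmax⟩ z hz hb
    obtain ⟨-, -, -, -, -, -, -, -, -, p10, -⟩ := h4 i z
    rw [hmax] at p10
    have hl0 : 0 < (lam i)⁻¹ := by positivity
    refine p10 (hb.1.trans (by nlinarith)) ?_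
    have h3 := (c.la i).eta z hz
    have h4 := abs_sub_abs_le_abs_sub ((d i).eta z) z.2
    have h5 : B * |z.1| ≤ B * (lam i)⁻¹ := by gcongr; exact hb.1
    have h6 := hb.2
    nlinarith
  refine ⟨fun i => a i + C ((lam i)⁻¹ ^ 2) * X, fun i => b i + C ((lam i)⁻¹ ^ 2) * (d i).eta,
    fun i => W0 i + C ((lam i)⁻¹ ^ 2), bx, ⟨fun i => ?_, fun i => ?_, fun i => ?_, ?_, ?_, ?_⟩,
    ?_, ?_, ?_⟩
  · rw [map_add, h1, der_C_mul, dy_X]; ring
  · rw [map_add, h2, der_C_mul]; ring
  · rw [map_add, h3, der_C_mul]; ring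
  · filter_upwards [hev, c.ev_small (2 * R) (b := w ^ 2) (by positivity),
      c.ev_small (6 * B) (b := w ^ 2) (by positivity)] with i ⟨hl, hmax⟩ s1 s2 z _
    obtain ⟨p1, p2, p3, p4, p5, p6, p7, p8, p9, -, -⟩ := h4 i z
    rw [hmax] at p6 p7 p8 p9
    have hl0 : 0 < (lam i)⁻¹ := by positivity
    have hl1 : (lam i)⁻¹ ≤ 1 := inv_le_one_of_one_le₀ hl
    have hμ0 : 0 < (lam i)⁻¹ ^ 2 := by positivity
    have hμ1 : (lam i)⁻¹ ^ 2 ≤ 1 := pow_le_one₀ hl0.le hl1
    generalize (lam i)⁻¹ ^ 2 = μ at hμ0 hμ1 ⊢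
    simp only [map_add, der_C_mul, dx_X, Sm.add_apply, Sm.mul_apply, C_apply, X_apply, mul_one]
    refine ⟨by linarith, by linarith, by linarith, by linarith, ?_, ?_, ?_, ?_, ?_⟩
    · refine (abs_add_le _ _).trans ?_
      rw [abs_mul, abs_of_pos hμ0]; linarith
    · have e1 : W0 i z * (z.1 ^ 2 - w ^ 2 * |z.1|) ≤
          W0 i z * (z.1 ^ 2 - 2 * (R * (lam i)⁻¹) * |z.1|) := by gcongr; linarith
      have e2 : 0 ≤ μ * (w ^ 2 * |z.1|) := by positivity
      nlinarith
    · have e1 : CD * (3 * B * (lam i)⁻¹) / (R * (lam i)⁻¹) = CD * (3 * B) / R := by field_simp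
      rw [e1] at p7
      refine p7.trans ?_
      gcongr
      linarith
    · refine (abs_add_le _ _).trans ?_
      rw [abs_mul, abs_of_pos hμ0]
      have e1 : W0 i z * (|(d i).eta z| + 3 * B * (lam i)⁻¹) ≤ W0 i z * (|(d i).eta z| + w ^ 2) := by
        gcongr; nlinarith
      have e2 : 0 ≤ μ * w ^ 2 := by positivity
      nlinarith
    · have e1 : W0 i z * ((d i).eta z ^ 2 - w ^ 2 * |(d i).eta z|) ≤
          W0 i z * ((d i).eta z ^ 2 - 2 * (3 * B * (lam i)⁻¹) * |(d i).eta z|) := by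
        gcongr; linarith
      have e2 : 0 ≤ μ * (w ^ 2 * |(d i).eta z|) := by positivity
      nlinarith
  · filter_upwards [hev, c.ev_small R (b := w) hw, c.ev_small (6 * B) (b := ρ) hρ]
      with i ⟨hl, hmax⟩ s1 s2 z hz hz'
    obtain ⟨-, -, -, -, -, -, -, -, -, -, p11⟩ := h4 i z
    rw [hmax] at p11
    simp only [orect, mem_ofPred_eq, not_and_or, not_lt] at hz'
    have : W0 i z = 1 := by
      refine p11 (hz'.imp (fun h => by linarith) fun h => ?_)
      have h3 := (c.la i).eta z hz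
      have h4 := abs_sub_abs_le_abs_sub z.2 ((d i).eta z)
      rw [abs_sub_comm] at h4
      have h5 : B * |z.1| ≤ B * (3 * ρ ^ 2) := by gcongr; linarith [hz.1, c.hwρ]
      have h6 := c.ρB
      nlinarith
    simp only [Sm.add_apply, C_apply, this]
    nlinarith [sq_nonneg (lam i)⁻¹]
  · refine ⟨1 + B, ?_⟩
    filter_upwards [hev, hbox, c.ev_small (3 * B) (b := 1 / 2) (by norm_num)]
      with i ⟨hl, hmax⟩ hbox s1 z hz
    obtain ⟨p1, -, -, -, p5, -, -, p8, -, -, -⟩ := h4 i z
    rw [hmax] at p8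
    obtain ⟨q1, q2⟩ := c.box_bounds i hl hz
    have hμ0 : 0 < (lam i)⁻¹ ^ 2 := by positivity
    have hτ := one_le_tau hl z
    generalize (lam i)⁻¹ ^ 2 = μ at hμ0 ⊢
    simp only [Sm.add_apply, Sm.mul_apply, C_apply, X_apply]
    have r1 : tau (lam i) z * |a i z| ≤ W0 i z ∧ tau (lam i) z * |b i z| ≤ W0 i z := by
      by_cases hb : z ∈ crect (lam i)⁻¹ (lam i)⁻¹
      · rw [hbox z hz hb, zero_mul] at p5 p8
        rw [hbox z hz hb, le_antisymm p5 (abs_nonneg _), le_antisymm p8 (abs_nonneg _)]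
        simp
      · rw [tau_of_not_mem hb, one_mul] at q1
        rw [tau_of_not_mem hb, one_mul, one_mul]
        have := c.eta_le i hz
        constructor <;> nlinarith
    have hBW : 0 ≤ B * W0 i z := by positivity
    constructor
    · calc tau (lam i) z * |a i z + μ * z.1| ≤ tau (lam i) z * (|a i z| + μ * |z.1|) := by
            gcongr
            refine (abs_add_le _ _).trans ?_
            rw [abs_mul, abs_of_pos hμ0]
        _ = tau (lam i) z * |a i z| + μ * (tau (lam i) z * |z.1|) := by ring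
        _ ≤ W0 i z + μ * 1 := by gcongr; exact r1.1
        _ ≤ _ := by nlinarith
    · calc tau (lam i) z * |b i z + μ * (d i).eta z|
          ≤ tau (lam i) z * (|b i z| + μ * |(d i).eta z|) := by
            gcongr
            refine (abs_add_le _ _).trans ?_
            rw [abs_mul, abs_of_pos hμ0]
        _ = tau (lam i) z * |b i z| + μ * (tau (lam i) z * |(d i).eta z|) := by ring
        _ ≤ W0 i z + μ * (1 + B) := by gcongr; exact r1.2
        _ ≤ _ := by nlinarith
  · intro t ht e he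
    refine ⟨(∫ z in crect (t * w) (t * ρ), (2 : Sm) z) + 4, ?_⟩
    filter_upwards [hev, hbox] with i ⟨hl, _⟩ hbox
    have hl0 : 0 < lam i := by linarith
    have i1 : IntegrableOn ((crect (lam i)⁻¹ (lam i)⁻¹).indicator (C (lam i ^ 2) : Sm))
        (crect (t * w) (t * ρ)) := (integrableOn_crect _ _ _).indicator (measurableSet_crect _ _)
    have k1 := setIntegral_mono_on (integrableOn_mul_tau (W0 i + C ((lam i)⁻¹ ^ 2)) (lam i) e _ _)
      ((integrableOn_crect 2 (t * w) (t * ρ)).add i1) (measurableSet_crect _ _) (fun z hz => by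
        have hzU := c.sub ht hz
        simp only [Sm.add_apply, C_apply, Pi.add_apply, ofNat_apply]
        by_cases hb : z ∈ crect (lam i)⁻¹ (lam i)⁻¹
        · rw [hbox z hzU hb, tau_of_mem hb, indicator_of_mem hb, C_apply, zero_add]
          have : lam i ^ e ≤ lam i ^ 2 := pow_le_pow_right₀ hl he
          calc (lam i)⁻¹ ^ 2 * (lam i ^ e) ^ 2 ≤ (lam i)⁻¹ ^ 2 * (lam i ^ 2) ^ 2 := by gcongr
            _ = lam i ^ 2 := by field_simp
            _ ≤ _ := by linarith
        · rw [tau_of_not_mem hb, indicator_of_notMem hb]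
          have := (h4 i z).2.1
          have : (lam i)⁻¹ ^ 2 ≤ 1 := pow_le_one₀ (by positivity) (inv_le_one_of_one_le₀ hl)
          simp only [one_pow, mul_one]
          linarith)
    rw [integral_add' (integrableOn_crect 2 (t * w) (t * ρ)) i1] at k1
    refine k1.trans (add_le_add le_rfl ?_)
    have i2 : Integrable ((crect (lam i)⁻¹ (lam i)⁻¹).indicator (C (lam i ^ 2) : Sm)) :=
      (integrable_indicator_iff (measurableSet_crect _ _)).2 (integrableOn_crect _ _ _)
    refine (setIntegral_le_integral i2 (Eventually.of_forall fun z =>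
      indicator_nonneg (fun z _ => by simp only [C_apply]; positivity) z)).trans ?_
    rw [integral_indicator (measurableSet_crect _ _)]
    simp only [C_apply, setIntegral_const, smul_eq_mul, Measure.real]
    rw [volume_real_crect (by positivity) (by positivity)]
    exact le_of_eq (by field_simp)
  · refine Eventually.of_forall fun i z => ?_
    simp only [Sm.add_apply, C_apply]
    linarith [(h4 i z).1]
  · refine ⟨R + 6 * B + B * R, by nlinarith, ?_⟩
    filter_upwards [hev] with i ⟨hl, hmax⟩ z hz hz'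
    obtain ⟨-, -, -, -, -, -, -, -, -, -, p11⟩ := h4 i z
    rw [hmax] at p11
    have hl0 : 0 < (lam i)⁻¹ := by positivity
    simp only [orect, mem_ofPred_eq, not_and_or, not_lt, div_eq_mul_inv] at hz'
    have hBR : 0 ≤ (6 * B + B * R) * (lam i)⁻¹ := by positivity
    have : W0 i z = 1 := by
      refine p11 ?_
      by_cases hx : R * (lam i)⁻¹ ≤ |z.1|
      · exact Or.inl hx
      · right
        rw [not_le] at hx
        have h2 : (R + 6 * B + B * R) * (lam i)⁻¹ ≤ |z.2| := hz'.resolve_left (by linarith)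
        have h3 := (c.la i).eta z hz
        have h4 := abs_sub_abs_le_abs_sub z.2 ((d i).eta z)
        rw [abs_sub_comm] at h4
        have h5 : B * |z.1| ≤ B * (R * (lam i)⁻¹) := by gcongr
        have h6 : 0 ≤ R * (lam i)⁻¹ := by positivity
        linarith
    simp only [Sm.add_apply, C_apply, this]
    nlinarith [sq_nonneg (lam i)⁻¹]

theorem stage2 (c : Ctx B ρ w N K d lam) (hN : 8 ≤ N) (hNK : N + 2 ≤ K)
    (h5 : ∀ t, t < 3 → KK (Fl ρ w t) d 5) {A β W βx : ℕ → Sm} (ad : Adm B ρ w d lam A β W βx)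
    (hT : ∀ t, t < 3 → ∀ e ≤ 2, WT ρ w lam W t e) :
    HS ρ w d W 2 (N + 3) ∧ KK (Fl ρ w 2) d (N - 3) := by
  obtain ⟨k, rfl⟩ : ∃ k, N = k + 6 := ⟨N - 6, by omega⟩
  obtain ⟨h1, h2⟩ := stage1 c (by omega) h5 k le_rfl
  have key : ∀ j ≤ 3, ∀ t, 2 ≤ t → t < 3 → HS ρ w d W t (k + 6 + j) := by
    intro j
    induction j with
    | zero =>
      intro _ t ht' ht
      obtain ⟨C1, hC1⟩ := h1 t ht' ht
      refine ⟨2 * C1, ?_⟩
      filter_upwards [hC1, ad.pt] with i hC1 hpt
      have := setIntegral_mono_on (integrableOn_crect (W i * (1 + (d i).N2 (k + 6))) _ _)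
        ((integrableOn_crect ((1 : Sm) * (1 + (d i).N2 (k + 6))) (t * w) (t * ρ)).const_mul 2)
        (measurableSet_crect _ _) (fun z hz => by
          have := (hpt z (c.sub ht hz)).2.1
          have hN := (d i).N2_nonneg (k + 6) z
          simp only [Sm.mul_apply, Sm.add_apply, Sm.one_apply, one_mul]
          gcongr)
      rw [integral_const_mul] at this
      exact this.trans (by linarith)
    | succ j ih =>
      intro hj t' ht' ht3
      obtain ⟨t, htt, ht⟩ := exists_between ht3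
      have h3 : 2 ≤ t := ht'.trans htt.le
      have := step c ad (n0 := k + 3) (k := k + 3 + j) (by omega) (by omega) (by omega) ht' htt ht
        (h2 t h3 ht) (by rw [show k + 3 + j + 3 = k + 6 + j by omega]; exact ih (by omega) t h3 ht)
        (hT t ht _ (by omega))
      rwa [show k + 3 + j + 4 = k + 6 + (j + 1) by omega] at this
  exact ⟨key 3 le_rfl 2 le_rfl (by norm_num), h2 2 le_rfl (by norm_num)⟩

end Crest.Agent.R220
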