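import Crest.Agent.R220.Elliptic
import Crest.Agent.R220.Pos

/-! The energy estimate: one more derivative in weighted `L²`. -/

set_option autoImplicit false
open scoped ContDiff Topology
open MeasureTheory Set Filter Asymptotics

namespace Crest.Agent.R220

open Sm

/-- Admissible multipliers. -/
structure Adm (B ρ w : ℝ) (d : ℕ → Sys) (lam : ℕ → ℝ) (A β W βx : ℕ → Sm) : Prop where
  dyA : ∀ i, dy (A i) = 0
  dyβ : ∀ i, dy (β i) = W i * dy (d i).eta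
  dxβ : ∀ i, dx (β i) = W i * dx (d i).eta + βx i
  pt : ∀ᶠ i in atTop, ∀ z ∈ orect (3 * w) (3 * ρ), 0 ≤ W i z ∧ W i z ≤ 2 ∧ 0 ≤ dx (A i) z ∧
    dx (A i) z ≤ W i z ∧ |A i z| ≤ W i z * |z.1| ∧ W i z * (z.1 ^ 2 - w ^ 2 * |z.1|) ≤ z.1 * A i z ∧
    |βx i z| ≤ w / (10 * B) * W i z ∧ |β i z| ≤ W i z * (|(d i).eta z| + w ^ 2) ∧
    W i z * ((d i).eta z ^ 2 - w ^ 2 * |(d i).eta z|) ≤ (d i).eta z * β i z
  far : ∀ᶠ i in atTop, ∀ z ∈ orect (3 * w) (3 * ρ), z ∉ orect (3 / 2 * w) (3 / 2 * ρ) → 1 ≤ W i z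
  src : ∃ K : ℝ, ∀ᶠ i in atTop, ∀ z ∈ orect (3 * w) (3 * ρ),
    tau (lam i) z * |A i z| ≤ K * W i z ∧ tau (lam i) z * |β i z| ≤ K * W i z

/-- The weight kills the growth of the source terms up to order `e`. -/
def WT (ρ w : ℝ) (lam : ℕ → ℝ) (W : ℕ → Sm) (t : ℝ) (e : ℕ) : Prop :=
  ∃ C : ℝ, ∀ᶠ i in atTop, ∫ z in crect (t * w) (t * ρ), W i z * (tau (lam i) z ^ e) ^ 2 ≤ C

theorem mul_tau_eq (f : Sm) (lam : ℝ) (e : ℕ) : (fun z => f z * (tau lam z ^ e) ^ 2) =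
    fun z => f z + (crect lam⁻¹ lam⁻¹).indicator (fun z => (C ((lam ^ e) ^ 2 - 1) * f) z) z := by
  funext z
  by_cases hz : z ∈ crect lam⁻¹ lam⁻¹
  · rw [tau_of_mem hz, indicator_of_mem hz, Sm.mul_apply, C_apply]; ring
  · rw [tau_of_not_mem hz, indicator_of_notMem hz]; ring

theorem integrableOn_mul_tau (f : Sm) (lam : ℝ) (e : ℕ) (a b : ℝ) :
    IntegrableOn (fun z => f z * (tau lam z ^ e) ^ 2) (crect a b) := by
  rw [mul_tau_eq]
  exact (integrableOn_crect f a b).add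
    ((integrableOn_crect _ a b).indicator (measurableSet_crect _ _))

theorem cut_alg {M β a v E XΘ Θy V S : ℝ} (hM : 1 ≤ M) (h1 : |β| ≤ M) (h2 : |a| ≤ M) (h3 : |v| ≤ M)
    (h4 : |E| ≤ M) (h5 : |XΘ| ≤ M) (h6 : |Θy| ≤ M) :
    -(3 * M ^ 4 * (V ^ 2 + S ^ 2)) ≤ (β * v * Θy - a * XΘ) / 2 * S ^ 2
      + (a * E * XΘ - β * v * E * Θy) / 2 * V ^ 2 + (β * XΘ + a * v * E * Θy) * (V * S) := by
  have m2 : ∀ {p q : ℝ}, |p| ≤ M → |q| ≤ M → |p * q| ≤ M ^ 4 := fun {p q} hp hq => by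
    rw [abs_mul]
    calc |p| * |q| ≤ M * M := by gcongr
      _ = M ^ 2 := by ring
      _ ≤ M ^ 4 := pow_le_pow_right₀ hM (by norm_num)
  have m3 : ∀ {p q r : ℝ}, |p| ≤ M → |q| ≤ M → |r| ≤ M → |p * q * r| ≤ M ^ 4 :=
    fun {p q r} hp hq hr => by
    rw [abs_mul, abs_mul]
    calc |p| * |q| * |r| ≤ M * M * M := by gcongr
      _ = M ^ 3 := by ring
      _ ≤ M ^ 4 := pow_le_pow_right₀ hM (by norm_num)
  have m4 : ∀ {p q r s : ℝ}, |p| ≤ M → |q| ≤ M → |r| ≤ M → |s| ≤ M → |p * q * r * s| ≤ M ^ 4 :=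
    fun {p q r s} hp hq hr hs => by
    rw [abs_mul, abs_mul, abs_mul]
    calc |p| * |q| * |r| * |s| ≤ M * M * M * M := by gcongr
      _ = M ^ 4 := by ring
  have a1 := abs_le.1 (m3 h1 h3 h6)
  have a2 := abs_le.1 (m2 h2 h5)
  have a3 := abs_le.1 (m3 h2 h4 h5)
  have a4 := abs_le.1 (m4 h1 h3 h4 h6)
  have a5 := abs_le.1 (m2 h1 h5)
  have a6 := abs_le.1 (m4 h2 h3 h4 h6)
  have b1 : -M ^ 4 * S ^ 2 ≤ (β * v * Θy - a * XΘ) / 2 * S ^ 2 :=
    mul_le_mul_of_nonneg_right (by linarith) (sq_nonneg _)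
  have b2 : -M ^ 4 * V ^ 2 ≤ (a * E * XΘ - β * v * E * Θy) / 2 * V ^ 2 :=
    mul_le_mul_of_nonneg_right (by linarith) (sq_nonneg _)
  have b3 : |β * XΘ + a * v * E * Θy| ≤ 2 * M ^ 4 := abs_le.2 ⟨by linarith, by linarith⟩
  have b4 : |V * S| ≤ (V ^ 2 + S ^ 2) / 2 :=
    abs_le.2 ⟨by nlinarith [sq_nonneg (V + S)], by nlinarith [sq_nonneg (V - S)]⟩
  have b5 : |(β * XΘ + a * v * E * Θy) * (V * S)| ≤ 2 * M ^ 4 * ((V ^ 2 + S ^ 2) / 2) := by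
    rw [abs_mul]; gcongr
  have b6 := (abs_le.1 b5).1
  have : 0 ≤ M ^ 4 * (V ^ 2 + S ^ 2) := by positivity
  nlinarith

theorem rem_alg (κ K : ℝ) (hκ : 0 < κ) : ∃ C : ℝ, 0 ≤ C ∧ ∀ τ W β a E V S g1 g2 T : ℝ, 1 ≤ τ →
    0 ≤ W → τ * |β| ≤ K * W → τ * |a| ≤ K * W → |E| ≤ K → g1 ^ 2 + g2 ^ 2 ≤ τ ^ 2 * T →
    -(W * (κ * (V ^ 2 + S ^ 2) + C * T)) ≤ β * (S * g1 + V * g2) - a * (S * g2 - E * V * g1) := by
  refine ⟨(K * (2 + |K|)) ^ 2 / κ, by positivity,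
    fun τ W β a E V S g1 g2 T hτ hW h1 h2 h3 h4 => ?_⟩
  have hτ0 : 0 < τ := by linarith
  have hK : 0 ≤ K := (abs_nonneg _).trans h3
  rw [abs_of_nonneg hK]
  set u := Real.sqrt (V ^ 2 + S ^ 2) with hu
  have hT : 0 ≤ T := by
    by_contra hT
    nlinarith [sq_nonneg g1, sq_nonneg g2, mul_pos (pow_pos hτ0 2) (neg_pos.2 (not_le.1 hT))]
  set r := Real.sqrt T with hr
  have hu2 : u ^ 2 = V ^ 2 + S ^ 2 := Real.sq_sqrt (by positivity)
  have hr2 : r ^ 2 = T := Real.sq_sqrt hT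
  have hu0 : 0 ≤ u := Real.sqrt_nonneg _
  have hr0 : 0 ≤ r := Real.sqrt_nonneg _
  have hV : |V| ≤ u := Real.abs_le_sqrt (by nlinarith [sq_nonneg S])
  have hS : |S| ≤ u := Real.abs_le_sqrt (by nlinarith [sq_nonneg V])
  have hg1 : |g1| ≤ τ * r := abs_le_of_sq_le_sq (by rw [mul_pow, hr2]; nlinarith [sq_nonneg g2])
    (by positivity)
  have hg2 : |g2| ≤ τ * r := abs_le_of_sq_le_sq (by rw [mul_pow, hr2]; nlinarith [sq_nonneg g1])
    (by positivity)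
  have b1 : |β * (S * g1 + V * g2)| ≤ K * W * (2 * (u * r)) := by
    calc |β * (S * g1 + V * g2)| ≤ |β| * (|S| * |g1| + |V| * |g2|) := by
          rw [abs_mul β, ← abs_mul S, ← abs_mul V]; gcongr; exact abs_add_le _ _
      _ ≤ |β| * (u * (τ * r) + u * (τ * r)) := by gcongr
      _ = τ * |β| * (2 * (u * r)) := by ring
      _ ≤ _ := by gcongr
  have b2 : |a * (S * g2 - E * V * g1)| ≤ K * W * ((1 + K) * (u * r)) := by
    calc |a * (S * g2 - E * V * g1)| ≤ |a| * (|S| * |g2| + |E| * |V| * |g1|) := by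
          rw [abs_mul a, ← abs_mul S, ← abs_mul E, ← abs_mul (E * V)]; gcongr; exact abs_sub _ _
      _ ≤ |a| * (u * (τ * r) + K * u * (τ * r)) := by gcongr
      _ = τ * |a| * ((1 + K) * (u * r)) := by ring
      _ ≤ _ := by gcongr
  have b3 : 2 * (K * (2 + K)) * (u * r) ≤ κ * u ^ 2 + (K * (2 + K)) ^ 2 / κ * r ^ 2 := by
    have : 0 ≤ (κ * u - K * (2 + K) * r) ^ 2 / κ := by positivity
    have e : (κ * u - K * (2 + K) * r) ^ 2 / κ =
        κ * u ^ 2 + (K * (2 + K)) ^ 2 / κ * r ^ 2 - 2 * (K * (2 + K)) * (u * r) := by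
      field_simp; ring
    linarith
  rw [← hu2, ← hr2]
  have b4 := mul_le_mul_of_nonneg_left b3 hW
  have b5 := (abs_le.1 b1).1
  have b6 := (abs_le.1 b2).2
  have b7 : 0 ≤ K * W * (u * r) := by positivity
  have b8 : 0 ≤ K * K * W * (u * r) := by positivity
  nlinarith

section

variable {B ρ w : ℝ} {N K : ℕ} {d : ℕ → Sys} {lam : ℕ → ℝ} {A β W βx : ℕ → Sm}

theorem Ctx.eta_le (c : Ctx B ρ w N K d lam) (i : ℕ) {z : ℝ × ℝ}
    (hz : z ∈ orect (3 * w) (3 * ρ)) : |(d i).eta z| ≤ 1 / 10 := by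
  have h1 := (c.la i).eta z hz
  have h2 : B * |z.1| ≤ B * (3 * w) := by have := c.hB; gcongr; exact hz.1.le
  have h3 := abs_sub_abs_le_abs_sub ((d i).eta z) z.2
  have := c.wB; have := c.ρ_le; have := hz.2
  linarith

theorem Ctx.om_bounds (c : Ctx B ρ w N K d lam) (i : ℕ) {k : ℕ} (hk : k ≤ K) {z : ℝ × ℝ}
    (hz : z ∈ orect (3 * w) (3 * ρ)) : 1 / 2 ≤ (d i).om k z ∧ (d i).om k z ≤ 2 := by
  have h1 := ((c.la i).hh k hk).abs_le z hz
  have h2 : |z.1 * (d i).hh k z| ≤ 1 / 2 := by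
    rw [abs_mul]
    have := c.wB
    calc |z.1| * |(d i).hh k z| ≤ 3 * w * B := by have := c.hw; gcongr; exact hz.1.le
      _ ≤ _ := by linarith
  obtain ⟨h3, h4⟩ := abs_le.1 h2
  rw [Sys.om_apply]
  constructor
  · linarith [Real.add_one_le_exp (-(z.1 * (d i).hh k z))]
  · rw [Real.exp_neg, inv_le_comm₀ (Real.exp_pos _) (by norm_num)]
    linarith [Real.add_one_le_exp (z.1 * (d i).hh k z)]

/-- The quadratic form produced by the multiplier. -/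
noncomputable def qForm (d : Sys) (k : ℕ) (A β W βx : Sm) (z : ℝ × ℝ) (V S : ℝ) : ℝ :=
  ((W z * dy d.eta z * d.v z + β z * dy d.v z - β z * d.v z * z.1 * dy (d.hh k) z) / 2
      + β z * d.c12 k z
      - ((d.v z * dx A z / 2 + d.Xd d.v z * A z / 2)
        + (d.v z * A z / 2) * (-d.hh k z - z.1 * d.Xd (d.hh k) z)
        - (d.v z * A z / 2) * dy d.s z) / 2 - (d.v z * A z / 2) * d.c22 k z) * S ^ 2
    + (β z * d.c21 k z - (W z * dy d.eta z * d.v z * (d.Γ z * d.e z)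
        + β z * (dy d.v z * (d.Γ z * d.e z) + d.v z * (dy d.Γ z * d.e z + d.Γ z * dy d.e z))
        - β z * d.v z * (d.Γ z * d.e z) * z.1 * dy (d.hh k) z) / 2
      + ((d.v z * dx A z / 2 + d.Xd d.v z * A z / 2) * (d.Γ z * d.e z)
        + (d.v z * A z / 2) * (d.Xd d.Γ z * d.e z + d.Γ z * (dx d.e z - d.s z * dy d.e z))
        + (d.v z * A z / 2) * (d.Γ z * d.e z) * (-d.hh k z - z.1 * d.Xd (d.hh k) z)
        - (d.v z * A z / 2) * (d.Γ z * d.e z) * dy d.s z) / 2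
      + (d.v z * A z / 2) * (d.Γ z * d.e z) * d.c11 k z) * V ^ 2
    + ((βx z + W z * d.Xd d.eta z) - β z * z.1 * d.Xd (d.hh k) z
      + ((dy d.v z * A z / 2) * d.v z * (d.Γ z * d.e z)
        + (d.v z * A z / 2) * dy d.v z * (d.Γ z * d.e z)
        + (d.v z * A z / 2) * d.v z * (dy d.Γ z * d.e z + d.Γ z * dy d.e z))
      - (d.v z * A z / 2) * d.v z * (d.Γ z * d.e z) * z.1 * dy (d.hh k) z
      - (d.v z * A z / 2) * d.c21 k z + (d.v z * A z / 2) * (d.Γ z * d.e z) * d.c12 k z) * (V * S)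

/-- The terms containing derivatives of the cut-off. -/
noncomputable def cutForm (d : Sys) (A β Θ : Sm) (z : ℝ × ℝ) (V S : ℝ) : ℝ :=
  (β z * d.v z * dy Θ z - (d.v z * A z / 2) * d.Xd Θ z) / 2 * S ^ 2
    + ((d.v z * A z / 2) * (d.Γ z * d.e z) * d.Xd Θ z - β z * d.v z * (d.Γ z * d.e z) * dy Θ z) / 2
      * V ^ 2
    + (β z * d.Xd Θ z + (d.v z * A z / 2) * d.v z * (d.Γ z * d.e z) * dy Θ z) * (V * S)

/-- The terms containing the right-hand sides. -/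
noncomputable def remForm (d : Sys) (A β : Sm) (z : ℝ × ℝ) (V S g1 g2 : ℝ) : ℝ :=
  β z * (S * g1 + V * g2) - (d.v z * A z / 2) * (S * g2 - (d.Γ z * d.e z) * V * g1)

theorem energy_id' (d : Sys) (k : ℕ) (A β W βx Θ : Sm) (hA : dy A = 0)
    (hβy : dy β = W * dy d.eta) (hβx : dx β = W * dx d.eta + βx) (z : ℝ × ℝ) (g1 g2 : ℝ)
    (hg1 : d.F1 k z = d.c11 k z * d.V k z + d.c12 k z * d.S k z + g1)
    (hg2 : d.F2 k z = d.c21 k z * d.V k z + d.c22 k z * d.S k z + g2) :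
    (dx (enJ1 (d.V k) (d.S k) (d.Γ * d.e) (Θ * d.om k * (C (1 / 2) * d.v * A)) (Θ * d.om k * β))
      + dy (enJ2 (d.V k) (d.S k) d.v d.s (d.Γ * d.e) (Θ * d.om k * (C (1 / 2) * d.v * A))
        (Θ * d.om k * β))) z =
    d.om k z * (Θ z * qForm d k A β W βx z (d.V k z) (d.S k z)
      + cutForm d A β Θ z (d.V k z) (d.S k z) + Θ z * remForm d A β z (d.V k z) (d.S k z) g1 g2) :=
  energy_id (d.V k) (d.S k) d.v d.s d.Γ d.e (d.c11 k) (d.c12 k) (d.c21 k) (d.c22 k) (d.hh k)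
    (d.om k) Θ A β W βx d.eta (d.dx_om k) (d.dy_om k) rfl hA hβy hβx z g1 g2 _ _ _ _ _ _
    (d.Xd d.v z) (d.Xd (d.hh k) z) (d.Xd d.eta z) (d.Xd Θ z)
    (by simp only [Sys.F1, Sm.add_apply, Sm.sub_apply, Sm.mul_apply] at hg1 ⊢; linarith)
    (by simp only [Sys.F2, Sys.E, Sm.sub_apply, Sm.mul_apply] at hg2 ⊢; linarith)
    rfl rfl rfl rfl rfl rfl rfl rfl rfl rfl

/-- Positivity of the quadratic form at a point. -/
theorem Ctx.pos (c : Ctx B ρ w N K d lam) (ad : Adm B ρ w d lam A β W βx) {k : ℕ} (hk : k ≤ K) :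
    ∀ᶠ i in atTop, ∀ z ∈ orect (3 * w) (3 * ρ), ∀ V S : ℝ,
      w ^ 2 / (10 * B) * W i z * (V ^ 2 + S ^ 2) ≤
        qForm (d i) k (A i) (β i) (W i) (βx i) z V S := by
  filter_upwards [ad.pt, c.eclose] with i hpt hec z hz V S
  obtain ⟨p1, -, p3, p4, p5, p6, p7, p8, p9⟩ := hpt z hz
  have la := c.la i
  refine pos_form B ρ w (w ^ 2) k z.1 z.2 ((d i).v z) (dy (d i).v z) ((d i).Xd (d i).v z)
    ((d i).s z) (dy (d i).s z) ((d i).Γ z) (dy (d i).Γ z) ((d i).Xd (d i).Γ z) ((d i).e z)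
    (dx (d i).e z) (dy (d i).e z) ((d i).hh k z) ((d i).Xd ((d i).hh k) z) (dy ((d i).hh k) z)
    ((d i).c11 k z) ((d i).c12 k z) ((d i).c22 k z) ((d i).ct k z) ((d i).eta z)
    (dy (d i).eta z) ((d i).Xd (d i).eta z) (W i z) (A i z) (dx (A i) z) (β i z) (βx i z) V S
    c.hB c.hρ c.hρB c.hw c.hwρ (sq_nonneg _) le_rfl (Nat.cast_nonneg _)
    (le_trans (by exact_mod_cast hk) c.hK) hz.1.le hz.2.le (la.v.abs_le z hz) (la.v.dy.abs_le z hz)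
    (la.Xv z hz) (la.s.abs_le z hz) (la.s.dy.abs_le z hz) (la.Γ.abs_le z hz)
    (la.Γ.dy.abs_le z hz) (la.XΓ z hz) ((la.hh k hk).abs_le z hz) (la.Xhh k hk z hz)
    ((la.hh k hk).dy.abs_le z hz) (la.c11 k hk z hz) (la.c12 k hk z hz) (la.c22 k hk z hz)
    (la.ct k hk z hz) (la.v_low z hz) (c.Γ_low i z hz) ?_ ?_ ?_ (la.eta z hz) (la.etay z hz)
    (la.Xeta z hz) p1 p3 p4 p5 p6 p7 p8 p9 _ _ _ ((d i).c21 k z) _ _ _ _ _ _ rfl rfl rfl ?_
    rfl rfl rfl rfl rfl rfl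
  · simpa [e0] using hec.abs_le z hz
  · have := hec.dx.abs_le z hz
    simp only [e0, map_sub, map_add, der_mul, der_pow, der_C, der_ofNat, dx_X, dx_Y,
      Derivation.map_one_eq_zero] at this
    simp at this
    convert this using 2; ring
  · have := hec.dy.abs_le z hz
    simp only [e0, map_sub, map_add, der_mul, der_pow, der_C, der_ofNat, dy_X, dy_Y,
      Derivation.map_one_eq_zero] at this
    simpa using this
  · simp only [Sys.c21, Sys.E, der_mul, Sm.add_apply, Sm.mul_apply, natCast_apply, ofNat_apply]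

theorem step_alg {om Θ W u c0 Q Cut Rem a b : ℝ} (o1 : 1 / 2 ≤ om) (o2 : om ≤ 2) (θ0 : 0 ≤ Θ)
    (θ1 : Θ ≤ 1) (hW : 0 ≤ W) (hu : 0 ≤ u) (hc0 : 0 ≤ c0) (ha : 0 ≤ a) (hb : 0 ≤ b)
    (q1 : c0 * W * u ≤ Q) (q2 : -a ≤ Cut) (q3 : -(W * (c0 / 8 * u + b)) ≤ Rem) :
    c0 / 4 * (Θ * W * u) ≤ om * (Θ * Q + Cut + Θ * Rem) + (2 * a + 2 * (W * b)) := by
  have h1 : 0 ≤ c0 * W * u := by positivity
  have h2 : Θ * (c0 * W * u) ≤ Θ * Q := by gcongr
  have h3 : 1 / 2 * (Θ * (c0 * W * u)) ≤ om * (Θ * Q) := by gcongr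
  have h4 : -(2 * a) ≤ om * Cut := by nlinarith
  have h5 : 0 ≤ W * (c0 / 8 * u + b) := by positivity
  have h6 : -(Θ * (W * (c0 / 8 * u + b))) ≤ Θ * Rem := by nlinarith
  have h7 : 0 ≤ Θ * (W * (c0 / 8 * u + b)) := by positivity
  have h8 : -(2 * (Θ * (W * (c0 / 8 * u + b)))) ≤ om * (Θ * Rem) := by nlinarith
  have h9 : Θ * (W * b) ≤ W * b := mul_le_of_le_one_left (by positivity) θ1
  nlinarith

theorem cut_pt (c : Ctx B ρ w N K d lam) (i : ℕ) {A β Θ ψ : Sm} {z : ℝ × ℝ} {M0 : ℝ}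
    (hz : z ∈ orect (3 * w) (3 * ρ)) (hA : |A z| ≤ 1) (hβ : |β z| ≤ 1) (hx : |dx Θ z| ≤ M0)
    (hy : |dy Θ z| ≤ M0) (hd : (dx Θ z = 0 ∧ dy Θ z = 0) ∨ ψ z = 1) (V S : ℝ) :
    -(3 * ((M0 + 1) * (B + 1)) ^ 4 * (ψ z ^ 2 * (V ^ 2 + S ^ 2))) ≤ cutForm (d i) A β Θ z V S := by
  rcases hd with ⟨e1, e2⟩ | e1
  · simp only [cutForm, Sys.Xd, Sm.sub_apply, Sm.mul_apply, e1, e2]
    have : 0 ≤ 3 * ((M0 + 1) * (B + 1)) ^ 4 * (ψ z ^ 2 * (V ^ 2 + S ^ 2)) := by positivity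
    linarith
  · rw [e1, one_pow, one_mul]
    have la := c.la i
    have hB := c.hB
    have hM0 : 0 ≤ M0 := (abs_nonneg _).trans hx
    have hM1 : B + 1 ≤ (M0 + 1) * (B + 1) := by nlinarith
    have hv := la.v.abs_le z hz
    have ha : |(d i).v z * A z / 2| ≤ B := by
      rw [abs_div, abs_mul, abs_two]
      have := mul_le_mul hv hA (abs_nonneg _) (by linarith)
      linarith
    have hE : |(d i).Γ z * (d i).e z| ≤ B := la.E z hz
    have hXΘ : |(d i).Xd Θ z| ≤ (M0 + 1) * (B + 1) := by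
      rw [Sys.Xd, Sm.sub_apply, Sm.mul_apply]
      refine (abs_sub _ _).trans ?_
      rw [abs_mul]
      have := mul_le_mul (la.s.abs_le z hz) hy (abs_nonneg _) (by linarith)
      nlinarith
    exact cut_alg (by linarith) (by linarith) (by linarith) (by linarith) (by linarith) hXΘ
      (by nlinarith)

theorem tau_alg {τ n : ℝ} (hτ : 1 ≤ τ) (hn : 0 ≤ n) (a b : ℕ) (hab : a ≤ b + 1) :
    1 + n + (τ ^ a) ^ 2 ≤ τ ^ 2 * (1 + n + (τ ^ b) ^ 2) := by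
  have a4 : (1 : ℝ) ≤ τ ^ 2 := one_le_pow₀ hτ
  have a5 : τ ^ a ≤ τ ^ (b + 1) := pow_le_pow_right₀ hτ hab
  have a6 : (τ ^ a) ^ 2 ≤ (τ ^ (b + 1)) ^ 2 := by gcongr
  have a7 : 1 + n ≤ τ ^ 2 * (1 + n) := le_mul_of_one_le_left (by positivity) a4
  rw [pow_succ _ b] at a6
  nlinarith

theorem exists_cutoffs {ρ w t t' : ℝ} (hρ : 0 < ρ) (hw : 0 < w) (ht' : 2 ≤ t') (htt : t' < t) :
    ∃ Θ ψ : Sm, (∀ z, 0 ≤ Θ z) ∧ (∀ z, Θ z ≤ 1) ∧ (∀ z, z ∉ crect (t * w) (t * ρ) → Θ z = 0) ∧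
      (∀ z ∈ crect (t' * w) (t' * ρ), Θ z = 1) ∧ (∀ z, z ∉ crect (t * w) (t * ρ) → ψ z = 0) ∧
      (∀ z ∈ orect (3 / 2 * w) (3 / 2 * ρ), ψ z = 0) ∧
      ∀ z, (dx Θ z = 0 ∧ dy Θ z = 0) ∨ ψ z = 1 := by
  obtain ⟨t'', h1, h2⟩ := exists_between htt
  have h1w : t' * w < t'' * w := by gcongr
  have h1ρ : t' * ρ < t'' * ρ := by gcongr
  have h2w : t'' * w < t * w := by gcongr
  have h2ρ : t'' * ρ < t * ρ := by gcongr
  have hΘ0 : ∀ z, z ∉ crect (t'' * w) (t'' * ρ) →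
      cutoff (t' * w) (t'' * w) (t' * ρ) (t'' * ρ) z = 0 := fun z hz =>
    cutoff_eq_zero h1w h1ρ fun h => hz (orect_subset_crect _ _ h)
  refine ⟨cutoff (t' * w) (t'' * w) (t' * ρ) (t'' * ρ), cutoff (t'' * w) (t * w) (t'' * ρ) (t * ρ) *
    (1 - cutoff (3 / 2 * w) (2 * w) (3 / 2 * ρ) (2 * ρ)), cutoff_nonneg _ _ _ _,
    cutoff_le_one _ _ _ _, fun z hz => hΘ0 z fun h => hz (crect_mono h2w.le h2ρ.le h),
    fun z hz => cutoff_eq_one h1w h1ρ hz, fun z hz => ?_, fun z hz => ?_, fun z => ?_⟩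
  · rw [Sm.mul_apply, cutoff_eq_zero h2w h2ρ fun h => hz (orect_subset_crect _ _ h), zero_mul]
  · rw [Sm.mul_apply, Sm.sub_apply, Sm.one_apply,
      cutoff_eq_one (by linarith) (by linarith) (orect_subset_crect _ _ hz), sub_self, mul_zero]
  · by_cases hz1 : z ∈ orect (t' * w) (t' * ρ)
    · left
      have e : ∀ z ∈ orect (t' * w) (t' * ρ),
          cutoff (t' * w) (t'' * w) (t' * ρ) (t'' * ρ) z = (1 : Sm) z := fun z hz =>
        cutoff_eq_one h1w h1ρ (orect_subset_crect _ _ hz)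
      exact ⟨by simpa using dx_eqOn (isOpen_orect _ _) e z hz1,
        by simpa using dy_eqOn (isOpen_orect _ _) e z hz1⟩
    by_cases hz2 : z ∈ crect (t'' * w) (t'' * ρ)
    · right
      have hz3 : z ∉ orect (2 * w) (2 * ρ) := fun h =>
        hz1 ⟨h.1.trans_le (by gcongr), h.2.trans_le (by gcongr)⟩
      rw [Sm.mul_apply, Sm.sub_apply, Sm.one_apply, cutoff_eq_one h2w h2ρ hz2,
        cutoff_eq_zero (by linarith) (by linarith) hz3]
      norm_num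
    · left
      exact ⟨dx_zero_on (isClosed_crect _ _).isOpen_compl hΘ0 z hz2,
        dy_zero_on (isClosed_crect _ _).isOpen_compl hΘ0 z hz2⟩

theorem step_pt (c : Ctx B ρ w N K d lam) (ad : Adm B ρ w d lam A β W βx) {k : ℕ}
    (hkK : k ≤ K) : ∃ C4 : ℝ, 0 ≤ C4 ∧ ∀ᶠ i in atTop, ∀ z ∈ orect (3 * w) (3 * ρ),
      ∀ (Θ ψ : Sm) (M0 T : ℝ), 0 ≤ Θ z → Θ z ≤ 1 → |dx Θ z| ≤ M0 → |dy Θ z| ≤ M0 →
      ((dx Θ z = 0 ∧ dy Θ z = 0) ∨ ψ z = 1) → 0 ≤ T →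
      (d i).f1 k z ^ 2 + ((d i).v ^ 2 * dy^[k + 1] (d i).E + (d i).f2 k) z ^ 2
        ≤ tau (lam i) z ^ 2 * T →
      w ^ 2 / (10 * B) / 4 * (Θ z * W i z * ((d i).V k z ^ 2 + (d i).S k z ^ 2)) ≤
        (dx (enJ1 ((d i).V k) ((d i).S k) ((d i).Γ * (d i).e)
            (Θ * (d i).om k * (C (1 / 2) * (d i).v * A i)) (Θ * (d i).om k * β i))
          + dy (enJ2 ((d i).V k) ((d i).S k) (d i).v (d i).s ((d i).Γ * (d i).e)
            (Θ * (d i).om k * (C (1 / 2) * (d i).v * A i)) (Θ * (d i).om k * β i))) z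
        + (2 * (3 * ((M0 + 1) * (B + 1)) ^ 4 * (ψ z ^ 2 * ((d i).V k z ^ 2 + (d i).S k z ^ 2)))
          + 2 * (W i z * (C4 * T))) := by
  have hB0 : 0 < B := by linarith [c.hB]
  have hB1 : 1 ≤ B := by linarith [c.hB]
  have hw := c.hw
  obtain ⟨Ks, hKs⟩ := ad.src
  obtain ⟨C4, hC4, halg⟩ := rem_alg (w ^ 2 / (10 * B) / 8) ((|Ks| + 1) * B) (by positivity)
  refine ⟨C4, hC4, ?_⟩
  filter_upwards [hKs, ad.pt, c.pos ad hkK, c.hlam.eventually_ge_atTop 1]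
    with i hKs hpt hpos hl1 z hz Θ ψ M0 T θ0 θ1 hx hy hd hT hg
  obtain ⟨p1, p2, -, -, p5, -, -, p8, -⟩ := hpt z hz
  rw [energy_id' (d i) k (A i) (β i) (W i) (βx i) Θ (ad.dyA i) (ad.dyβ i) (ad.dxβ i) z
    ((d i).f1 k z) (((d i).v ^ 2 * dy^[k + 1] (d i).E + (d i).f2 k) z) (c.F1_eq i k hz)
    (c.F2_eq i k hz)]
  obtain ⟨o1, o2⟩ := c.om_bounds i hkK hz
  have hη := c.eta_le i hz
  have hw1 : w ≤ 1 / 100 := c.w_le_ρ.trans c.ρ_le
  have hx' : |z.1| ≤ 1 / 2 := by linarith [hz.1]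
  have hA1 : |A i z| ≤ 1 := by nlinarith [abs_nonneg z.1]
  have hβ1 : |β i z| ≤ 1 := by
    have : w ^ 2 ≤ 1 / 100 := by nlinarith
    nlinarith [abs_nonneg ((d i).eta z)]
  have hτ := one_le_tau hl1 z
  have hKs' : Ks * W i z ≤ (|Ks| + 1) * W i z := by gcongr; linarith [le_abs_self Ks]
  have hv := (c.la i).v.abs_le z hz
  have ha : |(d i).v z * A i z / 2| ≤ B * |A i z| := by
    rw [abs_div, abs_mul, abs_two]
    have := mul_le_mul_of_nonneg_right hv (abs_nonneg (A i z))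
    have := mul_nonneg hB0.le (abs_nonneg (A i z))
    linarith
  have hE : |(d i).Γ z * (d i).e z| ≤ B := (c.la i).E z hz
  refine step_alg o1 o2 θ0 θ1 p1 (by positivity) (by positivity) (by positivity) (by positivity)
    (hpos z hz _ _) (cut_pt c i hz hA1 hβ1 hx hy hd _ _)
    (halg (tau (lam i) z) _ _ _ _ _ _ _ _ _ hτ p1 ?_ ?_ ?_ hg)
  · have := (hKs z hz).2
    have : (|Ks| + 1) * W i z ≤ (|Ks| + 1) * B * W i z := by
      rw [mul_right_comm]; exact le_mul_of_one_le_right (by positivity) hB1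
    linarith
  · calc tau (lam i) z * |(d i).v z * A i z / 2| ≤ tau (lam i) z * (B * |A i z|) := by gcongr
      _ = B * (tau (lam i) z * |A i z|) := by ring
      _ ≤ B * ((|Ks| + 1) * W i z) :=
          mul_le_mul_of_nonneg_left ((hKs z hz).1.trans hKs') hB0.le
      _ = _ := by ring
  · exact hE.trans (by nlinarith [abs_nonneg Ks])

theorem step (c : Ctx B ρ w N K d lam) (ad : Adm B ρ w d lam A β W βx) {n0 k : ℕ} (hn : n0 ≤ N)
    (hk : k + 4 ≤ 2 * n0 + 1) (hkK : k + 3 ≤ K) {t t' : ℝ} (ht' : 2 ≤ t') (htt : t' < t)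
    (ht : t < 3) (hKK : KK (Fl ρ w t) d n0) (hH : HS ρ w d W t (k + 3))
    (hT : WT ρ w lam W t (k + 3 - N)) : HS ρ w d W t' (k + 4) := by
  have hB0 : 0 < B := by linarith [c.hB]
  have hw := c.hw
  have hρ := c.hρ
  obtain ⟨Θ, ψ, θ0, θ1, hΘ0, hΘ1, hψ1, hψ2, hdich⟩ := exists_cutoffs hρ hw ht' htt
  have hW0 : ∀ᶠ i in atTop, ∀ z ∈ orect (3 * w) (3 * ρ), 0 ≤ W i z := by
    filter_upwards [ad.pt] with i hi z hz using (hi z hz).1
  obtain ⟨C1, hC1⟩ := elliptic c hW0 ad.far ht hψ1 hψ2 hn (by omega) hKK hH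
  obtain ⟨C2, hC2⟩ := hH
  obtain ⟨C3, hC3⟩ := hT
  have P1 : PS (orect (3 * w) (3 * ρ)) lam N d (k + 2) (k + 4) (k + 4) fun i => (d i).f1 (k + 3) :=
    (PS_f1 c.tame (k + 1)).mono le_rfl (by omega) le_rfl
  have P2 : PS (orect (3 * w) (3 * ρ)) lam N d (k + 2) (k + 4) (k + 4) fun i =>
      (d i).v ^ 2 * dy^[k + 3 + 1] (d i).E + (d i).f2 (k + 3) :=
    ((PS_main c.tame _).add' (PS_f2 c.tame (k + 1))).mono (by omega) (by omega) (by omega)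
  obtain ⟨K1, hK1, b1⟩ := Pol.sq_le c.hlam (c.Fl_le ht) hKK hn P1 hk
  obtain ⟨K2, hK2, b2⟩ := Pol.sq_le c.hlam (c.Fl_le ht) hKK hn P2 hk
  rw [eventually_prod_principal_iff] at b1 b2
  obtain ⟨M0, hM0⟩ := Cb.of_isCompact (isCompact_crect (t * w) (t * ρ)) 1 Θ
  obtain ⟨C4, hC4, hpt⟩ := step_pt c ad hkK
  obtain ⟨c0, hc0, hc0'⟩ : ∃ c0, c0 = w ^ 2 / (10 * B) / 4 ∧ 0 < c0 := ⟨_, rfl, by positivity⟩
  obtain ⟨M, hM, hM'⟩ : ∃ M, M = 3 * ((M0 + 1) * (B + 1)) ^ 4 ∧ 0 ≤ M := ⟨_, rfl, by positivity⟩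
  simp only [← hc0] at hpt
  refine ⟨C2 + 1 / c0 * (2 * M * C1 + 2 * C4 * (K1 + K2) * (C2 + C3)), ?_⟩
  filter_upwards [hC1, hC2, hC3, b1, b2, hpt, hW0, c.hlam.eventually_ge_atTop 1]
    with i hC1 hC2 hC3 b1 b2 hpt hW0 hl1
  have i1 := integrableOn_crect (ψ ^ 2 * ((d i).V (k + 3) ^ 2 + (d i).S (k + 3) ^ 2)) (t * w) (t * ρ)
  have i2 := integrableOn_crect (W i * (1 + (d i).N2 (k + 3))) (t * w) (t * ρ)
  have i3 := integrableOn_mul_tau (W i) (lam i) (k + 3 - N) (t * w) (t * ρ)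
  have i4 := integrableOn_crect (Θ * W i * ((d i).V (k + 3) ^ 2 + (d i).S (k + 3) ^ 2))
    (t * w) (t * ρ)
  have key := setIntegral_le_of_div (a := t * w) (b := t * ρ)
    (J1 := enJ1 ((d i).V (k + 3)) ((d i).S (k + 3)) ((d i).Γ * (d i).e)
      (Θ * (d i).om (k + 3) * (C (1 / 2) * (d i).v * A i)) (Θ * (d i).om (k + 3) * β i))
    (J2 := enJ2 ((d i).V (k + 3)) ((d i).S (k + 3)) (d i).v (d i).s ((d i).Γ * (d i).e)
      (Θ * (d i).om (k + 3) * (C (1 / 2) * (d i).v * A i)) (Θ * (d i).om (k + 3) * β i))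
    (fun z hz => by simp [enJ1, hΘ0 z hz]) (fun z hz => by simp [enJ2, hΘ0 z hz])
    (i4.const_mul c0)
    ((i1.const_mul (2 * M)).add ((i2.add i3).const_mul (2 * C4 * (K1 + K2))))
    (fun z hz => by
      have hzU := c.sub ht hz
      have hN := (d i).N2_nonneg (k + 3) z
      have hτ := one_le_tau hl1 z
      have := hpt z hzU Θ ψ M0
        ((K1 + K2) * (1 + (d i).N2 (k + 3) z + (tau (lam i) z ^ (k + 3 - N)) ^ 2)) (θ0 z) (θ1 z)
        (hM0.dx.abs_le z hz) (hM0.dy.abs_le z hz) (hdich z) (by positivity) (by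
          have a1 := b1 z hz
          have a2 := b2 z hz
          have a3 := mul_le_mul_of_nonneg_left
            (tau_alg hτ hN (k + 4 - N) (k + 3 - N) (by omega)) (add_pos hK1 hK2).le
          change _ ≤ K1 * (1 + (d i).N2 (k + 3) z + _) at a1
          change _ ≤ K2 * (1 + (d i).N2 (k + 3) z + _) at a2
          linarith)
      rw [← hM] at this
      simp only [Pi.add_apply, Sm.mul_apply (Θ * W i), Sm.mul_apply Θ (W i), Sm.mul_apply (ψ ^ 2),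
        Sm.mul_apply (W i), Sm.add_apply (1 : Sm), Sm.add_apply (_ ^ 2) (_ ^ 2), Sm.pow_apply,
        Sm.one_apply]
      linarith)
  rw [integral_add' (i1.const_mul _) ((i2.add i3).const_mul _), integral_const_mul,
    integral_const_mul, integral_const_mul, integral_add' i2 i3] at key
  have hsub : crect (t' * w) (t' * ρ) ⊆ crect (t * w) (t * ρ) :=
    crect_mono (by gcongr) (by gcongr)
  have k1 : ∫ z in crect (t * w) (t * ρ),
      (Θ * W i * ((d i).V (k + 3) ^ 2 + (d i).S (k + 3) ^ 2)) z ≤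
      1 / c0 * (2 * M * C1 + 2 * C4 * (K1 + K2) * (C2 + C3)) := by
    rw [one_div, inv_mul_eq_div, le_div_iff₀ hc0', mul_comm]
    refine key.trans ?_
    gcongr
  have k2 : ∫ z in crect (t' * w) (t' * ρ), (W i * (1 + (d i).N2 (k + 4))) z ≤
      ∫ z in crect (t' * w) (t' * ρ), ((W i * (1 + (d i).N2 (k + 3))) z +
        (Θ * W i * ((d i).V (k + 3) ^ 2 + (d i).S (k + 3) ^ 2)) z) := by
    refine le_of_eq (setIntegral_congr_fun (measurableSet_crect _ _) fun z hz => ?_)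
    simp only [Sm.mul_apply, Sm.add_apply, Sm.pow_apply, Sm.one_apply, hΘ1 z hz,
      (d i).N2_succ (k + 3)]
    ring
  have k3 := setIntegral_mono_set (i2.add i4) (by
    refine (ae_restrict_iff' (measurableSet_crect _ _)).2 (Eventually.of_forall fun z hz => ?_)
    have := hW0 z (c.sub ht hz)
    have := θ0 z
    have := (d i).N2_nonneg (k + 3) z
    simp only [Pi.add_apply, Pi.zero_apply, Sm.mul_apply, Sm.add_apply, Sm.pow_apply,
      Sm.one_apply]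
    positivity) hsub.eventuallyLE
  rw [integral_add' i2 i4] at k3
  exact k2.trans (k3.trans (add_le_add hC2 k1))

end

end Crest.Agent.R220
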