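import Crest.Agent.R220.Defs

/-! The system differentiated `k` times in `y`, and the class of its remainder terms. -/

set_option autoImplicit false
open scoped ContDiff Topology
open MeasureTheory Set Filter Asymptotics

namespace Crest.Agent.R220

open Sm

namespace Sys

variable (d : Sys)

noncomputable def V (k : ℕ) : Sm := dy^[k] d.v
noncomputable def S (k : ℕ) : Sm := dy^[k] d.s
noncomputable def r1v : Sm := d.p0 + d.p1 * d.s + d.p2 * d.s ^ 2 + 3 * d.p3 * d.v ^ 2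
noncomputable def r1s : Sm := d.v * (d.p1 + 2 * d.p2 * d.s)
noncomputable def r2s : Sm := d.q1 + 2 * d.q2 * d.s + 3 * d.q3 * d.s ^ 2 + d.E * d.v ^ 2 * d.q5
noncomputable def c11 (k : ℕ) : Sm := ((k : Sm) - 1) * dy d.s + d.r1v
noncomputable def c12 (k : ℕ) : Sm := -((k : Sm) - 1) * dy d.v + d.r1s
noncomputable def ct (k : ℕ) : Sm := ((k : Sm) + 1) * dy d.v + 2 * d.v * (d.q4 + d.q5 * d.s)
noncomputable def c21 (k : ℕ) : Sm := ((k : Sm) + 2) * d.v * dy d.E + d.E * d.ct k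
noncomputable def c22 (k : ℕ) : Sm := ((k : Sm) + 1) * dy d.s + d.r2s
/-- Principal part of the first equation at level `k`. -/
noncomputable def F1 (k : ℕ) : Sm := dx (d.V k) - d.s * dy (d.V k) + d.v * dy (d.S k)
/-- Principal part of the second equation at level `k`. -/
noncomputable def F2 (k : ℕ) : Sm := dx (d.S k) - d.s * dy (d.S k) - d.v * d.E * dy (d.V k)
noncomputable def f1 (k : ℕ) : Sm :=
  d.F1 k - d.c11 k * d.V k - d.c12 k * d.S k - dy^[k] d.eq1
noncomputable def f2 (k : ℕ) : Sm :=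
  d.F2 k - d.c21 k * d.V k - d.c22 k * d.S k - d.v ^ 2 * dy^[k + 1] d.E - dy^[k] d.eq2

theorem V_succ (k : ℕ) : d.V (k + 1) = dy (d.V k) := Function.iterate_succ_apply' _ _ _
theorem S_succ (k : ℕ) : d.S (k + 1) = dy (d.S k) := Function.iterate_succ_apply' _ _ _

theorem f1_succ (k : ℕ) :
    d.f1 (k + 1) = dy (d.f1 k) + dy (d.c11 k) * d.V k + dy (d.c12 k) * d.S k := by
  have h1 : d.c11 (k + 1) = d.c11 k + dy d.s := by simp only [c11]; push_cast; ring
  have h2 : d.c12 (k + 1) = d.c12 k - dy d.v := by simp only [c12]; push_cast; ring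
  simp only [f1, F1, h1, h2, V_succ, S_succ, Function.iterate_succ_apply', map_sub, map_add,
    der_mul, dy_dx]
  ring

theorem f2_succ (k : ℕ) :
    d.f2 (k + 1) = dy (d.f2 k) + dy (d.c21 k) * d.V k + dy (d.c22 k) * d.S k
      + 2 * d.v * dy d.v * dy^[k + 1] d.E := by
  have h1 : d.c21 (k + 1) = d.c21 k + (d.v * dy d.E + d.E * dy d.v) := by
    simp only [c21, ct]; push_cast; ring
  have h2 : d.c22 (k + 1) = d.c22 k + dy d.s := by simp only [c22]; push_cast; ring
  simp only [f2, F2, h1, h2, V_succ, S_succ, Function.iterate_succ_apply' _ (k + 1),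
    Function.iterate_succ_apply' _ k d.eq2, map_sub, der_mul, dy_dx, der_pow]
  push_cast
  ring

theorem f1_one : d.f1 1 = d.v * (dy d.p0 + dy d.p1 * d.s + dy d.p2 * d.s ^ 2)
    + dy d.p3 * d.v ^ 3 := by
  simp only [f1, F1, c11, c12, r1v, r1s, eq1, r1, V, S, Function.iterate_one, map_sub, map_add,
    der_mul, dy_dx, der_pow]
  push_cast
  ring

theorem f2_one : d.f2 1 = -(dy d.s) ^ 2 - d.E * (dy d.v) ^ 2
    + (dy d.q1 * d.s + dy d.q2 * d.s ^ 2 + dy d.q3 * d.s ^ 3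
      + dy d.E * d.v ^ 2 * (d.q4 + d.q5 * d.s) + d.E * d.v ^ 2 * (dy d.q4 + dy d.q5 * d.s)) := by
  simp only [f2, F2, c21, c22, ct, r2s, eq2, r2, V, S, Function.iterate_succ_apply',
    Function.iterate_zero_apply, map_sub, map_add, der_mul, dy_dx, der_pow]
  push_cast
  ring

theorem f1_two : d.f1 2 = dy (d.v * (dy d.p0 + dy d.p1 * d.s + dy d.p2 * d.s ^ 2)
    + dy d.p3 * d.v ^ 3) + dy d.r1v * dy d.v + dy d.r1s * dy d.s := by
  rw [f1_succ, f1_one]
  simp [c11, c12, V, S]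

theorem f2_two : d.f2 2 = -(dy d.E * (dy d.v) ^ 2)
    + dy (dy d.q1 * d.s + dy d.q2 * d.s ^ 2 + dy d.q3 * d.s ^ 3
      + dy d.E * d.v ^ 2 * (d.q4 + d.q5 * d.s) + d.E * d.v ^ 2 * (dy d.q4 + dy d.q5 * d.s))
    + (dy (3 * d.v * dy d.E + d.E * (2 * d.v * (d.q4 + d.q5 * d.s))) + 2 * dy d.E * dy d.v) * dy d.v
    + dy d.r2s * dy d.s + 2 * d.v * dy d.v * dy (dy d.E) := by
  rw [f2_succ, f2_one]
  have h1 : d.c21 1 = (3 * d.v * dy d.E + d.E * (2 * d.v * (d.q4 + d.q5 * d.s)))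
      + 2 * (d.E * dy d.v) := by simp only [c21, ct]; push_cast; ring
  have h2 : d.c22 1 = 2 * dy d.s + d.r2s := by simp only [c22]; push_cast; ring
  rw [h1, h2]
  generalize (dy d.q1 * d.s + dy d.q2 * d.s ^ 2 + dy d.q3 * d.s ^ 3
      + dy d.E * d.v ^ 2 * (d.q4 + d.q5 * d.s) + d.E * d.v ^ 2 * (dy d.q4 + dy d.q5 * d.s)) = A
  generalize (3 * d.v * dy d.E + d.E * (2 * d.v * (d.q4 + d.q5 * d.s))) = A'
  simp only [V, S, Function.iterate_succ_apply', Function.iterate_zero_apply, map_sub, map_add,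
    map_neg, der_mul, der_pow, der_ofNat]
  push_cast
  ring

theorem dx_V (k : ℕ) : dx (d.V k) = dy^[k] (d.s * dy d.v - d.v * dy d.s + d.r1) + dy^[k] d.eq1 := by
  rw [← iter_add, V, ← iter_dy_dx]; congr 1; simp only [eq1]; ring

theorem dx_S (k : ℕ) :
    dx (d.S k) = dy^[k] (d.s * dy d.s + d.v * dy (d.E * d.v) + d.r2) + dy^[k] d.eq2 := by
  rw [← iter_add, S, ← iter_dy_dx]; congr 1; simp only [eq2]; ring

end Sys

/-- Polynomials in `y`-derivatives of coefficients (class `T`) and of the unknowns `v`, `s`: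
`M` bounds the order of a derivative of the unknowns, `Wc` the total number of derivatives on
coefficients in a monomial and `W` the total number of derivatives in a monomial. -/
inductive Pol (T : (ℕ → Sm) → Prop) (v s : ℕ → Sm) : ℕ → ℕ → ℕ → (ℕ → Sm) → Prop
  | coef {M Wc W : ℕ} {c : ℕ → Sm} (j : ℕ) : T c → j ≤ Wc → j ≤ W →
      Pol T v s M Wc W fun i => dy^[j] (c i)
  | V {M Wc W : ℕ} (j : ℕ) : j ≤ M → j ≤ W → Pol T v s M Wc W fun i => dy^[j] (v i)
  | S {M Wc W : ℕ} (j : ℕ) : j ≤ M → j ≤ W → Pol T v s M Wc W fun i => dy^[j] (s i)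
  | const {M Wc W : ℕ} (r : ℝ) : Pol T v s M Wc W fun _ => C r
  | add {M Wc W : ℕ} {f g : ℕ → Sm} : Pol T v s M Wc W f → Pol T v s M Wc W g →
      Pol T v s M Wc W fun i => f i + g i
  | mul {M Wc W : ℕ} {f g : ℕ → Sm} (Wc1 W1 Wc2 W2 : ℕ) : Pol T v s M Wc1 W1 f →
      Pol T v s M Wc2 W2 g → Wc1 + Wc2 ≤ Wc → W1 + W2 ≤ W → Pol T v s M Wc W fun i => f i * g i

namespace Pol

variable {T : (ℕ → Sm) → Prop} {v s : ℕ → Sm} {M Wc W : ℕ} {f g : ℕ → Sm}

theorem mono (h : Pol T v s M Wc W f) {M' Wc' W' : ℕ} (h1 : M ≤ M') (h2 : Wc ≤ Wc')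
    (h3 : W ≤ W') : Pol T v s M' Wc' W' f := by
  induction h generalizing Wc' W' with
  | coef j hc a b => exact .coef j hc (a.trans h2) (b.trans h3)
  | V j a b => exact .V j (a.trans h1) (b.trans h3)
  | S j a b => exact .S j (a.trans h1) (b.trans h3)
  | const r => exact .const r
  | add _ _ ih1 ih2 => exact .add (ih1 h2 h3) (ih2 h2 h3)
  | mul a b c e _ _ h4 h5 ih1 ih2 =>
    exact .mul a b c e (ih1 le_rfl le_rfl) (ih2 le_rfl le_rfl) (h4.trans h2) (h5.trans h3)

theorem dy (h : Pol T v s M Wc W f) : Pol T v s (M + 1) (Wc + 1) (W + 1) fun i => dy (f i) := by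
  induction h with
  | coef j hc a b =>
    simpa only [Function.iterate_succ_apply'] using
      Pol.coef (v := v) (s := s) (j + 1) hc (Nat.succ_le_succ a) (Nat.succ_le_succ b)
  | V j a b =>
    simpa only [Function.iterate_succ_apply'] using
      Pol.V (T := T) (v := v) (s := s) (j + 1) (Nat.succ_le_succ a) (Nat.succ_le_succ b)
  | S j a b =>
    simpa only [Function.iterate_succ_apply'] using
      Pol.S (T := T) (v := v) (s := s) (j + 1) (Nat.succ_le_succ a) (Nat.succ_le_succ b)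
  | const r => simpa only [der_C, map_zero] using Pol.const (T := T) (v := v) (s := s) 0
  | add _ _ ih1 ih2 => simpa only [map_add] using Pol.add ih1 ih2
  | mul a b c e h1 h2 h4 h5 ih1 ih2 =>
    simp only [der_mul]
    exact .add (.mul _ _ _ _ ih1 (h2.mono (Nat.le_succ _) le_rfl le_rfl) (by omega) (by omega))
      (.mul _ _ _ _ (h1.mono (Nat.le_succ _) le_rfl le_rfl) ih2 (by omega) (by omega))

theorem iter_dy (h : Pol T v s M Wc W f) (j : ℕ) :
    Pol T v s (M + j) (Wc + j) (W + j) fun i => Sm.dy^[j] (f i) := by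
  induction j with
  | zero => exact h
  | succ j ih => simp only [Function.iterate_succ_apply']; exact ih.dy

theorem natCast (n : ℕ) : Pol T v s M Wc W fun _ => (n : Sm) := by
  simpa using Pol.const (T := T) (v := v) (s := s) (M := M) (Wc := Wc) (W := W) (n : ℝ)

theorem ofNat (n : ℕ) [n.AtLeastTwo] : Pol T v s M Wc W fun _ => (ofNat(n) : Sm) := natCast n

theorem one : Pol T v s M Wc W fun _ => (1 : Sm) := by
  simpa using natCast (T := T) (v := v) (s := s) (M := M) (Wc := Wc) (W := W) 1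

theorem neg (h : Pol T v s M Wc W f) : Pol T v s M Wc W fun i => -f i := by
  simpa using Pol.mul 0 0 Wc W (Pol.const (-1)) h (by omega) (by omega)

theorem sub (h : Pol T v s M Wc W f) (h' : Pol T v s M Wc W g) :
    Pol T v s M Wc W fun i => f i - g i := by
  simpa only [sub_eq_add_neg] using h.add h'.neg

/-- Product with exact weights. -/
theorem mul' {M1 Wc1 W1 M2 Wc2 W2 : ℕ} (h : Pol T v s M1 Wc1 W1 f) (h' : Pol T v s M2 Wc2 W2 g) :
    Pol T v s (max M1 M2) (Wc1 + Wc2) (W1 + W2) fun i => f i * g i :=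
  .mul _ _ _ _ (h.mono (le_max_left _ _) le_rfl le_rfl) (h'.mono (le_max_right _ _) le_rfl le_rfl)
    le_rfl le_rfl

theorem add' {M1 Wc1 W1 M2 Wc2 W2 : ℕ} (h : Pol T v s M1 Wc1 W1 f) (h' : Pol T v s M2 Wc2 W2 g) :
    Pol T v s (max M1 M2) (max Wc1 Wc2) (max W1 W2) fun i => f i + g i :=
  .add (h.mono (le_max_left _ _) (le_max_left _ _) (le_max_left _ _))
    (h'.mono (le_max_right _ _) (le_max_right _ _) (le_max_right _ _))

theorem sub' {M1 Wc1 W1 M2 Wc2 W2 : ℕ} (h : Pol T v s M1 Wc1 W1 f) (h' : Pol T v s M2 Wc2 W2 g) :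
    Pol T v s (max M1 M2) (max Wc1 Wc2) (max W1 W2) fun i => f i - g i :=
  .sub (h.mono (le_max_left _ _) (le_max_left _ _) (le_max_left _ _))
    (h'.mono (le_max_right _ _) (le_max_right _ _) (le_max_right _ _))

theorem pow' (h : Pol T v s M Wc W f) (n : ℕ) :
    Pol T v s M (n * Wc) (n * W) fun i => f i ^ n := by
  induction n with
  | zero => simpa using one
  | succ n ih =>
    simp only [pow_succ]
    exact .mul _ _ _ _ ih h (by rw [Nat.succ_mul]) (by rw [Nat.succ_mul])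

theorem coef0 {c : ℕ → Sm} (h : T c) : Pol T v s 0 0 0 c := .coef 0 h le_rfl le_rfl
theorem v0 : Pol T v s 0 0 0 v := .V 0 le_rfl le_rfl
theorem s0 : Pol T v s 0 0 0 s := .S 0 le_rfl le_rfl
theorem v1 : Pol T v s 1 0 1 fun i => Sm.dy (v i) := .V 1 le_rfl le_rfl
theorem s1 : Pol T v s 1 0 1 fun i => Sm.dy (s i) := .S 1 le_rfl le_rfl
theorem coef1 {c : ℕ → Sm} (h : T c) : Pol T v s 0 1 1 fun i => Sm.dy (c i) :=
  .coef 1 h le_rfl le_rfl
theorem coef2 {c : ℕ → Sm} (h : T c) : Pol T v s 0 2 2 fun i => Sm.dy (Sm.dy (c i)) :=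
  .coef 2 h le_rfl le_rfl
theorem nat0 (n : ℕ) : Pol T v s 0 0 0 fun _ => (n : Sm) := natCast n
theorem ofNat0 (n : ℕ) [n.AtLeastTwo] : Pol T v s 0 0 0 fun _ => (ofNat(n) : Sm) := natCast n
theorem one0 : Pol T v s 0 0 0 fun _ => (1 : Sm) := one

end Pol

section members

variable {U : Set (ℝ × ℝ)} {lam : ℕ → ℝ} {N : ℕ} {d : ℕ → Sys}

/-- The class `Pol` attached to a sequence of systems. -/
abbrev PS (U : Set (ℝ × ℝ)) (lam : ℕ → ℝ) (N : ℕ) (d : ℕ → Sys) :=
  Pol (Tame U lam N) (fun i => (d i).v) (fun i => (d i).s)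

open Pol

theorem PS_r1v (h : TameSys U lam N d) : PS U lam N d 0 0 0 fun i => (d i).r1v :=
  ((((coef0 h.p0).add' ((coef0 h.p1).mul' s0)).add' ((coef0 h.p2).mul' (s0.pow' 2))).add'
    (((ofNat0 3).mul' (coef0 h.p3)).mul' (v0.pow' 2))).mono (by simp) (by simp) (by simp)

theorem PS_r1s (h : TameSys U lam N d) : PS U lam N d 0 0 0 fun i => (d i).r1s :=
  (v0.mul' ((coef0 h.p1).add' (((ofNat0 2).mul' (coef0 h.p2)).mul' s0))).mono
    (by simp) (by simp) (by simp)

theorem PS_r2s (h : TameSys U lam N d) : PS U lam N d 0 0 0 fun i => (d i).r2s :=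
  ((((coef0 h.q1).add' (((ofNat0 2).mul' (coef0 h.q2)).mul' s0)).add'
    (((ofNat0 3).mul' (coef0 h.q3)).mul' (s0.pow' 2))).add'
    (((coef0 h.E).mul' (v0.pow' 2)).mul' (coef0 h.q5))).mono (by simp) (by simp) (by simp)

theorem PS_q45 (h : TameSys U lam N d) :
    PS U lam N d 0 0 0 fun i => (d i).q4 + (d i).q5 * (d i).s :=
  ((coef0 h.q4).add' ((coef0 h.q5).mul' s0)).mono (by simp) (by simp) (by simp)

theorem PS_r1 (h : TameSys U lam N d) : PS U lam N d 0 0 0 fun i => (d i).r1 :=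
  ((v0.mul' (((coef0 h.p0).add' ((coef0 h.p1).mul' s0)).add' ((coef0 h.p2).mul' (s0.pow' 2)))).add'
    ((coef0 h.p3).mul' (v0.pow' 3))).mono (by simp) (by simp) (by simp)

theorem PS_r2 (h : TameSys U lam N d) : PS U lam N d 0 0 0 fun i => (d i).r2 :=
  (((((coef0 h.q1).mul' s0).add' ((coef0 h.q2).mul' (s0.pow' 2))).add'
    ((coef0 h.q3).mul' (s0.pow' 3))).add'
    (((coef0 h.E).mul' (v0.pow' 2)).mul' (PS_q45 h))).mono (by simp) (by simp) (by simp)

theorem PS_c11 (h : TameSys U lam N d) (k : ℕ) : PS U lam N d 1 0 1 fun i => (d i).c11 k :=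
  ((((nat0 k).sub' one0).mul' s1).add' (PS_r1v h)).mono (by simp) (by simp) (by simp)

theorem PS_c12 (h : TameSys U lam N d) (k : ℕ) : PS U lam N d 1 0 1 fun i => (d i).c12 k :=
  ((((nat0 k).sub' one0).neg.mul' v1).add' (PS_r1s h)).mono (by simp) (by simp) (by simp)

theorem PS_ct (h : TameSys U lam N d) (k : ℕ) : PS U lam N d 1 0 1 fun i => (d i).ct k :=
  ((((nat0 k).add' one0).mul' v1).add' (((ofNat0 2).mul' v0).mul' (PS_q45 h))).mono
    (by simp) (by simp) (by simp)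

theorem PS_c21 (h : TameSys U lam N d) (k : ℕ) : PS U lam N d 1 1 1 fun i => (d i).c21 k :=
  (((((nat0 k).add' (ofNat0 2)).mul' v0).mul' (coef1 h.E)).add'
    ((coef0 h.E).mul' (PS_ct h k))).mono (by simp) (by simp) (by simp)

theorem PS_c22 (h : TameSys U lam N d) (k : ℕ) : PS U lam N d 1 0 1 fun i => (d i).c22 k :=
  ((((nat0 k).add' one0).mul' s1).add' (PS_r2s h)).mono (by simp) (by simp) (by simp)

theorem PS_V (k : ℕ) : PS U lam N d k 0 k fun i => (d i).V k := .V k le_rfl le_rfl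
theorem PS_S (k : ℕ) : PS U lam N d k 0 k fun i => (d i).S k := .S k le_rfl le_rfl

theorem PS_f1 (h : TameSys U lam N d) (k : ℕ) :
    PS U lam N d (k + 1) (k + 2) (k + 3) fun i => (d i).f1 (k + 2) := by
  induction k with
  | zero =>
    simp only [zero_add, Sys.f1_two]
    exact ((((v0.mul' (((coef1 h.p0).add' ((coef1 h.p1).mul' s0)).add'
      ((coef1 h.p2).mul' (s0.pow' 2)))).add' ((coef1 h.p3).mul' (v0.pow' 3))).dy.add'
      ((PS_r1v h).dy.mul' v1)).add' ((PS_r1s h).dy.mul' s1)).mono (by simp) (by simp) (by simp)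
  | succ k ih =>
    simp only [show k + 1 + 2 = (k + 2) + 1 by ring, Sys.f1_succ _ (k + 2)]
    exact ((ih.dy.add' ((PS_c11 h _).dy.mul' (PS_V _))).add'
      ((PS_c12 h _).dy.mul' (PS_S _))).mono (by omega) (by omega) (by omega)

theorem PS_f2 (h : TameSys U lam N d) (k : ℕ) :
    PS U lam N d (k + 1) (k + 2) (k + 3) fun i => (d i).f2 (k + 2) := by
  induction k with
  | zero =>
    simp only [zero_add, Sys.f2_two]
    exact (((((((coef1 h.E).mul' (v1.pow' 2)).neg).add'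
      (((((((coef1 h.q1).mul' s0).add' ((coef1 h.q2).mul' (s0.pow' 2))).add'
        ((coef1 h.q3).mul' (s0.pow' 3))).add'
        (((coef1 h.E).mul' (v0.pow' 2)).mul' (PS_q45 h))).add'
        (((coef0 h.E).mul' (v0.pow' 2)).mul'
          ((coef1 h.q4).add' ((coef1 h.q5).mul' s0)))).dy)).add'
      (((((((ofNat0 3).mul' v0).mul' (coef1 h.E)).add'
        ((coef0 h.E).mul' (((ofNat0 2).mul' v0).mul' (PS_q45 h)))).dy).add'
        (((ofNat0 2).mul' (coef1 h.E)).mul' v1)).mul' v1)).add'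
      ((PS_r2s h).dy.mul' s1)).add'
      ((((ofNat0 2).mul' v0).mul' v1).mul' (coef2 h.E))).mono (by simp) (by simp) (by simp)
  | succ k ih =>
    simp only [show k + 1 + 2 = (k + 2) + 1 by ring, Sys.f2_succ _ (k + 2)]
    exact (((ih.dy.add' ((PS_c21 h _).dy.mul' (PS_V _))).add'
      ((PS_c22 h _).dy.mul' (PS_S _))).add'
      ((((ofNat0 2).mul' v0).mul' v1).mul'
        (Pol.coef (M := 0) (k + 2 + 1) h.E le_rfl le_rfl))).mono (by omega) (by omega) (by omega)

theorem PS_main (h : TameSys U lam N d) (k : ℕ) :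
    PS U lam N d 0 (k + 1) (k + 1) fun i => (d i).v ^ 2 * dy^[k + 1] (d i).E :=
  ((v0.pow' 2).mul' (Pol.coef (M := 0) (k + 1) h.E le_rfl le_rfl)).mono
    (by omega) (by omega) (by omega)

theorem PS_dxV (h : TameSys U lam N d) (k : ℕ) : PS U lam N d (k + 1) (k + 1) (k + 1)
    fun i => dy^[k] ((d i).s * dy (d i).v - (d i).v * dy (d i).s + (d i).r1) :=
  ((((s0.mul' v1).sub' (v0.mul' s1)).add' (PS_r1 h)).iter_dy k).mono
    (by simp; omega) (by simp) (by simp; omega)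

theorem PS_dxS (h : TameSys U lam N d) (k : ℕ) : PS U lam N d (k + 1) (k + 1) (k + 1)
    fun i => dy^[k] ((d i).s * dy (d i).s + (d i).v * dy ((d i).E * (d i).v) + (d i).r2) :=
  ((((s0.mul' s1).add' (v0.mul' ((coef0 h.E).mul' v0).dy)).add' (PS_r2 h)).iter_dy k).mono
    (by simp; omega) (by simp; omega) (by simp; omega)

end members

end Crest.Agent.R220
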